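import Vale.Agent.Lib.P176.EnPhi

/-!
# P176, section 5: the sequences alpha, beta at window level
-/

namespace Vale.Agent.P176

open CategoryTheory

variable {k : Type} [Field k]

/-- constructor for windows -/
def Wmk (N : Sp k) (hN : IsR N) (i : ℤ) (w : Fin 5 → N.V)
    (h : ∀ j : Fin 5, w j ∈ N.F ((j : ℕ) - i : ℤ)) : W N hN i := ⟨w, h⟩

theorem Wmk_apply (N : Sp k) (hN : IsR N) (i : ℤ) (w : Fin 5 → N.V)
    (h : ∀ j : Fin 5, w j ∈ N.F ((j : ℕ) - i : ℤ)) (j : Fin 5) : (Wmk N hN i w h).1 j = w j := rfl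

/-- `Wmap` with a free source index -/
noncomputable def WmapI (M N : Sp k) (hM : IsR M) (hN : IsR N) (s : ℤ) (φ : M.V →ₗ[k] N.V)
    (hφ : HomR M N φ) (hs : ∀ j x, x ∈ M.F j → φ x ∈ N.F (j + s)) (i' i : ℤ) (hi : i' = i + s) :
    W M hM i' →ₗ[A k] W N hN i where
  toFun w := ⟨fun j => φ (w.1 j), by
    intro j
    have := hs _ _ (w.2 j)
    have h3 : ((j : ℕ) - i' : ℤ) + s = ((j : ℕ) - i : ℤ) := by rw [hi]; ring
    rwa [h3] at this⟩
  map_add' v w := by
    apply W_ext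
    intro j
    exact map_add φ _ _
  map_smul' a w := by
    apply W_ext
    intro j
    change φ (∑ l, rho M hM (a.1 j l) (w.1 l)) = ∑ l, rho N hN (a.1 j l) (φ (w.1 l))
    rw [map_sum]
    refine Finset.sum_congr rfl (fun l _ => ?_)
    exact homR_rho M N hM hN φ hφ _ _

theorem WmapI_apply (M N : Sp k) (hM : IsR M) (hN : IsR N) (s : ℤ) (φ : M.V →ₗ[k] N.V)
    (hφ : HomR M N φ) (hs : ∀ j x, x ∈ M.F j → φ x ∈ N.F (j + s)) (i' i : ℤ) (hi : i' = i + s)
    (w : W M hM i') (j : Fin 5) : (WmapI M N hM hN s φ hφ hs i' i hi w).1 j = φ (w.1 j) := rfl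

/-- short exact sequences of `ModuleCat` from linear maps -/
theorem shortExact_of {S : Type} [Ring S] {M N P : Type} [AddCommGroup M] [AddCommGroup N]
    [AddCommGroup P] [Module S M] [Module S N] [Module S P] (f : M →ₗ[S] N) (g : N →ₗ[S] P)
    (hf : Function.Injective f) (hg : Function.Surjective g) (h0 : ∀ x, g (f x) = 0)
    (h : ∀ y, g y = 0 → ∃ x, f x = y) :
    ∃ w : ModuleCat.ofHom f ≫ ModuleCat.ofHom g = 0,
      (ShortComplex.mk (ModuleCat.ofHom f) (ModuleCat.ofHom g) w).ShortExact := by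
  have w : ModuleCat.ofHom f ≫ ModuleCat.ofHom g = 0 := by
    ext x
    exact h0 x
  refine ⟨w, ModuleCat.shortComplex_shortExact _ ?_ hf hg⟩
  intro y
  constructor
  · intro hy
    obtain ⟨x, hx⟩ := h y hy
    exact ⟨x, hx⟩
  · rintro ⟨x, rfl⟩
    exact h0 x

section
variable [CharZero k] (n : ℕ)

/-- `G n → T (G (n+1))(-1)` -/
noncomputable def wi1 : W (G k n) (isR_G n) 0 →ₗ[A k] W (T (G k (n + 1))) (isR_TG (n + 1)) 1 :=
  WmapI _ _ _ _ (-1) (iT k n) (homR_iT n) (iT_mem n) 0 1 (by norm_num)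

/-- `G n → T (G (n+1))` -/
noncomputable def wi0 : W (G k n) (isR_G n) 0 →ₗ[A k] W (T (G k (n + 1))) (isR_TG (n + 1)) 0 :=
  WmapI _ _ _ _ 0 (iT k n) (homR_iT n) (iT_mem0 n) 0 0 (by norm_num)

/-- `phi` -/
noncomputable def wphi : W (T (G k (n + 1))) (isR_TG (n + 1)) 1 →ₗ[A k]
    W (T (G k (n + 1))) (isR_TG (n + 1)) 0 :=
  WmapI _ _ _ _ 1 (phiT (G k (n + 1)) (n : k)) (homR_phiT _ (isU_G (n + 1)) _)
    (phiT_mem _ (isU_G (n + 1)) _) 1 0 (by norm_num)

/-- `T (G (n+1)) → G (n+1)` -/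
noncomputable def wpi : W (T (G k (n + 1))) (isR_TG (n + 1)) 0 →ₗ[A k]
    W (G k (n + 1)) (isR_G (n + 1)) 0 :=
  WmapI _ _ _ _ 0 (piT k n) (homR_piT n) (piT_mem n) 0 0 (by norm_num)

omit [CharZero k] in
theorem wi1_injective : Function.Injective (wi1 (k := k) n) := by
  intro a b h
  apply W_ext
  intro j
  exact iT_injective n (congrArg (fun w => w.1 j) h)

theorem wphi_wi1 (x : W (G k n) (isR_G n) 0) : wphi n (wi1 n x) = 0 := by
  apply W_ext
  intro j
  exact phi_iT n (x.1 j)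

theorem wphi_ker (y : W (T (G k (n + 1))) (isR_TG (n + 1)) 1) (hy : wphi n y = 0) :
    ∃ x, wi1 n x = y := by
  have h : ∀ j : Fin 5, ∃ q : (G k n).V, iT k n q = y.1 j := fun j =>
    phi_ker n (y.1 j) (congrArg (fun w => w.1 j) hy)
  choose q hq using h
  refine ⟨Wmk _ _ _ q (fun j => G_F_top n _ (by simp) _), ?_⟩
  apply W_ext
  intro j
  exact hq j

omit [CharZero k] in
theorem wpi_surjective : Function.Surjective (wpi (k := k) n) := by
  intro z
  have h : ∀ j : Fin 5, ∃ p ∈ PF (G k (n + 1)).F ((j : ℕ) - 0 : ℤ),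
      evmap (sc (G k (n + 1)).V (n : k)) p = z.1 j := fun j =>
    evmap_surj (G k (n + 1)).F _ _ (z.1 j) (z.2 j)
  choose p hp hpz using h
  refine ⟨Wmk _ _ _ (fun j => (p j, 0)) (fun j => ⟨hp j, zero_mem _, zero_mem _⟩), ?_⟩
  apply W_ext
  intro j
  exact hpz j

/-- the module `X_n` -/
abbrev Xn (k : Type) [Field k] [CharZero k] (n : ℕ) : Type :=
  W (T (G k (n + 1))) (isR_TG (n + 1)) 0 ⧸ LinearMap.range (wphi (k := k) n)

/-- `G n → X_n` -/
noncomputable def wf3 : W (G k n) (isR_G n) 0 →ₗ[A k] Xn k n :=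
  (LinearMap.range (wphi (k := k) n)).mkQ ∘ₗ wi0 n

/-- `X_n → G (n+1)` -/
noncomputable def wg3 : Xn k n →ₗ[A k] W (G k (n + 1)) (isR_G (n + 1)) 0 :=
  (LinearMap.range (wphi (k := k) n)).liftQ (wpi n) (by
    rintro _ ⟨x, rfl⟩
    rw [LinearMap.mem_ker]
    apply W_ext
    intro j
    exact piT_phi n (x.1 j))

theorem wf3_injective : Function.Injective (wf3 (k := k) n) := by
  rw [injective_iff_map_eq_zero]
  intro a ha
  have h1 : (LinearMap.range (wphi (k := k) n)).mkQ (wi0 n a) = 0 := ha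
  rw [Submodule.mkQ_apply, Submodule.Quotient.mk_eq_zero] at h1
  obtain ⟨y, hy⟩ := h1
  apply W_ext
  intro j
  exact iT_phi n (a.1 j) (y.1 j) (congrArg (fun w => w.1 j) hy)

theorem wg3_surjective : Function.Surjective (wg3 (k := k) n) := by
  intro z
  obtain ⟨y, hy⟩ := wpi_surjective n z
  refine ⟨(LinearMap.range (wphi (k := k) n)).mkQ y, ?_⟩
  rw [← hy, wg3, Submodule.mkQ_apply, Submodule.liftQ_apply]

theorem wg3_wf3 (x : W (G k n) (isR_G n) 0) : wg3 n (wf3 n x) = 0 := by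
  have : wg3 n (wf3 n x) = wpi n (wi0 n x) := by
    rw [wf3, LinearMap.comp_apply, wg3, Submodule.mkQ_apply, Submodule.liftQ_apply]
  rw [this]
  apply W_ext
  intro j
  exact piT_iT n (x.1 j)

theorem wg3_ker (y : Xn k n) (hy : wg3 n y = 0) : ∃ x, wf3 n x = y := by
  obtain ⟨y, rfl⟩ := (LinearMap.range (wphi (k := k) n)).mkQ_surjective y
  have hy' : wpi n y = 0 := by
    rw [wg3, Submodule.mkQ_apply, Submodule.liftQ_apply] at hy
    exact hy
  have h : ∀ j : Fin 5, ∃ u ∈ (T (G k (n + 1))).F (((j : ℕ) - 0 : ℤ) - 1), ∃ q : (G k n).V,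
      y.1 j = phiT (G k (n + 1)) (n : k) u + iT k n q := fun j =>
    piT_ker n ((j : ℕ) - 0 : ℤ) (by simp) (y.1 j) (y.2 j) (congrArg (fun w => w.1 j) hy')
  choose u hu q hq using h
  refine ⟨Wmk _ _ _ q (fun j => G_F_top n _ (by simp) _), ?_⟩
  rw [wf3, LinearMap.comp_apply, ← sub_eq_zero, ← map_sub, Submodule.mkQ_apply,
    Submodule.Quotient.mk_eq_zero]
  refine ⟨-(Wmk _ _ _ u (fun j => ?_)), ?_⟩
  · have h1 := hu j
    rwa [sub_zero] at h1
  · rw [map_neg]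
    apply W_ext
    intro j
    change -(phiT (G k (n + 1)) (n : k) (u j)) = iT k n (q j) - y.1 j
    rw [hq j]
    abel

/-- the image of `phi` -/
def In (k : Type) [Field k] [CharZero k] (n : ℕ) : Type := LinearMap.range (wphi (k := k) n)

noncomputable instance : AddCommGroup (In k n) :=
  inferInstanceAs (AddCommGroup (LinearMap.range (wphi (k := k) n)))

noncomputable instance : Module (A k) (In k n) :=
  inferInstanceAs (Module (A k) (LinearMap.range (wphi (k := k) n)))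

/-- `phi` onto its range -/
noncomputable def wrr : W (T (G k (n + 1))) (isR_TG (n + 1)) 1 →ₗ[A k] In k n where
  toFun y := (⟨wphi n y, ⟨y, rfl⟩⟩ : LinearMap.range (wphi (k := k) n))
  map_add' a b := Subtype.ext (map_add (wphi n) a b)
  map_smul' a b := Subtype.ext (map_smul (wphi n) a b)

/-- the inclusion of the image -/
noncomputable def win : In k n →ₗ[A k] W (T (G k (n + 1))) (isR_TG (n + 1)) 0 where
  toFun y := y.1
  map_add' _ _ := rfl
  map_smul' _ _ := rfl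

theorem win_wrr (y : W (T (G k (n + 1))) (isR_TG (n + 1)) 1) : win n (wrr n y) = wphi n y := rfl

theorem wrr_surjective : Function.Surjective (wrr (k := k) n) := by
  rintro ⟨_, y, rfl⟩
  exact ⟨y, rfl⟩

theorem win_injective : Function.Injective (win (k := k) n) := by
  intro a b h
  exact Subtype.ext h

theorem wrr_ker (y : W (T (G k (n + 1))) (isR_TG (n + 1)) 1) (hy : wrr n y = 0) :
    ∃ x, wi1 n x = y := by
  apply wphi_ker n y
  rw [← win_wrr, hy, map_zero]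

theorem wrr_wi1 (x : W (G k n) (isR_G n) 0) : wrr n (wi1 n x) = 0 := Subtype.ext (wphi_wi1 n x)

/-- the projection onto `X_n` -/
noncomputable def wq : W (T (G k (n + 1))) (isR_TG (n + 1)) 0 →ₗ[A k] Xn k n :=
  (LinearMap.range (wphi (k := k) n)).mkQ

theorem wq_surjective : Function.Surjective (wq (k := k) n) := Submodule.mkQ_surjective _

theorem wq_win (x : In k n) : wq n (win n x) = 0 := by
  rw [wq, Submodule.mkQ_apply, Submodule.Quotient.mk_eq_zero]
  exact x.2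

theorem wq_ker (y : W (T (G k (n + 1))) (isR_TG (n + 1)) 0) (hy : wq n y = 0) :
    ∃ x, win n x = y := by
  rw [wq, Submodule.mkQ_apply, Submodule.Quotient.mk_eq_zero] at hy
  exact ⟨⟨y, hy⟩, rfl⟩

theorem alpha1 :
    ∃ w : ModuleCat.ofHom (wi1 (k := k) n) ≫ ModuleCat.ofHom (wrr (k := k) n) = 0,
      (ShortComplex.mk (ModuleCat.ofHom (wi1 (k := k) n)) (ModuleCat.ofHom (wrr (k := k) n))
        w).ShortExact :=
  shortExact_of (wi1 (k := k) n) (wrr (k := k) n) (wi1_injective n) (wrr_surjective n)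
    (wrr_wi1 n) (wrr_ker n)

theorem alpha2 :
    ∃ w : ModuleCat.ofHom (win (k := k) n) ≫ ModuleCat.ofHom (wq (k := k) n) = 0,
      (ShortComplex.mk (ModuleCat.ofHom (win (k := k) n)) (ModuleCat.ofHom (wq (k := k) n))
        w).ShortExact :=
  shortExact_of (win (k := k) n) (wq (k := k) n) (win_injective n) (wq_surjective n)
    (wq_win n) (wq_ker n)

theorem beta1 :
    ∃ w : ModuleCat.ofHom (wf3 (k := k) n) ≫ ModuleCat.ofHom (wg3 (k := k) n) = 0,
      (ShortComplex.mk (ModuleCat.ofHom (wf3 (k := k) n)) (ModuleCat.ofHom (wg3 (k := k) n))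
        w).ShortExact :=
  shortExact_of (wf3 (k := k) n) (wg3 (k := k) n)
    (wf3_injective n) (wg3_surjective n) (wg3_wf3 n) (wg3_ker n)

/-- alpha (cut into two short exact sequences) and beta. -/
theorem alphaBeta :
    ∃ (I X : ModuleCat.{0} (A k))
      (f₁ : WM (G k n) (isR_G n) 0 ⟶ WM (T (G k (n + 1))) (isR_TG (n + 1)) 1)
      (g₁ : WM (T (G k (n + 1))) (isR_TG (n + 1)) 1 ⟶ I) (w₁ : f₁ ≫ g₁ = 0)
      (f₂ : I ⟶ WM (T (G k (n + 1))) (isR_TG (n + 1)) 0)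
      (g₂ : WM (T (G k (n + 1))) (isR_TG (n + 1)) 0 ⟶ X) (w₂ : f₂ ≫ g₂ = 0)
      (f₃ : WM (G k n) (isR_G n) 0 ⟶ X)
      (g₃ : X ⟶ WM (G k (n + 1)) (isR_G (n + 1)) 0) (w₃ : f₃ ≫ g₃ = 0),
      (ShortComplex.mk f₁ g₁ w₁).ShortExact ∧ (ShortComplex.mk f₂ g₂ w₂).ShortExact ∧
      (ShortComplex.mk f₃ g₃ w₃).ShortExact := by
  obtain ⟨w₁, h₁⟩ := alpha1 (k := k) n
  obtain ⟨w₂, h₂⟩ := alpha2 (k := k) n
  obtain ⟨w₃, h₃⟩ := beta1 (k := k) n
  exact ⟨_, _, _, _, w₁, _, _, w₂, _, _, w₃, h₁, h₂, h₃⟩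

end

end Vale.Agent.P176
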