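import Vale.Agent.Lib.P176.MRel1

/-!
# P176: the Poly lemma

`0 → V[x](-1) (D) -> V[x] (ev) -> V → 0`, `D (x^a v) = x^{a+1} v - x^a θ v`,
`ev (x^a v) = θ^a v`, is a filtered exact sequence for every level `j`, if `θ` raises the
filtration by one.
Injectivity: top coefficient. Kernel: if `p ∈ PF F (j+1)` and `ev p = 0`, induct on a bound for the
degree of `p`: subtract `D (x^{a-1} p_a)`, with `p_a ∈ F (j + 1 - a) = F (j - (a-1))`;
in degree `0`: `ev p = p 0 = 0`.
-/

namespace Vale.Agent.P176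

variable {k : Type} [Field k]

section
variable {V : Type} [AddCommGroup V] [Module k V] (F : ℤ → Submodule k V) (θ : V →ₗ[k] V)

theorem mpoly_Dmap_zero (p : ℕ →₀ V) : Dmap θ p 0 = -θ (p 0) := by
  change (shift k V p - Pmap θ p) 0 = _
  rw [Finsupp.sub_apply, shift_apply_zero, zero_sub]
  rfl

theorem mpoly_Dmap_succ (p : ℕ →₀ V) (a : ℕ) : Dmap θ p (a + 1) = p a - θ (p (a + 1)) := by
  change (shift k V p - Pmap θ p) (a + 1) = _
  rw [Finsupp.sub_apply, shift_apply_succ]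
  rfl

theorem mpoly_Dmap_single (a : ℕ) (v : V) :
    Dmap θ (Finsupp.single a v) = Finsupp.single (a + 1) v - Finsupp.single a (θ v) := by
  change shift k V (Finsupp.single a v) - Pmap θ (Finsupp.single a v) = _
  rw [shift_single]
  congr 1
  exact Finsupp.mapRange_single (hf := map_zero θ)

theorem mpoly_evmap_single (a : ℕ) (v : V) : evmap θ (Finsupp.single a v) = (θ ^ a) v := by
  simp [evmap]

theorem mpoly_pow_mem (hθ : ∀ j x, x ∈ F j → θ x ∈ F (j + 1)) (a : ℕ) :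
    ∀ (j : ℤ) (x : V), x ∈ F j → (θ ^ a) x ∈ F (j + a) := by
  induction a with
  | zero =>
    intro j x hx
    simpa using hx
  | succ a ih =>
    intro j x hx
    rw [pow_succ', Module.End.mul_apply]
    have h := hθ _ _ (ih j x hx)
    have e : j + (a : ℤ) + 1 = j + ((a + 1 : ℕ) : ℤ) := by push_cast; ring
    rwa [e] at h

theorem mpoly_single_mem (j : ℤ) (a : ℕ) (v : V) (hv : v ∈ F (j - a)) :
    Finsupp.single a v ∈ PF F j := by
  rw [mem_PF]
  intro b
  by_cases hb : b = a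
  · subst hb
    rwa [Finsupp.single_eq_same]
  · rw [Finsupp.single_eq_of_ne hb]
    exact (F _).zero_mem

theorem Dmap_injective : Function.Injective (Dmap θ) := by
  rw [injective_iff_map_eq_zero]
  intro p hp
  have h1 : ∀ a, p a = θ (p (a + 1)) := by
    intro a
    have h := mpoly_Dmap_succ θ p a
    rw [hp, Finsupp.zero_apply] at h
    exact (sub_eq_zero.1 h.symm)
  have h2 : ∀ m a, p a = (θ ^ m) (p (a + m)) := by
    intro m
    induction m with
    | zero => intro a; simp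
    | succ m ih =>
      intro a
      rw [pow_succ, Module.End.mul_apply, ← add_assoc, ← h1, ← ih]
  obtain ⟨n, hn⟩ := p.support.bddAbove
  ext a
  rw [Finsupp.zero_apply, h2 (n + 1) a]
  have h3 : p (a + (n + 1)) = 0 := by
    by_contra hc
    have := hn (Finsupp.mem_support_iff.2 hc)
    omega
  rw [h3, map_zero]

theorem Dmap_mem (mono : ∀ i j, i ≤ j → F i ≤ F j) (hθ : ∀ j x, x ∈ F j → θ x ∈ F (j + 1))
    (j : ℤ) (p : ℕ →₀ V) (hp : p ∈ PF F j) : Dmap θ p ∈ PF F (j + 1) := by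
  rw [mem_PF] at hp ⊢
  intro a
  cases a with
  | zero =>
    rw [mpoly_Dmap_zero]
    refine (F _).neg_mem ?_
    have h := hθ _ _ (hp 0)
    have e : j - ((0 : ℕ) : ℤ) + 1 = j + 1 - ((0 : ℕ) : ℤ) := by simp
    rwa [e] at h
  | succ a =>
    rw [mpoly_Dmap_succ]
    refine (F _).sub_mem ?_ ?_
    · have h := hp a
      have e : j - (a : ℤ) = j + 1 - ((a + 1 : ℕ) : ℤ) := by push_cast; ring
      rwa [e] at h
    · have h := hθ _ _ (hp (a + 1))
      have e : j - ((a + 1 : ℕ) : ℤ) + 1 = j + 1 - ((a + 1 : ℕ) : ℤ) := by ring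
      rwa [e] at h

theorem evmap_mem (hθ : ∀ j x, x ∈ F j → θ x ∈ F (j + 1))
    (j : ℤ) (p : ℕ →₀ V) (hp : p ∈ PF F j) : evmap θ p ∈ F j := by
  rw [mem_PF] at hp
  change (Finsupp.lsum k (fun a : ℕ => θ ^ a)) p ∈ F j
  rw [Finsupp.lsum_apply, Finsupp.sum]
  refine (F j).sum_mem fun a _ => ?_
  have h := mpoly_pow_mem F θ hθ a _ _ (hp a)
  have e : j - (a : ℤ) + a = j := by ring
  rwa [e] at h

theorem evmap_Dmap (p : ℕ →₀ V) : evmap θ (Dmap θ p) = 0 := by
  have h : evmap θ ∘ₗ Dmap θ = 0 := by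
    refine Finsupp.lhom_ext' fun a => LinearMap.ext fun v => ?_
    change evmap θ (Dmap θ (Finsupp.single a v)) = 0
    rw [mpoly_Dmap_single, map_sub, mpoly_evmap_single, mpoly_evmap_single, pow_succ,
      Module.End.mul_apply, sub_self]
  exact LinearMap.congr_fun h p

theorem mpoly_lift_aux (mono : ∀ i j, i ≤ j → F i ≤ F j)
    (hθ : ∀ j x, x ∈ F j → θ x ∈ F (j + 1)) (j : ℤ) (n : ℕ) :
    ∀ (p : ℕ →₀ V), p ∈ PF F (j + 1) → (∀ a, n < a → p a = 0) → evmap θ p = 0 →
      ∃ q ∈ PF F j, Dmap θ q = p := by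
  induction n with
  | zero =>
    intro p _ hn h0
    have e : p = Finsupp.single 0 (p 0) := by
      ext a
      by_cases ha : a = 0
      · subst ha
        rw [Finsupp.single_eq_same]
      · rw [Finsupp.single_eq_of_ne ha, hn a (by omega)]
    have h1 : p 0 = 0 := by
      rw [e, mpoly_evmap_single, pow_zero] at h0
      simpa using h0
    refine ⟨0, (PF F j).zero_mem, ?_⟩
    rw [map_zero, e, h1, Finsupp.single_zero]
  | succ n ih =>
    intro p hp hn h0
    have hq : Finsupp.single n (p (n + 1)) ∈ PF F j := by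
      refine mpoly_single_mem F j n _ ?_
      have h := (mem_PF F (j + 1) p).1 hp (n + 1)
      have e : j + 1 - ((n + 1 : ℕ) : ℤ) = j - (n : ℤ) := by push_cast; ring
      rwa [e] at h
    obtain ⟨q, hqm, hqe⟩ := ih (p - Dmap θ (Finsupp.single n (p (n + 1))))
      ((PF F (j + 1)).sub_mem hp (Dmap_mem F θ mono hθ j _ hq))
      (fun a ha => by
        rw [mpoly_Dmap_single, Finsupp.sub_apply, Finsupp.sub_apply,
          Finsupp.single_eq_of_ne (show a ≠ n by omega), sub_zero]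
        by_cases h : a = n + 1
        · subst h
          rw [Finsupp.single_eq_same, sub_self]
        · rw [Finsupp.single_eq_of_ne h, hn a (by omega), sub_zero])
      (by rw [map_sub, h0, evmap_Dmap, sub_zero])
    exact ⟨q + Finsupp.single n (p (n + 1)), (PF F j).add_mem hqm hq, by
      rw [map_add, hqe, sub_add_cancel]⟩

theorem Dmap_lift (mono : ∀ i j, i ≤ j → F i ≤ F j) (hθ : ∀ j x, x ∈ F j → θ x ∈ F (j + 1))
    (j : ℤ) (p : ℕ →₀ V) (hp : p ∈ PF F (j + 1)) (h0 : evmap θ p = 0) :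
    ∃ q ∈ PF F j, Dmap θ q = p := by
  obtain ⟨n, hn⟩ := p.support.bddAbove
  refine mpoly_lift_aux F θ mono hθ j n p hp (fun a ha => ?_) h0
  by_contra hc
  have := hn (Finsupp.mem_support_iff.2 hc)
  omega

theorem evmap_surj (j : ℤ) (z : V) (hz : z ∈ F j) :
    ∃ p ∈ PF F j, evmap θ p = z := by
  refine ⟨Finsupp.single 0 z, mpoly_single_mem F j 0 z (by simpa using hz), ?_⟩
  rw [mpoly_evmap_single, pow_zero, Module.End.one_apply]

end

theorem poly_M3 (N : Sp k) (h : IsH N) :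
    Ex 1 (M3 N) (M3 N) N (Dmap (N.act .h)) (evmap (N.act .h)) :=
  ⟨Dmap_injective _, Dmap_mem N.F _ h.mono h.h_mem, evmap_mem N.F _ h.h_mem, evmap_Dmap _,
    Dmap_lift N.F _ h.mono h.h_mem, evmap_surj N.F _⟩

theorem poly_M2 (N : Sp k) (h : IsB N) :
    Ex 1 (M2 (sh 2 N)) (M2 N) N (Dmap (N.act .e)) (evmap (N.act .e)) :=
  ⟨Dmap_injective _, Dmap_mem N.F _ h.mono h.e_mem, evmap_mem N.F _ h.e_mem, evmap_Dmap _,
    Dmap_lift N.F _ h.mono h.e_mem, evmap_surj N.F _⟩

theorem poly_M1 (N : Sp k) (h : IsU N) :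
    Ex 1 (M1 (sh (-2) N)) (M1 N) N (Dmap (N.act .f)) (evmap (N.act .f)) :=
  ⟨Dmap_injective _, Dmap_mem N.F _ h.mono h.f_mem, evmap_mem N.F _ h.f_mem, evmap_Dmap _,
    Dmap_lift N.F _ h.mono h.f_mem, evmap_surj N.F _⟩

end Vale.Agent.P176
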