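import Vale.Agent.Lib.P176.MRelT

/-!
# P176: `T` of an `sl₂`-module is an `R`-module

Write `x = (p, q)`. `b_k (p, q) = (0, ∑_l K^l ι_k (p l))`, `c (p, q) = (shift p, (K-1) q)`.
All relations are linear in `x`; for `p` reduce to `p = Finsupp.single l y`
(`Finsupp.induction_linear`), use that `K` (hence `K^l`) commutes with `actV e, f, h` and
`K (y, 0) = ((h-2) y, 2 f y)`, `K (0, y) = (2 e y, -(h+2) y)`.
-/

namespace Vale.Agent.P176

variable {k : Type} [Field k]

private theorem actV_e_apply (N : Sp k) (q : N.V × N.V) :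
    actV N .e q = (N.act .e q.1, N.act .e q.2 - q.1) := rfl
private theorem actV_f_apply (N : Sp k) (q : N.V × N.V) :
    actV N .f q = (N.act .f q.1 - q.2, N.act .f q.2) := rfl
private theorem actV_h_apply (N : Sp k) (q : N.V × N.V) :
    actV N .h q = (N.act .h q.1 - q.1, N.act .h q.2 + q.2) := rfl
private theorem actV_c_apply (N : Sp k) (q : N.V × N.V) :
    actV N .c q = KK N q - q := rfl
private theorem KK_apply (N : Sp k) (q : N.V × N.V) :
    KK N q = (N.act .h q.1 - (2 : k) • q.1 + (2 : k) • N.act .e q.2,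
      (2 : k) • N.act .f q.1 - (N.act .h q.2 + (2 : k) • q.2)) := rfl

private theorem T_e (N : Sp k) (x : (T N).V) :
    (T N).act .e x = (Finsupp.mapRange.linearMap (N.act .e) x.1, actV N .e x.2) := rfl
private theorem T_f (N : Sp k) (x : (T N).V) :
    (T N).act .f x = (Finsupp.mapRange.linearMap (N.act .f) x.1, actV N .f x.2) := rfl
private theorem T_h (N : Sp k) (x : (T N).V) :
    (T N).act .h x = (Finsupp.mapRange.linearMap (N.act .h) x.1, actV N .h x.2) := rfl
private theorem T_c (N : Sp k) (x : (T N).V) :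
    (T N).act .c x = (shift k N.V x.1, actV N .c x.2) := rfl

private noncomputable def B1 (N : Sp k) : (ℕ →₀ N.V) →ₗ[k] (N.V × N.V) :=
  Finsupp.lsum k (fun l : ℕ => (KK N ^ l) ∘ₗ LinearMap.inl k N.V N.V)
private noncomputable def B2 (N : Sp k) : (ℕ →₀ N.V) →ₗ[k] (N.V × N.V) :=
  Finsupp.lsum k (fun l : ℕ => (KK N ^ l) ∘ₗ LinearMap.inr k N.V N.V)

private theorem T_b1 (N : Sp k) (x : (T N).V) :
    (T N).act .b1 x = ((0 : ℕ →₀ N.V), B1 N x.1) := rfl
private theorem T_b2 (N : Sp k) (x : (T N).V) :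
    (T N).act .b2 x = ((0 : ℕ →₀ N.V), B2 N x.1) := rfl

private theorem B1_single (N : Sp k) (l : ℕ) (y : N.V) :
    B1 N (Finsupp.single l y) = (KK N ^ l) (y, 0) := by
  rw [B1, Finsupp.lsum_single]; rfl
private theorem B2_single (N : Sp k) (l : ℕ) (y : N.V) :
    B2 N (Finsupp.single l y) = (KK N ^ l) (0, y) := by
  rw [B2, Finsupp.lsum_single]; rfl

private theorem pow_comm (N : Sp k) (g : Gen) (h : ∀ q, KK N (actV N g q) = actV N g (KK N q))
    (l : ℕ) (q : N.V × N.V) : (KK N ^ l) (actV N g q) = actV N g ((KK N ^ l) q) := by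
  induction l with
  | zero => simp
  | succ l ih =>
    rw [pow_succ', Module.End.mul_apply, Module.End.mul_apply, ih, h]

/-- linear induction principle -/
private theorem ext_single {M : Type} [AddCommGroup M] [Module k M] {V : Type} [AddCommGroup V]
    [Module k V] (φ ψ : (ℕ →₀ V) →ₗ[k] M)
    (h : ∀ l y, φ (Finsupp.single l y) = ψ (Finsupp.single l y)) (p : ℕ →₀ V) : φ p = ψ p := by
  have : φ = ψ := Finsupp.lhom_ext h
  rw [this]

private theorem mem_TF (N : Sp k) (j : ℤ) (x : (T N).V) :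
    x ∈ (T N).F j ↔ (∀ a : ℕ, x.1 a ∈ N.F (j - a)) ∧ x.2.1 ∈ N.F (j + 1) ∧ x.2.2 ∈ N.F (j + 1) :=
  Iff.rfl

theorem isU_T (N : Sp k) (h : IsU N) : IsU (T N) := by
  refine ⟨⟨⟨?_, ?_⟩, ?_, ?_⟩, ?_, ?_, ?_⟩
  · intro i j hij x hx
    rw [mem_TF] at hx ⊢
    refine ⟨fun a => h.mono _ _ (by omega) (hx.1 a), h.mono _ _ (by omega) hx.2.1,
      h.mono _ _ (by omega) hx.2.2⟩
  · intro j x hx
    rw [mem_TF] at hx ⊢
    rw [T_h, actV_h_apply]
    refine ⟨fun a => ?_, ?_, ?_⟩
    · have := h.h_mem _ _ (hx.1 a)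
      rw [show j - (a : ℤ) + 1 = j + 1 - a by ring] at this
      simpa using this
    · exact (N.F _).sub_mem (h.h_mem _ _ hx.2.1) (h.mono _ _ (by omega) hx.2.1)
    · exact (N.F _).add_mem (h.h_mem _ _ hx.2.2) (h.mono _ _ (by omega) hx.2.2)
  · intro j x hx
    rw [mem_TF] at hx ⊢
    rw [T_e, actV_e_apply]
    refine ⟨fun a => ?_, ?_, ?_⟩
    · have := h.e_mem _ _ (hx.1 a)
      rw [show j - (a : ℤ) + 1 = j + 1 - a by ring] at this
      simpa using this
    · exact h.e_mem _ _ hx.2.1
    · exact (N.F _).sub_mem (h.e_mem _ _ hx.2.2) (h.mono _ _ (by omega) hx.2.1)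
  · intro x
    refine Prod.ext ?_ ?_
    · show Finsupp.mapRange.linearMap (N.act .h) (Finsupp.mapRange.linearMap (N.act .e) x.1)
        = Finsupp.mapRange.linearMap (N.act .e) (Finsupp.mapRange.linearMap (N.act .h) x.1)
          + (2 : k) • Finsupp.mapRange.linearMap (N.act .e) x.1
      apply Finsupp.ext
      intro a
      simpa using h.he (x.1 a)
    · show actV N .h (actV N .e x.2) = actV N .e (actV N .h x.2) + (2 : k) • actV N .e x.2
      rw [actV_e_apply, actV_h_apply, actV_h_apply, actV_e_apply]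
      refine Prod.ext ?_ ?_
      · simp only [Prod.fst_add, Prod.smul_fst, map_sub]
        rw [h.he]; module
      · simp only [Prod.snd_add, Prod.smul_snd, map_sub, map_add]
        rw [h.he]; module
  · intro j x hx
    rw [mem_TF] at hx ⊢
    rw [T_f, actV_f_apply]
    refine ⟨fun a => ?_, ?_, ?_⟩
    · have := h.f_mem _ _ (hx.1 a)
      rw [show j - (a : ℤ) + 1 = j + 1 - a by ring] at this
      simpa using this
    · exact (N.F _).sub_mem (h.f_mem _ _ hx.2.1) (h.mono _ _ (by omega) hx.2.2)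
    · exact h.f_mem _ _ hx.2.2
  · intro x
    refine Prod.ext ?_ ?_
    · show Finsupp.mapRange.linearMap (N.act .e) (Finsupp.mapRange.linearMap (N.act .f) x.1)
        = Finsupp.mapRange.linearMap (N.act .f) (Finsupp.mapRange.linearMap (N.act .e) x.1)
          + Finsupp.mapRange.linearMap (N.act .h) x.1
      apply Finsupp.ext
      intro a
      simpa using h.ef (x.1 a)
    · show actV N .e (actV N .f x.2) = actV N .f (actV N .e x.2) + actV N .h x.2
      rw [actV_e_apply, actV_f_apply, actV_f_apply, actV_e_apply, actV_h_apply]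
      refine Prod.ext ?_ ?_
      · simp only [Prod.fst_add, map_sub]
        rw [h.ef]; module
      · simp only [Prod.snd_add, map_sub, map_add]
        rw [h.ef]; module
  · intro x
    refine Prod.ext ?_ ?_
    · show Finsupp.mapRange.linearMap (N.act .h) (Finsupp.mapRange.linearMap (N.act .f) x.1)
        = Finsupp.mapRange.linearMap (N.act .f) (Finsupp.mapRange.linearMap (N.act .h) x.1)
          - (2 : k) • Finsupp.mapRange.linearMap (N.act .f) x.1
      apply Finsupp.ext
      intro a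
      simpa using h.hf (x.1 a)
    · show actV N .h (actV N .f x.2) = actV N .f (actV N .h x.2) - (2 : k) • actV N .f x.2
      rw [actV_f_apply, actV_h_apply, actV_h_apply, actV_f_apply]
      refine Prod.ext ?_ ?_
      · simp only [Prod.fst_sub, Prod.smul_fst, map_sub]
        rw [h.hf]; module
      · simp only [Prod.snd_sub, Prod.smul_snd, map_add]
        rw [h.hf]; module

private theorem shift_mem' (N : Sp k) (j : ℤ) (p : ℕ →₀ N.V) (hp : ∀ a : ℕ, p a ∈ N.F (j - a))
    (a : ℕ) : (shift k N.V p) a ∈ N.F (j + 1 - a) := by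
  have hsh : shift k N.V p = Finsupp.mapDomain Nat.succ p := rfl
  rw [hsh]
  cases a with
  | zero =>
    rw [Finsupp.mapDomain_of_notMem_range]
    · exact (N.F _).zero_mem
    · rintro ⟨b, hb⟩
      exact Nat.succ_ne_zero b hb
  | succ a =>
    have : (Finsupp.mapDomain Nat.succ p) (Nat.succ a) = p a :=
      Finsupp.mapDomain_apply Nat.succ_injective p a
    rw [show a + 1 = Nat.succ a from rfl, this]
    have h2 := hp a
    rw [show j - (a : ℤ) = j + 1 - (Nat.succ a : ℕ) by push_cast; ring] at h2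
    exact h2

private theorem B1_mem (N : Sp k) (h : IsU N) (j : ℤ) (p : ℕ →₀ N.V)
    (hp : ∀ a : ℕ, p a ∈ N.F (j - a)) : B1 N p ∈ (N.F j).prod (N.F j) := by
  have : B1 N p = p.sum (fun l y => (KK N ^ l) (y, 0)) := by
    rw [B1, Finsupp.lsum_apply]; rfl
  rw [this]
  apply Submodule.sum_mem
  intro l _
  have h1 := KK_pow_mem N h l (j - l) (p l, 0) (hp l) (N.F _).zero_mem
  rw [show j - (l : ℤ) + l = j by ring] at h1
  exact ⟨h1.1, h1.2⟩

private theorem B2_mem (N : Sp k) (h : IsU N) (j : ℤ) (p : ℕ →₀ N.V)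
    (hp : ∀ a : ℕ, p a ∈ N.F (j - a)) : B2 N p ∈ (N.F j).prod (N.F j) := by
  have : B2 N p = p.sum (fun l y => (KK N ^ l) (0, y)) := by
    rw [B2, Finsupp.lsum_apply]; rfl
  rw [this]
  apply Submodule.sum_mem
  intro l _
  have h1 := KK_pow_mem N h l (j - l) (0, p l) (N.F _).zero_mem (hp l)
  rw [show j - (l : ℤ) + l = j by ring] at h1
  exact ⟨h1.1, h1.2⟩

private theorem shift_comm (N : Sp k) (φ : N.V →ₗ[k] N.V) (p : ℕ →₀ N.V) :
    shift k N.V (Finsupp.mapRange.linearMap φ p) = Finsupp.mapRange.linearMap φ (shift k N.V p) := by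
  refine ext_single (shift k N.V ∘ₗ Finsupp.mapRange.linearMap φ)
    (Finsupp.mapRange.linearMap φ ∘ₗ shift k N.V) ?_ p
  intro l y
  simp

private theorem B1_mr (N : Sp k) (φ : N.V →ₗ[k] N.V) (l : ℕ) (y : N.V) :
    B1 N (Finsupp.mapRange.linearMap φ (Finsupp.single l y)) = (KK N ^ l) (φ y, 0) := by
  rw [Finsupp.mapRange.linearMap_apply, Finsupp.mapRange_single, B1_single]
private theorem B2_mr (N : Sp k) (φ : N.V →ₗ[k] N.V) (l : ℕ) (y : N.V) :
    B2 N (Finsupp.mapRange.linearMap φ (Finsupp.single l y)) = (KK N ^ l) (0, φ y) := by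
  rw [Finsupp.mapRange.linearMap_apply, Finsupp.mapRange_single, B2_single]

private theorem pair_zero {N : Sp k} {a b : N.V × N.V} (h : a = b) :
    (((0 : ℕ →₀ N.V), a) : (ℕ →₀ N.V) × (N.V × N.V)) = (0, b) := by rw [h]

theorem isR_T (N : Sp k) (h : IsU N) : IsR (T N) := by
  have hU := isU_T N h
  have Ke := pow_comm N .e (KK_comm_e N h)
  have Kf := pow_comm N .f (KK_comm_f N h)
  have Kh := pow_comm N .h (KK_comm_h N h)
  refine ⟨hU, ?_, ?_, ?_, ?_, ?_, ?_, ?_, ?_, ?_, ?_, ?_, ?_, ?_, ?_, ?_, ?_, ?_, ?_, ?_, ?_⟩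
  · intro j x hx
    rw [mem_TF] at hx ⊢
    rw [T_c, actV_c_apply]
    have h1 := KK_mem N h (j + 1) x.2 hx.2.1 hx.2.2
    refine ⟨shift_mem' N j x.1 hx.1, ?_, ?_⟩
    · exact (N.F _).sub_mem h1.1 (h.mono _ _ (by omega) hx.2.1)
    · exact (N.F _).sub_mem h1.2 (h.mono _ _ (by omega) hx.2.2)
  · intro j x hx
    rw [mem_TF] at hx ⊢
    rw [T_b1]
    have h1 := B1_mem N h j x.1 hx.1
    rw [show j - 1 + 1 = j by ring]
    exact ⟨fun a => (N.F _).zero_mem, h1.1, h1.2⟩
  · intro j x hx
    rw [mem_TF] at hx ⊢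
    rw [T_b2]
    have h1 := B2_mem N h j x.1 hx.1
    rw [show j - 1 + 1 = j by ring]
    exact ⟨fun a => (N.F _).zero_mem, h1.1, h1.2⟩
  · intro x
    refine Prod.ext (shift_comm N _ _) ?_
    show actV N .c (actV N .e x.2) = actV N .e (actV N .c x.2)
    rw [actV_c_apply, actV_c_apply, KK_comm_e N h, map_sub]
  · intro x
    refine Prod.ext (shift_comm N _ _) ?_
    show actV N .c (actV N .f x.2) = actV N .f (actV N .c x.2)
    rw [actV_c_apply, actV_c_apply, KK_comm_f N h, map_sub]
  · intro x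
    refine Prod.ext (shift_comm N _ _) ?_
    show actV N .c (actV N .h x.2) = actV N .h (actV N .c x.2)
    rw [actV_c_apply, actV_c_apply, KK_comm_h N h, map_sub]
  · -- e b1
    intro x
    refine Prod.ext ?_ ?_
    · show Finsupp.mapRange.linearMap (N.act .e) 0 = 0 - 0
      simp
    · show actV N .e (B1 N x.1) = B1 N (Finsupp.mapRange.linearMap (N.act .e) x.1) - B2 N x.1
      refine ext_single (actV N .e ∘ₗ B1 N)
        (B1 N ∘ₗ Finsupp.mapRange.linearMap (N.act .e) - B2 N) ?_ x.1
      intro l y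
      rw [LinearMap.comp_apply, LinearMap.sub_apply, LinearMap.comp_apply, B1_mr, B1_single,
        B2_single, ← Ke, ← map_sub, actV_e_apply]
      simp
  · -- e b2
    intro x
    refine Prod.ext ?_ ?_
    · show Finsupp.mapRange.linearMap (N.act .e) 0 = 0
      simp
    · show actV N .e (B2 N x.1) = B2 N (Finsupp.mapRange.linearMap (N.act .e) x.1)
      refine ext_single (actV N .e ∘ₗ B2 N)
        (B2 N ∘ₗ Finsupp.mapRange.linearMap (N.act .e)) ?_ x.1
      intro l y
      rw [LinearMap.comp_apply, LinearMap.comp_apply, B2_mr, B2_single, ← Ke, actV_e_apply]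
      simp
  · -- f b1
    intro x
    refine Prod.ext ?_ ?_
    · show Finsupp.mapRange.linearMap (N.act .f) 0 = 0
      simp
    · show actV N .f (B1 N x.1) = B1 N (Finsupp.mapRange.linearMap (N.act .f) x.1)
      refine ext_single (actV N .f ∘ₗ B1 N)
        (B1 N ∘ₗ Finsupp.mapRange.linearMap (N.act .f)) ?_ x.1
      intro l y
      rw [LinearMap.comp_apply, LinearMap.comp_apply, B1_mr, B1_single, ← Kf, actV_f_apply]
      simp
  · -- f b2
    intro x
    refine Prod.ext ?_ ?_
    · show Finsupp.mapRange.linearMap (N.act .f) 0 = 0 - 0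
      simp
    · show actV N .f (B2 N x.1) = B2 N (Finsupp.mapRange.linearMap (N.act .f) x.1) - B1 N x.1
      refine ext_single (actV N .f ∘ₗ B2 N)
        (B2 N ∘ₗ Finsupp.mapRange.linearMap (N.act .f) - B1 N) ?_ x.1
      intro l y
      rw [LinearMap.comp_apply, LinearMap.sub_apply, LinearMap.comp_apply, B2_mr, B2_single,
        B1_single, ← Kf, ← map_sub, actV_f_apply]
      simp
  · -- h b1
    intro x
    refine Prod.ext ?_ ?_
    · show Finsupp.mapRange.linearMap (N.act .h) 0 = 0 - 0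
      simp
    · show actV N .h (B1 N x.1) = B1 N (Finsupp.mapRange.linearMap (N.act .h) x.1) - B1 N x.1
      refine ext_single (actV N .h ∘ₗ B1 N)
        (B1 N ∘ₗ Finsupp.mapRange.linearMap (N.act .h) - B1 N) ?_ x.1
      intro l y
      rw [LinearMap.comp_apply, LinearMap.sub_apply, LinearMap.comp_apply, B1_mr,
        B1_single, ← Kh, ← map_sub, actV_h_apply]
      simp
  · -- h b2
    intro x
    refine Prod.ext ?_ ?_
    · show Finsupp.mapRange.linearMap (N.act .h) 0 = 0 + 0
      simp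
    · show actV N .h (B2 N x.1) = B2 N (Finsupp.mapRange.linearMap (N.act .h) x.1) + B2 N x.1
      refine ext_single (actV N .h ∘ₗ B2 N)
        (B2 N ∘ₗ Finsupp.mapRange.linearMap (N.act .h) + B2 N) ?_ x.1
      intro l y
      rw [LinearMap.comp_apply, LinearMap.add_apply, LinearMap.comp_apply, B2_mr,
        B2_single, ← Kh, ← map_add, actV_h_apply]
      simp
  · -- b1 c
    intro x
    refine Prod.ext ?_ ?_
    · show (0 : ℕ →₀ N.V) = 0 - (2 : k) • 0 + (2 : k) • 0
      simp
    · show B1 N (shift k N.V x.1) = B1 N (Finsupp.mapRange.linearMap (N.act .h) x.1)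
        - (2 : k) • B1 N x.1 + (2 : k) • B2 N (Finsupp.mapRange.linearMap (N.act .f) x.1)
      refine ext_single (B1 N ∘ₗ shift k N.V)
        (B1 N ∘ₗ Finsupp.mapRange.linearMap (N.act .h) - (2 : k) • B1 N
          + (2 : k) • (B2 N ∘ₗ Finsupp.mapRange.linearMap (N.act .f))) ?_ x.1
      intro l y
      rw [LinearMap.comp_apply, LinearMap.add_apply, LinearMap.sub_apply, LinearMap.comp_apply,
        LinearMap.smul_apply, LinearMap.smul_apply, LinearMap.comp_apply, B1_mr, B2_mr, B1_single,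
        shift_single, B1_single, ← map_smul, ← map_smul, ← map_sub, ← map_add, pow_succ,
        Module.End.mul_apply, KK_apply]
      simp
  · -- b2 c
    intro x
    refine Prod.ext ?_ ?_
    · show (0 : ℕ →₀ N.V) = (2 : k) • 0 - 0 - (2 : k) • 0
      simp
    · show B2 N (shift k N.V x.1) = (2 : k) • B1 N (Finsupp.mapRange.linearMap (N.act .e) x.1)
        - B2 N (Finsupp.mapRange.linearMap (N.act .h) x.1) - (2 : k) • B2 N x.1
      refine ext_single (B2 N ∘ₗ shift k N.V)
        ((2 : k) • (B1 N ∘ₗ Finsupp.mapRange.linearMap (N.act .e))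
          - B2 N ∘ₗ Finsupp.mapRange.linearMap (N.act .h) - (2 : k) • B2 N) ?_ x.1
      intro l y
      rw [LinearMap.comp_apply, LinearMap.sub_apply, LinearMap.sub_apply, LinearMap.smul_apply,
        LinearMap.comp_apply, LinearMap.comp_apply, LinearMap.smul_apply, B1_mr, B2_mr, B2_single,
        shift_single, B2_single, ← map_smul, ← map_smul, ← map_sub, ← map_sub, pow_succ,
        Module.End.mul_apply, KK_apply]
      congr 1
      refine Prod.ext ?_ ?_
      · simp
      · simp only [map_zero, smul_zero, Prod.snd_sub, Prod.smul_snd]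
        module
  · -- c b1
    intro x
    refine Prod.ext ?_ ?_
    · show shift k N.V 0 = 0 - 0
      simp
    · show actV N .c (B1 N x.1) = B1 N (shift k N.V x.1) - B1 N x.1
      refine ext_single (actV N .c ∘ₗ B1 N) (B1 N ∘ₗ shift k N.V - B1 N) ?_ x.1
      intro l y
      rw [LinearMap.comp_apply, LinearMap.sub_apply, LinearMap.comp_apply, shift_single,
        B1_single, B1_single, actV_c_apply, pow_succ', Module.End.mul_apply]
  · -- c b2
    intro x
    refine Prod.ext ?_ ?_
    · show shift k N.V 0 = 0 - 0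
      simp
    · show actV N .c (B2 N x.1) = B2 N (shift k N.V x.1) - B2 N x.1
      refine ext_single (actV N .c ∘ₗ B2 N) (B2 N ∘ₗ shift k N.V - B2 N) ?_ x.1
      intro l y
      rw [LinearMap.comp_apply, LinearMap.sub_apply, LinearMap.comp_apply, shift_single,
        B2_single, B2_single, actV_c_apply, pow_succ', Module.End.mul_apply]
  · intro x
    exact Prod.ext rfl (map_zero (B1 N))
  · intro x
    exact Prod.ext rfl (map_zero (B1 N))
  · intro x
    exact Prod.ext rfl (map_zero (B2 N))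
  · intro x
    exact Prod.ext rfl (map_zero (B2 N))

end Vale.Agent.P176
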