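import Vale.Agent.Lib.P176.Sp

/-!
# P176: the ring `R`, its word filtration, the window algebra `A`, the window functor `W`
-/

namespace Vale.Agent.P176

variable (k : Type) [Field k]

/-- the generators in the free algebra -/
noncomputable def X (g : Gen) : FreeAlgebra k Gen := FreeAlgebra.ι k g

/-- the defining relations of `R` -/
inductive Rel : FreeAlgebra k Gen → FreeAlgebra k Gen → Prop
  | he : Rel (X k .h * X k .e) (X k .e * X k .h + (2 : k) • X k .e)
  | ef : Rel (X k .e * X k .f) (X k .f * X k .e + X k .h)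
  | hf : Rel (X k .h * X k .f) (X k .f * X k .h - (2 : k) • X k .f)
  | ce : Rel (X k .c * X k .e) (X k .e * X k .c)
  | cf : Rel (X k .c * X k .f) (X k .f * X k .c)
  | ch : Rel (X k .c * X k .h) (X k .h * X k .c)
  | eb1 : Rel (X k .e * X k .b1) (X k .b1 * X k .e - X k .b2)
  | eb2 : Rel (X k .e * X k .b2) (X k .b2 * X k .e)
  | fb1 : Rel (X k .f * X k .b1) (X k .b1 * X k .f)
  | fb2 : Rel (X k .f * X k .b2) (X k .b2 * X k .f - X k .b1)
  | hb1 : Rel (X k .h * X k .b1) (X k .b1 * X k .h - X k .b1)
  | hb2 : Rel (X k .h * X k .b2) (X k .b2 * X k .h + X k .b2)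
  | b1c : Rel (X k .b1 * X k .c)
      (X k .b1 * X k .h - (2 : k) • X k .b1 + (2 : k) • (X k .b2 * X k .f))
  | b2c : Rel (X k .b2 * X k .c)
      ((2 : k) • (X k .b1 * X k .e) - X k .b2 * X k .h - (2 : k) • X k .b2)
  | cb1 : Rel (X k .c * X k .b1) (X k .b1 * X k .c - X k .b1)
  | cb2 : Rel (X k .c * X k .b2) (X k .b2 * X k .c - X k .b2)
  | b1b1 : Rel (X k .b1 * X k .b1) 0
  | b1b2 : Rel (X k .b1 * X k .b2) 0
  | b2b1 : Rel (X k .b2 * X k .b1) 0
  | b2b2 : Rel (X k .b2 * X k .b2) 0

/-- the ring `R` -/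
def R : Type := RingQuot (Rel k)

noncomputable instance : Ring (R k) := inferInstanceAs (Ring (RingQuot (Rel k)))
noncomputable instance : Algebra k (R k) := inferInstanceAs (Algebra k (RingQuot (Rel k)))

/-- the generators of `R` -/
noncomputable def gen (g : Gen) : R k := RingQuot.mkAlgHom k (Rel k) (X k g)

variable {k}

theorem rho_aux (N : Sp k) (hN : IsR N) : ∀ ⦃x y : FreeAlgebra k Gen⦄, Rel k x y →
    FreeAlgebra.lift k N.act x = FreeAlgebra.lift k N.act y := by
    intro x y h
    cases h <;> apply LinearMap.ext <;> intro v <;>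
      simp only [X, map_mul, map_add, map_sub, map_smul, map_zero, FreeAlgebra.lift_ι_apply,
        Module.End.mul_apply, LinearMap.add_apply, LinearMap.sub_apply, LinearMap.smul_apply,
        LinearMap.zero_apply]
    · exact hN.he v
    · exact hN.ef v
    · exact hN.hf v
    · exact hN.ce v
    · exact hN.cf v
    · exact hN.ch v
    · exact hN.eb1 v
    · exact hN.eb2 v
    · exact hN.fb1 v
    · exact hN.fb2 v
    · exact hN.hb1 v
    · exact hN.hb2 v
    · exact hN.b1c v
    · exact hN.b2c v
    · exact hN.cb1 v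
    · exact hN.cb2 v
    · exact hN.b1b1 v
    · exact hN.b1b2 v
    · exact hN.b2b1 v
    · exact hN.b2b2 v

/-- the representation of `R` on `N` -/
noncomputable def rho (N : Sp k) (hN : IsR N) : R k →ₐ[k] Module.End k N.V :=
  RingQuot.liftAlgHom k ⟨FreeAlgebra.lift k N.act, rho_aux N hN⟩

@[simp] theorem rho_gen (N : Sp k) (hN : IsR N) (g : Gen) : rho N hN (gen k g) = N.act g := by
  have h1 := RingQuot.liftAlgHom_mkAlgHom_apply (S := k) (s := Rel k)
    (FreeAlgebra.lift k N.act) (rho_aux N hN) (FreeAlgebra.ι k g)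
  exact h1.trans (FreeAlgebra.lift_ι_apply _ _)

/-- degree of a word -/
def wdeg (w : List Gen) : ℤ := (w.map Gen.deg).sum

/-- the element of `R` given by a word -/
noncomputable def word (w : List Gen) : R k := (w.map (gen k)).prod

/-- the word filtration of `R` -/
noncomputable def RF (m : ℤ) : Submodule k (R k) :=
  Submodule.span k {x | ∃ w : List Gen, wdeg w ≤ m ∧ x = word w}

theorem word_mem_RF (w : List Gen) (m : ℤ) (h : wdeg w ≤ m) : (word w : R k) ∈ RF m :=
  Submodule.subset_span ⟨w, h, rfl⟩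

theorem RF_mono (m n : ℤ) (h : m ≤ n) : (RF m : Submodule k (R k)) ≤ RF n :=
  Submodule.span_mono (fun _ ⟨w, hw, hx⟩ => ⟨w, hw.trans h, hx⟩)

theorem one_mem_RF : (1 : R k) ∈ RF 0 := word_mem_RF [] 0 (by simp [wdeg])

theorem gen_mem_RF (g : Gen) : (gen k g) ∈ RF g.deg := by
  have := word_mem_RF (k := k) [g] g.deg (by simp [wdeg])
  simpa [word] using this

theorem mul_mem_RF (m n : ℤ) (a b : R k) (ha : a ∈ RF m) (hb : b ∈ RF n) :
    a * b ∈ RF (m + n) := by
  induction ha using Submodule.span_induction with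
  | mem x hx =>
    obtain ⟨w, hw, rfl⟩ := hx
    induction hb using Submodule.span_induction with
    | mem y hy =>
      obtain ⟨v, hv, rfl⟩ := hy
      have : (word w : R k) * word v = word (w ++ v) := by simp [word]
      rw [this]
      apply word_mem_RF
      simp only [wdeg, List.map_append, List.sum_append] at *
      omega
    | zero => simp
    | add y z _ _ hy hz => rw [mul_add]; exact (RF (m + n)).add_mem hy hz
    | smul r y _ hy => rw [mul_smul_comm]; exact (RF (m + n)).smul_mem r hy
  | zero => simp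
  | add y z _ _ hy hz => rw [add_mul]; exact (RF (m + n)).add_mem hy hz
  | smul r y _ hy => rw [smul_mul_assoc]; exact (RF (m + n)).smul_mem r hy

/-- each operator respects the filtration -/
theorem act_mem (N : Sp k) (hN : IsR N) (g : Gen) (j : ℤ) (x : N.V) (hx : x ∈ N.F j) :
    N.act g x ∈ N.F (j + g.deg) := by
  cases g
  · exact hN.e_mem j x hx
  · exact hN.f_mem j x hx
  · exact hN.h_mem j x hx
  · exact hN.c_mem j x hx
  · exact hN.b1_mem j x hx
  · exact hN.b2_mem j x hx

theorem rho_mem (N : Sp k) (hN : IsR N) (m j : ℤ) (a : R k) (ha : a ∈ RF m) (x : N.V)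
    (hx : x ∈ N.F j) : rho N hN a x ∈ N.F (j + m) := by
  induction ha using Submodule.span_induction with
  | mem y hy =>
    obtain ⟨w, hw, rfl⟩ := hy
    have key : ∀ w : List Gen, rho N hN (word w) x ∈ N.F (j + wdeg w) := by
      intro w
      induction w with
      | nil => simpa [word, wdeg] using hx
      | cons g w ih =>
        have h1 : rho N hN (word (g :: w)) x = N.act g (rho N hN (word w) x) := by
          simp [word]
        rw [h1]
        have h2 := act_mem N hN g _ _ ih
        have h3 : j + wdeg w + g.deg = j + wdeg (g :: w) := by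
          simp only [wdeg, List.map_cons, List.sum_cons]; ring
        rwa [h3] at h2
    exact hN.mono _ _ (by omega) (key w)
  | zero => simp
  | add y z _ _ hy hz =>
    rw [map_add, LinearMap.add_apply]; exact (N.F _).add_mem hy hz
  | smul r y _ hy =>
    rw [map_smul, LinearMap.smul_apply]; exact (N.F _).smul_mem r hy

/-- a `HomR` map is `R`-linear -/
theorem homR_rho (M N : Sp k) (hM : IsR M) (hN : IsR N) (φ : M.V →ₗ[k] N.V) (hφ : HomR M N φ)
    (a : R k) (x : M.V) : φ (rho M hM a x) = rho N hN a (φ x) := by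
  obtain ⟨p, rfl⟩ := RingQuot.mkAlgHom_surjective k (Rel k) a
  have h1 : ∀ (L : Sp k) (hL : IsR L), rho L hL (RingQuot.mkAlgHom k (Rel k) p)
      = FreeAlgebra.lift k L.act p := fun L hL =>
    RingQuot.liftAlgHom_mkAlgHom_apply (S := k) (s := Rel k)
      (FreeAlgebra.lift k L.act) (rho_aux L hL) p
  have h2 : ∀ p : FreeAlgebra k Gen, ∀ x : M.V, φ (FreeAlgebra.lift k M.act p x)
      = FreeAlgebra.lift k N.act p (φ x) := by
    intro p
    induction p using FreeAlgebra.induction with
    | grade0 r => intro x; simp [Algebra.algebraMap_eq_smul_one]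
    | grade1 g => intro x; simpa using hφ g x
    | mul a b ha hb => intro x; simp [ha, hb]
    | add a b ha hb => intro x; simp [ha, hb]
  have h3 := h2 p x
  rw [← h1 M hM, ← h1 N hN] at h3
  exact h3

variable (k)

/-- the window algebra -/
noncomputable def A : Subalgebra k (Matrix (Fin 5) (Fin 5) (R k)) where
  carrier := {a | ∀ j i : Fin 5, a j i ∈ (RF ((j : ℕ) - (i : ℕ) : ℤ) : Submodule k (R k))}
  mul_mem' := by
    intro a b ha hb j i
    rw [Matrix.mul_apply]
    apply Submodule.sum_mem
    intro l _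
    have := mul_mem_RF _ _ _ _ (ha j l) (hb l i)
    have h : ((j : ℕ) - (l : ℕ) : ℤ) + ((l : ℕ) - (i : ℕ) : ℤ) = ((j : ℕ) - (i : ℕ) : ℤ) := by
      ring
    rwa [h] at this
  add_mem' := by
    intro a b ha hb j i
    exact Submodule.add_mem _ (ha j i) (hb j i)
  algebraMap_mem' := by
    intro r j i
    rw [Matrix.algebraMap_matrix_apply]
    split_ifs with h
    · subst h
      rw [sub_self, Algebra.algebraMap_eq_smul_one]
      exact Submodule.smul_mem _ _ one_mem_RF
    · exact Submodule.zero_mem _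

variable {k}

/-- the window of `N(-i)` : vectors `w_0, …, w_4` with `w_j ∈ N.F (j - i)` -/
def WS (N : Sp k) (i : ℤ) : Submodule k (Fin 5 → N.V) where
  carrier := {w | ∀ j : Fin 5, w j ∈ N.F ((j : ℕ) - i : ℤ)}
  zero_mem' := fun j => by simp
  add_mem' := fun {p q} hp hq j => by simpa using (N.F _).add_mem (hp j) (hq j)
  smul_mem' := fun r p hp j => by simpa using (N.F _).smul_mem r (hp j)

/-- the window of `N(-i)` as an `A`-module -/
def W (N : Sp k) (_hN : IsR N) (i : ℤ) : Type := WS N i

noncomputable instance (N : Sp k) (hN : IsR N) (i : ℤ) : AddCommGroup (W N hN i) :=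
  inferInstanceAs (AddCommGroup (WS N i))
noncomputable instance (N : Sp k) (hN : IsR N) (i : ℤ) : Module k (W N hN i) :=
  inferInstanceAs (Module k (WS N i))

noncomputable instance (N : Sp k) (hN : IsR N) (i : ℤ) : SMul (A k) (W N hN i) where
  smul a w := ⟨fun j => ∑ l, rho N hN (a.1 j l) (w.1 l), by
    intro j
    apply Submodule.sum_mem
    intro l _
    have h1 := a.2 j l
    have h2 := rho_mem N hN _ _ _ h1 _ (w.2 l)
    have h3 : ((l : ℕ) - i : ℤ) + ((j : ℕ) - (l : ℕ) : ℤ) = ((j : ℕ) - i : ℤ) := by ring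
    rwa [h3] at h2⟩

theorem W_smul_apply (N : Sp k) (hN : IsR N) (i : ℤ) (a : A k) (w : W N hN i) (j : Fin 5) :
    (a • w).1 j = ∑ l, rho N hN (a.1 j l) (w.1 l) := rfl

theorem W_add_apply (N : Sp k) (hN : IsR N) (i : ℤ) (v w : W N hN i) (j : Fin 5) :
    (v + w).1 j = v.1 j + w.1 j := rfl

theorem W_zero_apply (N : Sp k) (hN : IsR N) (i : ℤ) (j : Fin 5) :
    (0 : W N hN i).1 j = 0 := rfl

theorem W_ext (N : Sp k) (hN : IsR N) (i : ℤ) (v w : W N hN i) (h : ∀ j, v.1 j = w.1 j) :
    v = w := Subtype.ext (funext h)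

noncomputable instance (N : Sp k) (hN : IsR N) (i : ℤ) : Module (A k) (W N hN i) where
  one_smul w := by
    apply W_ext
    intro j
    rw [W_smul_apply]
    rw [Finset.sum_eq_single j]
    · simp
    · intro b _ hb
      simp [Matrix.one_apply_ne hb.symm]
    · simp
  mul_smul a b w := by
    apply W_ext
    intro j
    rw [W_smul_apply, W_smul_apply]
    simp only [W_smul_apply, map_sum, MulMemClass.coe_mul, Matrix.mul_apply, map_mul,
      LinearMap.sum_apply, Module.End.mul_apply]
    rw [Finset.sum_comm]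
  smul_zero a := by
    apply W_ext
    intro j
    simp [W_smul_apply, W_zero_apply]
  smul_add a v w := by
    apply W_ext
    intro j
    simp [W_smul_apply, W_add_apply, Finset.sum_add_distrib]
  add_smul a b w := by
    apply W_ext
    intro j
    simp [W_smul_apply, W_add_apply, Finset.sum_add_distrib]
  zero_smul w := by
    apply W_ext
    intro j
    simp [W_smul_apply, W_zero_apply]

/-- a filtered map of degree `s` commuting with all operators induces a map of windows -/
noncomputable def Wmap (M N : Sp k) (hM : IsR M) (hN : IsR N) (s : ℤ) (φ : M.V →ₗ[k] N.V)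
    (hφ : HomR M N φ) (hs : ∀ j x, x ∈ M.F j → φ x ∈ N.F (j + s)) (i : ℤ) :
    W M hM (i + s) →ₗ[A k] W N hN i where
  toFun w := ⟨fun j => φ (w.1 j), by
    intro j
    have := hs _ _ (w.2 j)
    have h3 : ((j : ℕ) - (i + s) : ℤ) + s = ((j : ℕ) - i : ℤ) := by ring
    rwa [h3] at this⟩
  map_add' v w := by
    apply W_ext
    intro j
    exact map_add φ _ _
  map_smul' a w := by
    apply W_ext
    intro j
    change φ (∑ l, rho M hM (a.1 j l) (w.1 l)) = ∑ l, rho N hN (a.1 j l) (φ (w.1 l))
    rw [map_sum]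
    refine Finset.sum_congr rfl (fun l _ => ?_)
    exact homR_rho M N hM hN φ hφ _ _

/-- the window as an object of `ModuleCat` -/
noncomputable def WM (N : Sp k) (hN : IsR N) (i : ℤ) : ModuleCat.{0} (A k) :=
  ModuleCat.of (A k) (W N hN i)

end Vale.Agent.P176
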