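import Vale.Agent.Lib.P176.EnRaw
import Vale.Agent.Lib.P176.Ring
import Vale.Agent.Lib.P176.MRelT2
import Vale.Agent.Lib.P176.MPoly

/-!
# P176, section 5: the modules `G n` (`= E_{n-1}`, dimension `n`, `G 0 = 0`)
-/

namespace Vale.Agent.P176

open Polynomial

/-- `G n = E_{n-1}`: polynomials of degree `< n`, in filtration degree `0`, with `c = n - 1`,
`b1 = b2 = 0`. -/
noncomputable def G (k : Type) [Field k] (n : ℕ) : Sp k where
  V := GV k n
  act := fun g => match g with
    | .e => gE n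
    | .f => gF n
    | .h => gH n
    | .c => ((n : k) - 1) • LinearMap.id
    | .b1 => 0
    | .b2 => 0
  F := fun j => if 0 ≤ j then ⊤ else ⊥

variable {k : Type} [Field k]

theorem G_F (n : ℕ) (j : ℤ) : (G k n).F j = if 0 ≤ j then ⊤ else ⊥ := rfl

theorem concZero_G (n : ℕ) : ConcZero (G k n) :=
  ⟨fun _ hj => if_pos hj, fun _ hj => if_neg (not_le.mpr hj)⟩

theorem G_F_top (n : ℕ) (j : ℤ) (hj : 0 ≤ j) (x : (G k n).V) : x ∈ (G k n).F j := by
  rw [(concZero_G n).1 j hj]
  trivial

theorem G_mem (n : ℕ) (φ : (G k n).V →ₗ[k] (G k n).V) (i j : ℤ) (hij : i ≤ j) (x : (G k n).V)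
    (hx : x ∈ (G k n).F i) : φ x ∈ (G k n).F j := by
  by_cases h : 0 ≤ j
  · exact G_F_top n j h _
  · have hi : i < 0 := by omega
    rw [(concZero_G n).2 i hi, Submodule.mem_bot] at hx
    rw [hx, map_zero]
    exact zero_mem _

theorem G_mem_zero (n : ℕ) (j : ℤ) : (0 : (G k n).V) ∈ (G k n).F j := zero_mem _

theorem isR_G (n : ℕ) : IsR (G k n) where
  mono := fun i j hij x hx => G_mem n LinearMap.id i j hij x hx
  h_mem := fun j x hx => G_mem n _ j (j + 1) (by omega) x hx
  e_mem := fun j x hx => G_mem n _ j (j + 1) (by omega) x hx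
  he := fun x => gH_gE n x
  f_mem := fun j x hx => G_mem n _ j (j + 1) (by omega) x hx
  ef := fun x => gE_gF n x
  hf := fun x => gH_gF n x
  c_mem := fun j x hx => G_mem n _ j (j + 1) (by omega) x hx
  b1_mem := fun j _ _ => G_mem_zero n _
  b2_mem := fun j _ _ => G_mem_zero n _
  ce := fun x => (map_smul (gE n) ((n : k) - 1) x).symm
  cf := fun x => (map_smul (gF n) ((n : k) - 1) x).symm
  ch := fun x => (map_smul (gH n) ((n : k) - 1) x).symm
  eb1 := fun x => by
    change gE n (0 : GV k n) = 0 - 0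
    rw [map_zero, sub_zero]
  eb2 := fun x => map_zero (gE n)
  fb1 := fun x => map_zero (gF n)
  fb2 := fun x => by
    change gF n (0 : GV k n) = 0 - 0
    rw [map_zero, sub_zero]
  hb1 := fun x => by
    change gH n (0 : GV k n) = 0 - 0
    rw [map_zero, sub_zero]
  hb2 := fun x => by
    change gH n (0 : GV k n) = 0 + 0
    rw [map_zero, add_zero]
  b1c := fun x => by
    change (0 : GV k n) = 0 - (2 : k) • (0 : GV k n) + (2 : k) • (0 : GV k n)
    rw [smul_zero, sub_zero, add_zero]
  b2c := fun x => by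
    change (0 : GV k n) = (2 : k) • (0 : GV k n) - 0 - (2 : k) • (0 : GV k n)
    rw [smul_zero, sub_zero, sub_zero]
  cb1 := fun x => by
    change ((n : k) - 1) • (0 : GV k n) = 0 - 0
    rw [smul_zero, sub_zero]
  cb2 := fun x => by
    change ((n : k) - 1) • (0 : GV k n) = 0 - 0
    rw [smul_zero, sub_zero]
  b1b1 := fun x => rfl
  b1b2 := fun x => rfl
  b2b1 := fun x => rfl
  b2b2 := fun x => rfl

theorem isU_G (n : ℕ) : IsU (G k n) := (isR_G n).toIsU

theorem isR_TG (n : ℕ) : IsR (T (G k n)) := isR_T _ (isU_G n)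

/-- coordinates on `G n` -/
noncomputable def GEquiv (n : ℕ) : (G k n).V ≃ₗ[k] (Fin n → k) := degreeLTEquiv k n

instance finite_G (n : ℕ) : Module.Finite k (G k n).V :=
  Module.Finite.equiv (GEquiv n).symm

theorem finrank_G (n : ℕ) : Module.finrank k (G k n).V = n := by
  rw [(GEquiv (k := k) n).finrank_eq, Module.finrank_fin_fun]

theorem subsingleton_G : Subsingleton (G k 0).V :=
  (GEquiv (k := k) 0).toEquiv.subsingleton

theorem nontrivial_G (n : ℕ) : Nontrivial (G k (n + 1)).V :=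
  (GEquiv (k := k) (n + 1)).toEquiv.nontrivial

end Vale.Agent.P176
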