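import Vale.Agent.Lib.P176.EnG

/-!
# P176, section 5: the maps `phiT` (right multiplication by `c - r`), `iT`, `piT`
-/

namespace Vale.Agent.P176

variable {k : Type} [Field k]

/-- two linear maps on `ℕ →₀ V` agreeing on monomials are equal -/
theorem fs_ext {V W : Type} [AddCommGroup V] [Module k V] [AddCommGroup W] [Module k W]
    {f g : (ℕ →₀ V) →ₗ[k] W}
    (h : ∀ a v, f (Finsupp.single a v) = g (Finsupp.single a v)) (p : ℕ →₀ V) : f p = g p := by
  have : f = g := Finsupp.lhom_ext h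
  rw [this]

theorem en_Dmap_single {V : Type} [AddCommGroup V] [Module k V] (θ : V →ₗ[k] V) (a : ℕ) (v : V) :
    Dmap θ (Finsupp.single a v) = Finsupp.single (a + 1) v - Finsupp.single a (θ v) := by
  simp [Dmap, Pmap]

theorem en_evmap_single {V : Type} [AddCommGroup V] [Module k V] (θ : V →ₗ[k] V) (a : ℕ) (v : V) :
    evmap θ (Finsupp.single a v) = (θ ^ a) v := by
  simp [evmap]

/-- multiplication by a scalar -/
def sc (V : Type) [AddCommGroup V] [Module k V] (r : k) : V →ₗ[k] V := r • LinearMap.id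

theorem sc_apply {V : Type} [AddCommGroup V] [Module k V] (r : k) (v : V) : sc V r v = r • v := rfl

/-- right multiplication by `c - r` on `T N` -/
noncomputable def phiT (N : Sp k) (r : k) : (T N).V →ₗ[k] (T N).V :=
  LinearMap.prodMap (Dmap (sc N.V r)) (KK N - sc (N.V × N.V) r)

theorem phiT_apply (N : Sp k) (r : k) (p : ℕ →₀ N.V) (v : N.V × N.V) :
    phiT N r (p, v) = (Dmap (sc N.V r) p, KK N v - r • v) := rfl

theorem smulid_comm {V : Type} [AddCommGroup V] [Module k V] (r : k) (f : V →ₗ[k] V)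
    (p : ℕ →₀ V) :
    Dmap (sc V r) (Finsupp.mapRange.linearMap f p) =
      Finsupp.mapRange.linearMap f (Dmap (sc V r) p) := by
  have := fs_ext (k := k) (f := Dmap (sc V r) ∘ₗ Finsupp.mapRange.linearMap f)
    (g := Finsupp.mapRange.linearMap f ∘ₗ Dmap (sc V r)) (fun a v => by
      rw [LinearMap.comp_apply, LinearMap.comp_apply, en_Dmap_single, map_sub]
      simp only [Finsupp.mapRange.linearMap_apply, Finsupp.mapRange_single,
        en_Dmap_single, sc_apply, map_smul]) p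
  exact this

theorem shift_Dmap {V : Type} [AddCommGroup V] [Module k V] (r : k) (p : ℕ →₀ V) :
    Dmap (sc V r) (shift k V p) = shift k V (Dmap (sc V r) p) := by
  have := fs_ext (k := k) (f := Dmap (sc V r) ∘ₗ shift k V)
    (g := shift k V ∘ₗ Dmap (sc V r)) (fun a v => by
      simp only [LinearMap.comp_apply, en_Dmap_single, map_sub, shift_single]) p
  exact this

/-- the operators `p ↦ ∑ K^l (ι p_l)` -/
noncomputable def bsum (N : Sp k) (j : N.V →ₗ[k] N.V × N.V) : (ℕ →₀ N.V) →ₗ[k] N.V × N.V :=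
  Finsupp.lsum k (fun l : ℕ => (KK N ^ l) ∘ₗ j)

theorem bsum_single (N : Sp k) (j : N.V →ₗ[k] N.V × N.V) (l : ℕ) (y : N.V) :
    bsum N j (Finsupp.single l y) = (KK N ^ l) (j y) := by
  simp [bsum]

theorem bsum_Dmap (N : Sp k) (j : N.V →ₗ[k] N.V × N.V) (r : k) (p : ℕ →₀ N.V) :
    bsum N j (Dmap (sc N.V r) p) = KK N (bsum N j p) - r • bsum N j p := by
  have := fs_ext (k := k) (f := bsum N j ∘ₗ Dmap (sc N.V r))
    (g := KK N ∘ₗ bsum N j - r • bsum N j) (fun a v => by
      simp only [LinearMap.comp_apply, en_Dmap_single, map_sub, bsum_single, LinearMap.sub_apply,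
        LinearMap.smul_apply, sc_apply, map_smul, pow_succ', Module.End.mul_apply]) p
  exact this

theorem homR_phiT (N : Sp k) (hN : IsU N) (r : k) : HomR (T N) (T N) (phiT N r) := by
  intro g
  cases g
  · rintro ⟨p, v⟩
    change (_, _) = ((_, _) : (ℕ →₀ N.V) × (N.V × N.V))
    congr 1
    · exact smulid_comm r (N.act .e) p
    · change KK N (actV N .e v) - r • actV N .e v = actV N .e (KK N v - r • v)
      rw [map_sub, map_smul, KK_comm_e N hN]
  · rintro ⟨p, v⟩
    change (_, _) = ((_, _) : (ℕ →₀ N.V) × (N.V × N.V))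
    congr 1
    · exact smulid_comm r (N.act .f) p
    · change KK N (actV N .f v) - r • actV N .f v = actV N .f (KK N v - r • v)
      rw [map_sub, map_smul, KK_comm_f N hN]
  · rintro ⟨p, v⟩
    change (_, _) = ((_, _) : (ℕ →₀ N.V) × (N.V × N.V))
    congr 1
    · exact smulid_comm r (N.act .h) p
    · change KK N (actV N .h v) - r • actV N .h v = actV N .h (KK N v - r • v)
      rw [map_sub, map_smul, KK_comm_h N hN]
  · rintro ⟨p, v⟩
    change (_, _) = ((_, _) : (ℕ →₀ N.V) × (N.V × N.V))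
    congr 1
    · exact shift_Dmap r p
    · change KK N (KK N v - v) - r • (KK N v - v) = KK N (KK N v - r • v) - (KK N v - r • v)
      simp only [map_sub, map_smul]
      module
  · rintro ⟨p, v⟩
    change (Dmap (sc N.V r) (0 : ℕ →₀ N.V), KK N (bsum N (LinearMap.inl k N.V N.V) p)
      - r • bsum N (LinearMap.inl k N.V N.V) p) =
      ((0, bsum N (LinearMap.inl k N.V N.V) (Dmap (sc N.V r) p)) :
        (ℕ →₀ N.V) × (N.V × N.V))
    rw [bsum_Dmap, map_zero]
  · rintro ⟨p, v⟩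
    change (Dmap (sc N.V r) (0 : ℕ →₀ N.V), KK N (bsum N (LinearMap.inr k N.V N.V) p)
      - r • bsum N (LinearMap.inr k N.V N.V) p) =
      ((0, bsum N (LinearMap.inr k N.V N.V) (Dmap (sc N.V r) p)) :
        (ℕ →₀ N.V) × (N.V × N.V))
    rw [bsum_Dmap, map_zero]

theorem smulid_mem (N : Sp k) (hN : IsH N) (r : k) (j : ℤ) (x : N.V) (hx : x ∈ N.F j) :
    sc N.V r x ∈ N.F (j + 1) :=
  (N.F _).smul_mem r (hN.mono j (j + 1) (by omega) hx)

theorem phiT_mem (N : Sp k) (hN : IsU N) (r : k) (j : ℤ) (x : (T N).V) (hx : x ∈ (T N).F j) :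
    phiT N r x ∈ (T N).F (j + 1) := by
  obtain ⟨p, v⟩ := x
  obtain ⟨hp, h1, h2⟩ := hx
  have hK := KK_mem N hN (j + 1) v h1 h2
  refine ⟨Dmap_mem N.F _ hN.mono (smulid_mem N hN.toIsH r) j p hp, ?_, ?_⟩
  · exact sub_mem hK.1 ((N.F _).smul_mem r (hN.mono _ _ (by omega) h1))
  · exact sub_mem hK.2 ((N.F _).smul_mem r (hN.mono _ _ (by omega) h2))

/-! ### the inclusion `G n → T (G (n+1))` -/

/-- `iota` on the bundled spaces -/
noncomputable def iotaG (k : Type) [Field k] (n : ℕ) :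
    (G k n).V →ₗ[k] (G k (n + 1)).V × (G k (n + 1)).V := iota n

/-- `cp` on the bundled spaces -/
noncomputable def cpG (k : Type) [Field k] (n : ℕ) :
    (G k (n + 1)).V × (G k (n + 1)).V →ₗ[k] (G k n).V := cp n

theorem cpG_iotaG (n : ℕ) (q : (G k n).V) : cpG k n (iotaG k n q) = ((n : k) + 1) • q :=
  cp_iota n q

theorem ker_KG [CharZero k] (n : ℕ) (v : (G k (n + 1)).V × (G k (n + 1)).V) :
    KK (G k (n + 1)) v - (n : k) • v = 0 ↔ ∃ q, iotaG k n q = v := ker_K n v

theorem range_KG [CharZero k] (n : ℕ) (w : (G k (n + 1)).V × (G k (n + 1)).V) :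
    cpG k n w = 0 ↔ ∃ v, KK (G k (n + 1)) v - (n : k) • v = w := range_K n w

theorem iotaG_injective (n : ℕ) : Function.Injective (iotaG k n) := iota_injective n

/-- `q ↦ b1 (u q) + b2 (v q)` -/
noncomputable def iT (k : Type) [Field k] (n : ℕ) : (G k n).V →ₗ[k] (T (G k (n + 1))).V :=
  LinearMap.inr k (ℕ →₀ (G k (n + 1)).V) ((G k (n + 1)).V × (G k (n + 1)).V) ∘ₗ iotaG k n

theorem iT_apply (n : ℕ) (q : (G k n).V) : iT k n q = (0, iotaG k n q) := rfl

theorem homR_iT (n : ℕ) : HomR (G k n) (T (G k (n + 1))) (iT k n) := by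
  intro g
  cases g
  · intro (q : GV k n)
    change ((0, iota n (gE n q)) : (ℕ →₀ GV k (n + 1)) × (GV k (n + 1) × GV k (n + 1))) =
      (Finsupp.mapRange.linearMap (gE (n + 1)) 0,
        (gE (n + 1) (iota n q).1, gE (n + 1) (iota n q).2 - (iota n q).1))
    rw [map_zero, iota_E]
  · intro (q : GV k n)
    change ((0, iota n (gF n q)) : (ℕ →₀ GV k (n + 1)) × (GV k (n + 1) × GV k (n + 1))) =
      (Finsupp.mapRange.linearMap (gF (n + 1)) 0,
        (gF (n + 1) (iota n q).1 - (iota n q).2, gF (n + 1) (iota n q).2))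
    rw [map_zero, iota_F]
  · intro (q : GV k n)
    change ((0, iota n (gH n q)) : (ℕ →₀ GV k (n + 1)) × (GV k (n + 1) × GV k (n + 1))) =
      (Finsupp.mapRange.linearMap (gH (n + 1)) 0,
        (gH (n + 1) (iota n q).1 - (iota n q).1, gH (n + 1) (iota n q).2 + (iota n q).2))
    rw [map_zero, iota_H]
  · intro (q : GV k n)
    change ((0, iota n (((n : k) - 1) • q)) :
        (ℕ →₀ GV k (n + 1)) × (GV k (n + 1) × GV k (n + 1))) =
      (shift k (GV k (n + 1)) 0,
        Kop (gE (n + 1)) (gF (n + 1)) (gH (n + 1)) (iota n q) - iota n q)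
    rw [map_zero, K_eq, cp_iota, map_smul, map_smul]
    congr 1
    module
  · intro (q : GV k n)
    change ((0, iota n 0) : (ℕ →₀ GV k (n + 1)) × (GV k (n + 1) × GV k (n + 1))) =
      (0, bsum (G k (n + 1)) (LinearMap.inl k _ _) 0)
    rw [map_zero, map_zero]
    rfl
  · intro (q : GV k n)
    change ((0, iota n 0) : (ℕ →₀ GV k (n + 1)) × (GV k (n + 1) × GV k (n + 1))) =
      (0, bsum (G k (n + 1)) (LinearMap.inr k _ _) 0)
    rw [map_zero, map_zero]
    rfl

theorem iT_mem (n : ℕ) (j : ℤ) (q : (G k n).V) (hq : q ∈ (G k n).F j) :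
    iT k n q ∈ (T (G k (n + 1))).F (j + -1) := by
  rw [iT_apply]
  refine ⟨zero_mem _, ?_⟩
  have hj : j + -1 + 1 = j := by ring
  by_cases h : 0 ≤ j
  · constructor <;> rw [hj] <;> exact G_F_top (n + 1) j h _
  · rw [(concZero_G n).2 j (by omega), Submodule.mem_bot] at hq
    rw [hq, map_zero]
    exact ⟨zero_mem _, zero_mem _⟩

theorem iT_mem0 (n : ℕ) (j : ℤ) (q : (G k n).V) (hq : q ∈ (G k n).F j) :
    iT k n q ∈ (T (G k (n + 1))).F (j + 0) :=
  (isR_TG (n + 1)).mono _ _ (by omega) (iT_mem n j q hq)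

/-! ### the projection `T (G (n+1)) → G (n+1)` -/

/-- `c^l y ↦ n^l y`, `b_k y ↦ 0` -/
noncomputable def piT (k : Type) [Field k] (n : ℕ) :
    (T (G k (n + 1))).V →ₗ[k] (G k (n + 1)).V :=
  evmap (sc (G k (n + 1)).V (n : k)) ∘ₗ
    LinearMap.fst k (ℕ →₀ (G k (n + 1)).V) ((G k (n + 1)).V × (G k (n + 1)).V)

theorem piT_apply (n : ℕ) (p : ℕ →₀ (G k (n + 1)).V) (v : (G k (n + 1)).V × (G k (n + 1)).V) :
    piT k n (p, v) = evmap (sc (G k (n + 1)).V (n : k)) p := rfl

theorem smulid_pow {V : Type} [AddCommGroup V] [Module k V] (r : k) (a : ℕ) (v : V) :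
    (sc V r ^ a) v = r ^ a • v := by
  induction a generalizing v with
  | zero => simp
  | succ a ih =>
    rw [pow_succ, Module.End.mul_apply, ih, sc_apply, smul_smul, ← pow_succ]

theorem evmap_comm {V : Type} [AddCommGroup V] [Module k V] (r : k) (f : V →ₗ[k] V)
    (p : ℕ →₀ V) :
    evmap (sc V r) (Finsupp.mapRange.linearMap f p) = f (evmap (sc V r) p) := by
  have := fs_ext (k := k) (f := evmap (sc V r) ∘ₗ Finsupp.mapRange.linearMap f)
    (g := f ∘ₗ evmap (sc V r)) (fun a v => by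
      simp only [LinearMap.comp_apply, Finsupp.mapRange.linearMap_apply, Finsupp.mapRange_single,
        en_evmap_single, smulid_pow, map_smul]) p
  exact this

theorem evmap_shift {V : Type} [AddCommGroup V] [Module k V] (r : k) (p : ℕ →₀ V) :
    evmap (sc V r) (shift k V p) = r • (evmap (sc V r) p) := by
  have := fs_ext (k := k) (f := evmap (sc V r) ∘ₗ shift k V)
    (g := r • evmap (sc V r)) (fun a v => by
      rw [LinearMap.comp_apply, shift_single, en_evmap_single, LinearMap.smul_apply, en_evmap_single,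
        smulid_pow, smulid_pow, smul_smul, pow_succ']) p
  exact this

theorem homR_piT (n : ℕ) : HomR (T (G k (n + 1))) (G k (n + 1)) (piT k n) := by
  intro g
  cases g
  · rintro ⟨p, v⟩
    exact evmap_comm _ _ _
  · rintro ⟨p, v⟩
    exact evmap_comm _ _ _
  · rintro ⟨p, v⟩
    exact evmap_comm _ _ _
  · rintro ⟨p, v⟩
    change evmap (sc (G k (n + 1)).V (n : k)) (shift k (G k (n + 1)).V p) =
      (((n + 1 : ℕ) : k) - 1) • evmap (sc (G k (n + 1)).V (n : k)) p
    rw [evmap_shift]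
    congr 1
    push_cast
    ring
  · rintro ⟨p, v⟩
    exact map_zero (evmap (sc (G k (n + 1)).V (n : k)))
  · rintro ⟨p, v⟩
    exact map_zero (evmap (sc (G k (n + 1)).V (n : k)))

theorem piT_mem (n : ℕ) (j : ℤ) (x : (T (G k (n + 1))).V) (hx : x ∈ (T (G k (n + 1))).F j) :
    piT k n x ∈ (G k (n + 1)).F (j + 0) := by
  obtain ⟨p, v⟩ := x
  rw [add_zero]
  exact evmap_mem (G k (n + 1)).F _ (smulid_mem _ (isR_G (n + 1)).toIsH _) j p hx.1

/-! ### levelwise exactness -/

section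
variable [CharZero k]

theorem phi_ker (n : ℕ) (x : (T (G k (n + 1))).V) (hx : phiT (G k (n + 1)) (n : k) x = 0) :
    ∃ q : (G k n).V, iT k n q = x := by
  obtain ⟨p, v⟩ := x
  rw [phiT_apply] at hx
  have h1 : Dmap (sc (G k (n + 1)).V (n : k)) p = 0 :=
    congrArg Prod.fst hx
  have h2 : KK (G k (n + 1)) v - (n : k) • v = 0 := congrArg Prod.snd hx
  have h3 : p = 0 := Dmap_injective _ (by rw [h1, map_zero])
  obtain ⟨q, hq⟩ := (ker_KG n v).mp h2
  exact ⟨q, by rw [iT_apply, hq, h3]⟩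

theorem phi_iT (n : ℕ) (q : (G k n).V) : phiT (G k (n + 1)) (n : k) (iT k n q) = 0 := by
  have h : KK (G k (n + 1)) (iotaG k n q) - (n : k) • iotaG k n q = 0 :=
    (ker_KG n _).mpr ⟨q, rfl⟩
  rw [iT_apply, phiT_apply, map_zero, h]
  rfl

omit [CharZero k] in
theorem piT_phi (n : ℕ) (x : (T (G k (n + 1))).V) :
    piT k n (phiT (G k (n + 1)) (n : k) x) = 0 := by
  obtain ⟨p, v⟩ := x
  rw [phiT_apply, piT_apply, evmap_Dmap]

omit [CharZero k] in
theorem piT_iT (n : ℕ) (q : (G k n).V) : piT k n (iT k n q) = 0 := by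
  rw [iT_apply, piT_apply, map_zero]

/-- kernel of `piT` modulo the image of `phiT`, at every level `j ≥ 0` -/
theorem piT_ker (n : ℕ) (j : ℤ) (hj : 0 ≤ j) (x : (T (G k (n + 1))).V)
    (hx : x ∈ (T (G k (n + 1))).F j) (h0 : piT k n x = 0) :
    ∃ y ∈ (T (G k (n + 1))).F (j - 1), ∃ q : (G k n).V,
      x = phiT (G k (n + 1)) (n : k) y + iT k n q := by
  obtain ⟨p, v⟩ := x
  rw [piT_apply] at h0
  have hp : p ∈ PF (G k (n + 1)).F (j - 1 + 1) := by rw [sub_add_cancel]; exact hx.1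
  obtain ⟨p', hp', hpp⟩ := Dmap_lift (G k (n + 1)).F _ (isR_G (n + 1)).mono
    (smulid_mem _ (isR_G (n + 1)).toIsH _) (j - 1) p hp h0
  have hc : cpG k n (v - iotaG k n (((n : k) + 1)⁻¹ • cpG k n v)) = 0 := by
    rw [map_sub, cpG_iotaG, smul_smul, mul_inv_cancel₀ (Nat.cast_add_one_ne_zero n), one_smul,
      sub_self]
  obtain ⟨w, hw⟩ := (range_KG n _).mp hc
  refine ⟨(p', w), ⟨hp', ?_, ?_⟩, ((n : k) + 1)⁻¹ • cpG k n v, ?_⟩
  · rw [sub_add_cancel]; exact G_F_top (n + 1) j hj _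
  · rw [sub_add_cancel]; exact G_F_top (n + 1) j hj _
  · rw [phiT_apply, iT_apply, hpp, hw]
    change (p, v) = (p + 0, _ + _)
    rw [add_zero, sub_add_cancel]

/-- `iT q` is in the image of `phiT` only if `q = 0` -/
theorem iT_phi (n : ℕ) (q : (G k n).V) (y : (T (G k (n + 1))).V)
    (h : phiT (G k (n + 1)) (n : k) y = iT k n q) : q = 0 := by
  obtain ⟨p, v⟩ := y
  rw [phiT_apply, iT_apply] at h
  have h2 : KK (G k (n + 1)) v - (n : k) • v = iotaG k n q := congrArg Prod.snd h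
  have h3 := (range_KG n (iotaG k n q)).mpr ⟨v, h2⟩
  rw [cpG_iotaG] at h3
  rcases smul_eq_zero.mp h3 with h4 | h4
  · exact absurd h4 (Nat.cast_add_one_ne_zero n)
  · exact h4

omit [CharZero k] in
theorem iT_injective (n : ℕ) : Function.Injective (iT k n) := by
  intro a b h
  exact iotaG_injective n (congrArg Prod.snd h)

end

end Vale.Agent.P176
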