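import Mathlib

/-!
P176, section 5, raw part: the sl2-modules `G n` (dimension `n`, highest weight `n - 1`) inside `k[X]`,
the maps `iota : G n → G (n+1) × G (n+1)` and `cp : G (n+1) × G (n+1) → G n`.
-/

set_option linter.unusedSimpArgs false
set_option linter.unusedSectionVars false

namespace Vale.Agent.P176

open Polynomial

variable {k : Type} [Field k]

/-- the operator `e = D` on polynomials -/
noncomputable def pe : k[X] →ₗ[k] k[X] := derivative

/-- the operator `h = nu - 2 X D` on polynomials -/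
noncomputable def ph (nu : k) : k[X] →ₗ[k] k[X] :=
  nu • LinearMap.id - (2 : k) • (LinearMap.mulLeft k (X : k[X]) ∘ₗ derivative)

/-- the operator `f = X (nu - X D)` on polynomials -/
noncomputable def pf (nu : k) : k[X] →ₗ[k] k[X] :=
  LinearMap.mulLeft k (X : k[X]) ∘ₗ
    (nu • LinearMap.id - (LinearMap.mulLeft k (X : k[X]) ∘ₗ derivative))

theorem pe_apply (p : k[X]) : pe p = derivative p := rfl

theorem ph_apply (nu : k) (p : k[X]) : ph nu p = nu • p - (2 : k) • (X * derivative p) := rfl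

theorem pf_apply (nu : k) (p : k[X]) : pf nu p = X * (nu • p - X * derivative p) := rfl

theorem pe_pf (nu : k) (p : k[X]) : pe (pf nu p) = pf nu (pe p) + ph nu p := by
  simp only [pe_apply, pf_apply, ph_apply, derivative_mul, derivative_sub, derivative_X,
    derivative_smul, smul_eq_C_mul, derivative_C]
  simp only [map_ofNat]
  ring

theorem ph_pe (nu : k) (p : k[X]) : ph nu (pe p) = pe (ph nu p) + (2 : k) • pe p := by
  simp only [pe_apply, pf_apply, ph_apply, derivative_mul, derivative_sub, derivative_X,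
    derivative_smul, smul_eq_C_mul, derivative_C]
  simp only [map_ofNat]
  ring

theorem ph_pf (nu : k) (p : k[X]) : ph nu (pf nu p) = pf nu (ph nu p) - (2 : k) • pf nu p := by
  simp only [pe_apply, pf_apply, ph_apply, derivative_mul, derivative_sub, derivative_X,
    derivative_smul, smul_eq_C_mul, derivative_C]
  simp only [map_ofNat]
  ring

theorem mem_dlt {n : ℕ} {p : k[X]} : p ∈ degreeLT k n ↔ ∀ m, n ≤ m → p.coeff m = 0 := by
  rw [mem_degreeLT, degree_lt_iff_coeff_zero]

theorem coeff_XD (p : k[X]) (m : ℕ) : (X * derivative p).coeff m = (m : k) * p.coeff m := by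
  cases m with
  | zero => simp
  | succ m => rw [coeff_X_mul, coeff_derivative]; push_cast; ring

theorem pe_mem {n : ℕ} {p : k[X]} (hp : p ∈ degreeLT k n) : pe p ∈ degreeLT k n := by
  rw [mem_dlt] at hp ⊢
  intro m hm
  rw [pe_apply, coeff_derivative, hp (m + 1) (by omega), zero_mul]

theorem pe_mem_pred {n : ℕ} {p : k[X]} (hp : p ∈ degreeLT k (n + 1)) : pe p ∈ degreeLT k n := by
  rw [mem_dlt] at hp ⊢
  intro m hm
  rw [pe_apply, coeff_derivative, hp (m + 1) (by omega), zero_mul]

theorem ph_mem {n : ℕ} (nu : k) {p : k[X]} (hp : p ∈ degreeLT k n) :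
    ph nu p ∈ degreeLT k n := by
  rw [mem_dlt] at hp ⊢
  intro m hm
  rw [ph_apply, coeff_sub, coeff_smul, coeff_smul, coeff_XD, hp m hm]
  simp

/-- the polynomial `nu p - X D p` drops the degree when `nu` is the top degree -/
theorem red_mem {n : ℕ} {p : k[X]} (hp : p ∈ degreeLT k (n + 1)) :
    (n : k) • p - X * derivative p ∈ degreeLT k n := by
  rw [mem_dlt] at hp ⊢
  intro m hm
  rw [coeff_sub, coeff_smul, coeff_XD]
  rcases Nat.eq_or_lt_of_le hm with h | h
  · subst h; simp
  · rw [hp m (by omega)]; simp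

theorem X_mul_mem {n : ℕ} {p : k[X]} (hp : p ∈ degreeLT k n) : X * p ∈ degreeLT k (n + 1) := by
  rw [mem_dlt] at hp ⊢
  intro m hm
  obtain ⟨m, rfl⟩ : ∃ j, m = j + 1 := ⟨m - 1, by omega⟩
  rw [coeff_X_mul]
  exact hp m (by omega)

theorem dlt_mono {n : ℕ} {p : k[X]} (hp : p ∈ degreeLT k n) : p ∈ degreeLT k (n + 1) := by
  rw [mem_dlt] at hp ⊢
  intro m hm
  exact hp m (by omega)

theorem pf_mem {n : ℕ} {p : k[X]} (hp : p ∈ degreeLT k (n + 1)) :
    pf (n : k) p ∈ degreeLT k (n + 1) := X_mul_mem (red_mem hp)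

theorem pf_mem' {n : ℕ} {p : k[X]} (hp : p ∈ degreeLT k n) :
    pf ((n : k) - 1) p ∈ degreeLT k n := by
  cases n with
  | zero =>
    have h0 : p = 0 := by
      ext m
      rw [mem_dlt] at hp
      simpa using hp m (Nat.zero_le m)
    subst h0
    simp
  | succ n =>
    have := pf_mem hp
    simpa using this

/-- the space `G n` of polynomials of degree `< n` -/
abbrev GV (k : Type) [Field k] (n : ℕ) : Type := degreeLT k n

noncomputable def gE (n : ℕ) : GV k n →ₗ[k] GV k n := pe.restrict (fun _ h => pe_mem h)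

noncomputable def gH (n : ℕ) : GV k n →ₗ[k] GV k n :=
  (ph ((n : k) - 1)).restrict (fun _ h => ph_mem _ h)

noncomputable def gF (n : ℕ) : GV k n →ₗ[k] GV k n :=
  (pf ((n : k) - 1)).restrict (fun _ h => pf_mem' h)

theorem gE_coe (n : ℕ) (p : GV k n) : ((gE n p : GV k n) : k[X]) = pe (p : k[X]) :=
  LinearMap.coe_restrict_apply _ _
theorem gH_coe (n : ℕ) (p : GV k n) :
    ((gH n p : GV k n) : k[X]) = ph ((n : k) - 1) (p : k[X]) :=
  LinearMap.coe_restrict_apply _ _
theorem gF_coe (n : ℕ) (p : GV k n) :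
    ((gF n p : GV k n) : k[X]) = pf ((n : k) - 1) (p : k[X]) :=
  LinearMap.coe_restrict_apply _ _

theorem gE_gF (n : ℕ) (p : GV k n) : gE n (gF n p) = gF n (gE n p) + gH n p := by
  apply Subtype.ext
  rw [Submodule.coe_add, gE_coe, gF_coe, gF_coe, gE_coe, gH_coe]
  exact pe_pf _ _

theorem gH_gE (n : ℕ) (p : GV k n) : gH n (gE n p) = gE n (gH n p) + (2 : k) • gE n p := by
  apply Subtype.ext
  rw [Submodule.coe_add, Submodule.coe_smul, gH_coe, gE_coe, gE_coe, gH_coe]
  exact ph_pe _ _

theorem gH_gF (n : ℕ) (p : GV k n) : gH n (gF n p) = gF n (gH n p) - (2 : k) • gF n p := by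
  apply Subtype.ext
  rw [Submodule.coe_sub, Submodule.coe_smul, gH_coe, gF_coe, gF_coe, gH_coe]
  exact ph_pf _ _

/-- inclusion `G n → G (n+1)` -/
noncomputable def iota1 (n : ℕ) : GV k n →ₗ[k] GV k (n + 1) :=
  (LinearMap.id : k[X] →ₗ[k] k[X]).restrict (fun _ h => dlt_mono h)

/-- multiplication by `X` -/
noncomputable def pX : k[X] →ₗ[k] k[X] := LinearMap.mulLeft k (X : k[X])

theorem pX_apply (p : k[X]) : pX p = X * p := by
  rw [pX, LinearMap.mulLeft_apply]

theorem pX_mem {n : ℕ} {p : k[X]} (hp : p ∈ degreeLT k n) : pX p ∈ degreeLT k (n + 1) := by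
  rw [pX_apply]
  exact X_mul_mem hp

/-- multiplication by `X`, `G n → G (n+1)` -/
noncomputable def iota2 (n : ℕ) : GV k n →ₗ[k] GV k (n + 1) :=
  pX.restrict (fun _ h => pX_mem h)

theorem iota1_coe (n : ℕ) (q : GV k n) : ((iota1 n q : GV k (n + 1)) : k[X]) = (q : k[X]) :=
  LinearMap.coe_restrict_apply _ _
theorem iota2_coe (n : ℕ) (q : GV k n) :
    ((iota2 n q : GV k (n + 1)) : k[X]) = X * (q : k[X]) := by
  rw [iota2, LinearMap.coe_restrict_apply, pX_apply]

/-- `iota q = (q, X q)` -/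
noncomputable def iota (n : ℕ) : GV k n →ₗ[k] GV k (n + 1) × GV k (n + 1) :=
  LinearMap.prod (iota1 n) (iota2 n)

theorem iota_apply (n : ℕ) (q : GV k n) : iota n q = (iota1 n q, iota2 n q) := rfl

theorem iota_fst (n : ℕ) (q : GV k n) :
    (((iota n q).1 : GV k (n + 1)) : k[X]) = (q : k[X]) := by
  rw [iota_apply, iota1_coe]
theorem iota_snd (n : ℕ) (q : GV k n) :
    (((iota n q).2 : GV k (n + 1)) : k[X]) = X * (q : k[X]) := by
  rw [iota_apply, iota2_coe]

/-- the polynomial map `p ↦ n p - X D p` -/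
noncomputable def pcp (nu : k) : k[X] →ₗ[k] k[X] :=
  nu • LinearMap.id - (LinearMap.mulLeft k (X : k[X]) ∘ₗ derivative)

theorem pcp_apply (nu : k) (p : k[X]) : pcp nu p = nu • p - X * derivative p := by
  rw [pcp, LinearMap.sub_apply, LinearMap.smul_apply, LinearMap.id_apply,
    LinearMap.comp_apply, LinearMap.mulLeft_apply]

theorem pcp_mem {n : ℕ} {p : k[X]} (hp : p ∈ degreeLT k (n + 1)) :
    pcp (n : k) p ∈ degreeLT k n := by
  rw [pcp_apply]
  exact red_mem hp

/-- `p ↦ n p - X D p`, `G (n+1) → G n` -/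
noncomputable def cp1 (n : ℕ) : GV k (n + 1) →ₗ[k] GV k n :=
  (pcp (n : k)).restrict (fun _ h => pcp_mem h)

/-- `p ↦ D p`, `G (n+1) → G n` -/
noncomputable def cp2 (n : ℕ) : GV k (n + 1) →ₗ[k] GV k n :=
  (pe : k[X] →ₗ[k] k[X]).restrict (fun _ h => pe_mem_pred h)

theorem cp1_coe (n : ℕ) (p : GV k (n + 1)) :
    ((cp1 n p : GV k n) : k[X]) = (n : k) • (p : k[X]) - X * derivative (p : k[X]) := by
  rw [cp1, LinearMap.coe_restrict_apply, pcp_apply]
theorem cp2_coe (n : ℕ) (p : GV k (n + 1)) :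
    ((cp2 n p : GV k n) : k[X]) = derivative (p : k[X]) := by
  rw [cp2, LinearMap.coe_restrict_apply, pe_apply]

/-- `cp (p1, p2) = (n p1 - X D p1) + D p2` -/
noncomputable def cp (n : ℕ) : GV k (n + 1) × GV k (n + 1) →ₗ[k] GV k n :=
  LinearMap.coprod (cp1 n) (cp2 n)

theorem cp_coe (n : ℕ) (v : GV k (n + 1) × GV k (n + 1)) :
    ((cp n v : GV k n) : k[X]) =
      ((n : k) • (v.1 : k[X]) - X * derivative (v.1 : k[X])) + derivative (v.2 : k[X]) := by
  rw [cp, LinearMap.coprod_apply, Submodule.coe_add, cp1_coe, cp2_coe]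

/-- the K operator on pairs, for general operators -/
def Kop {Y : Type} [AddCommGroup Y] [Module k Y] (E F H : Y →ₗ[k] Y) : Y × Y →ₗ[k] Y × Y :=
  LinearMap.prod
    ((H - (2 : k) • LinearMap.id) ∘ₗ LinearMap.fst k _ _ + (2 : k) • (E ∘ₗ LinearMap.snd k _ _))
    ((2 : k) • (F ∘ₗ LinearMap.fst k _ _) - (H + (2 : k) • LinearMap.id) ∘ₗ LinearMap.snd k _ _)

theorem Kop_apply {Y : Type} [AddCommGroup Y] [Module k Y] (E F H : Y →ₗ[k] Y) (v : Y × Y) :
    Kop E F H v = (H v.1 - (2 : k) • v.1 + (2 : k) • E v.2,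
      (2 : k) • F v.1 - (H v.2 + (2 : k) • v.2)) := rfl

theorem K_eq (n : ℕ) (v : GV k (n + 1) × GV k (n + 1)) :
    Kop (gE (n + 1)) (gF (n + 1)) (gH (n + 1)) v =
      (2 : k) • iota n (cp n v) - ((n : k) + 2) • v := by
  rw [Kop_apply]
  ext1 <;> apply Subtype.ext
  · simp only [Prod.fst_sub, Prod.smul_fst, Submodule.coe_sub, Submodule.coe_add,
      Submodule.coe_smul, iota_fst, cp_coe, gE_coe, gH_coe, pe_apply, ph_apply]
    push_cast
    simp only [smul_eq_C_mul, map_add, map_sub, map_ofNat, map_natCast, map_one]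
    ring
  · simp only [Prod.snd_sub, Prod.smul_snd, Submodule.coe_sub, Submodule.coe_add,
      Submodule.coe_smul, iota_snd, cp_coe, gE_coe, gH_coe, gF_coe, pe_apply, ph_apply, pf_apply]
    push_cast
    simp only [smul_eq_C_mul, map_add, map_sub, map_ofNat, map_natCast, map_one]
    ring

theorem cp_iota (n : ℕ) (q : GV k n) : cp n (iota n q) = ((n : k) + 1) • q := by
  apply Subtype.ext
  simp only [cp_coe, iota_fst, iota_snd, Submodule.coe_smul, derivative_mul, derivative_X,
    smul_eq_C_mul, map_add, map_natCast, map_one]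
  ring

/-- action of `e` on pairs `b1 y1 + b2 y2` -/
theorem iota_E (n : ℕ) (q : GV k n) :
    iota n (gE n q) = (gE (n + 1) (iota n q).1, gE (n + 1) (iota n q).2 - (iota n q).1) := by
  ext1 <;> apply Subtype.ext
  · simp only [iota_fst, gE_coe]
  · simp only [iota_snd, iota_fst, gE_coe, Submodule.coe_sub, pe_apply, derivative_mul,
      derivative_X]
    ring

theorem iota_F (n : ℕ) (q : GV k n) :
    iota n (gF n q) = (gF (n + 1) (iota n q).1 - (iota n q).2, gF (n + 1) (iota n q).2) := by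
  ext1 <;> apply Subtype.ext
  · simp only [iota_fst, iota_snd, gF_coe, Submodule.coe_sub, pf_apply]
    push_cast
    simp only [smul_eq_C_mul, map_add, map_sub, map_ofNat, map_natCast, map_one]
    ring
  · simp only [iota_snd, gF_coe, Submodule.coe_sub, pf_apply, derivative_mul, derivative_X]
    push_cast
    simp only [smul_eq_C_mul, map_add, map_sub, map_ofNat, map_natCast, map_one]
    ring

theorem iota_H (n : ℕ) (q : GV k n) :
    iota n (gH n q) =
      (gH (n + 1) (iota n q).1 - (iota n q).1, gH (n + 1) (iota n q).2 + (iota n q).2) := by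
  ext1 <;> apply Subtype.ext
  · simp only [iota_fst, gH_coe, Submodule.coe_sub, ph_apply]
    push_cast
    simp only [smul_eq_C_mul, map_add, map_sub, map_ofNat, map_natCast, map_one]
    ring
  · simp only [iota_snd, gH_coe, Submodule.coe_add, ph_apply, derivative_mul, derivative_X]
    push_cast
    simp only [smul_eq_C_mul, map_add, map_sub, map_ofNat, map_natCast, map_one]
    ring

theorem cp_E (n : ℕ) (v : GV k (n + 1) × GV k (n + 1)) :
    cp n (gE (n + 1) v.1, gE (n + 1) v.2 - v.1) = gE n (cp n v) := by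
  apply Subtype.ext
  simp only [cp_coe, gE_coe, Submodule.coe_sub, pe_apply, derivative_mul, derivative_X,
    smul_eq_C_mul, map_add, map_sub, map_natCast, map_one, derivative_natCast]
  ring

theorem cp_F (n : ℕ) (v : GV k (n + 1) × GV k (n + 1)) :
    cp n (gF (n + 1) v.1 - v.2, gF (n + 1) v.2) = gF n (cp n v) := by
  apply Subtype.ext
  simp only [cp_coe, gF_coe, Submodule.coe_sub, pf_apply, derivative_mul, derivative_X,
    smul_eq_C_mul, map_add, map_sub, derivative_C]
  push_cast
  simp only [map_add, map_sub, map_ofNat, map_natCast, map_one, derivative_natCast,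
    derivative_one, derivative_sub, derivative_add, derivative_mul, derivative_X]
  ring

theorem cp_H (n : ℕ) (v : GV k (n + 1) × GV k (n + 1)) :
    cp n (gH (n + 1) v.1 - v.1, gH (n + 1) v.2 + v.2) = gH n (cp n v) := by
  apply Subtype.ext
  simp only [cp_coe, gH_coe, Submodule.coe_sub, Submodule.coe_add, ph_apply, derivative_mul,
    derivative_X, smul_eq_C_mul, map_add, map_sub, derivative_C]
  push_cast
  simp only [map_add, map_sub, map_ofNat, map_natCast, map_one, derivative_natCast,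
    derivative_one, derivative_sub, derivative_add, derivative_mul, derivative_X,
    derivative_ofNat]
  ring

theorem iota_injective (n : ℕ) : Function.Injective (iota (k := k) n) := by
  intro a b h
  apply Subtype.ext
  have h1 := iota_fst n a
  rw [h, iota_fst n b] at h1
  exact h1.symm

section CharZero
variable [CharZero k]

theorem cp_surjective (n : ℕ) : Function.Surjective (cp (k := k) n) := by
  intro q
  refine ⟨iota n (((n : k) + 1)⁻¹ • q), ?_⟩
  rw [cp_iota, smul_smul, mul_inv_cancel₀ (Nat.cast_add_one_ne_zero n), one_smul]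

/-- `(K - n) v = 2 (iota (cp v) - (n+1) v)` -/
theorem K_sub (n : ℕ) (v : GV k (n + 1) × GV k (n + 1)) :
    Kop (gE (n + 1)) (gF (n + 1)) (gH (n + 1)) v - (n : k) • v =
      (2 : k) • (iota n (cp n v) - ((n : k) + 1) • v) := by
  rw [K_eq, smul_sub, smul_smul, sub_sub, ← add_smul]
  congr 2
  ring

/-- kernel of `K - n` -/
theorem ker_K (n : ℕ) (v : GV k (n + 1) × GV k (n + 1)) :
    Kop (gE (n + 1)) (gF (n + 1)) (gH (n + 1)) v - (n : k) • v = 0 ↔ ∃ q, iota n q = v := by
  rw [K_sub]
  constructor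
  · intro h
    have h2 : iota n (cp n v) - ((n : k) + 1) • v = 0 := by
      rcases smul_eq_zero.mp h with h | h
      · exact absurd h two_ne_zero
      · exact h
    refine ⟨((n : k) + 1)⁻¹ • cp n v, ?_⟩
    rw [map_smul, sub_eq_zero.mp h2, smul_smul, inv_mul_cancel₀ (Nat.cast_add_one_ne_zero n),
      one_smul]
  · rintro ⟨q, rfl⟩
    rw [cp_iota, map_smul, sub_self, smul_zero]

/-- image of `K - n` -/
theorem range_K (n : ℕ) (w : GV k (n + 1) × GV k (n + 1)) :
    cp n w = 0 ↔
      ∃ v, Kop (gE (n + 1)) (gF (n + 1)) (gH (n + 1)) v - (n : k) • v = w := by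
  constructor
  · intro h
    have h1 : ((n : k) + 1) ≠ 0 := Nat.cast_add_one_ne_zero n
    have h2 : (2 : k) * ((n : k) + 1) ≠ 0 := mul_ne_zero two_ne_zero h1
    have key : ∀ c : k, (2 : k) • (iota n (cp n (c • w)) - ((n : k) + 1) • (c • w))
        = (-((2 : k) * ((n : k) + 1) * c)) • w := by
      intro c
      rw [map_smul, h, smul_zero, map_zero]
      module
    refine ⟨(-(2 * ((n : k) + 1))⁻¹) • w, ?_⟩
    rw [K_sub, key, mul_neg, mul_inv_cancel₀ h2, neg_neg, one_smul]
  · rintro ⟨v, rfl⟩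
    rw [K_sub, map_smul, map_sub, cp_iota, map_smul, sub_self, smul_zero]

end CharZero

end Vale.Agent.P176
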