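import Vale.Agent.Lib.P176.Iso

/-!
# P176: finite-dimensionality of the filtration steps of `R` and of the window algebra
-/

namespace Vale.Agent.P176

variable {k : Type} [Field k]

/-- every filtration step is finite-dimensional and the filtration is bounded below -/
structure FD (N : Sp k) : Prop where
  fin : ∀ j, Module.Finite k (N.F j)
  low : ∃ j0 : ℤ, ∀ j < j0, N.F j = ⊥

/-- `PF F j` embeds into the finite product of the `F (j - a)`, `0 ≤ a ≤ j - j0`. -/
theorem fd_PF {V : Type} [AddCommGroup V] [Module k V] (F : ℤ → Submodule k V)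
    (fin : ∀ j, Module.Finite k (F j)) (low : ∃ j0 : ℤ, ∀ j < j0, F j = ⊥) :
    (∀ j, Module.Finite k (PF F j)) ∧ ∃ j0 : ℤ, ∀ j < j0, PF F j = ⊥ := by
  obtain ⟨j0, hj0⟩ := low
  refine ⟨fun j => ?_, j0, fun j hj => ?_⟩
  · have := fin
    let g : PF F j →ₗ[k] ((a : Fin ((j - j0 + 1).toNat)) → F (j - ((a : ℕ) : ℤ))) :=
      { toFun := fun p a => ⟨p.1 (a : ℕ), p.2 (a : ℕ)⟩
        map_add' := fun p q => by
          funext a
          apply Subtype.ext
          simp
        map_smul' := fun r p => by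
          funext a
          apply Subtype.ext
          simp }
    refine Module.Finite.of_injective g ?_
    intro p q hpq
    apply Subtype.ext
    apply Finsupp.ext
    intro a
    by_cases ha : a < (j - j0 + 1).toNat
    · have h1 := congrFun hpq ⟨a, ha⟩
      exact congrArg Subtype.val h1
    · have h2 : F (j - (a : ℤ)) = ⊥ := hj0 _ (by omega)
      have hp := p.2 a
      have hq := q.2 a
      rw [h2, Submodule.mem_bot] at hp hq
      rw [hp, hq]
  · rw [eq_bot_iff]
    intro p hp
    rw [Submodule.mem_bot]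
    apply Finsupp.ext
    intro a
    have h2 : F (j - (a : ℤ)) = ⊥ := hj0 _ (by omega)
    have h3 := hp a
    rw [h2, Submodule.mem_bot] at h3
    rw [h3]
    rfl

theorem fd_M3 (N : Sp k) (h : FD N) : FD (M3 N) := ⟨(fd_PF N.F h.fin h.low).1, (fd_PF N.F h.fin h.low).2⟩
theorem fd_M2 (N : Sp k) (h : FD N) : FD (M2 N) := ⟨(fd_PF N.F h.fin h.low).1, (fd_PF N.F h.fin h.low).2⟩
theorem fd_M1 (N : Sp k) (h : FD N) : FD (M1 N) := ⟨(fd_PF N.F h.fin h.low).1, (fd_PF N.F h.fin h.low).2⟩

theorem fd_T (N : Sp k) (h : FD N) : FD (T N) := by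
  have h1 := fd_PF N.F h.fin h.low
  refine ⟨fun j => ?_, ?_⟩
  · have hP : (PF N.F j).FG := Module.Finite.iff_fg.1 (h1.1 j)
    have hF : (N.F (j + 1)).FG := Module.Finite.iff_fg.1 (h.fin (j + 1))
    exact Module.Finite.iff_fg.2 (hP.prod (hF.prod hF))
  · obtain ⟨j1, hj1⟩ := h1.2
    obtain ⟨j0, hj0⟩ := h.low
    refine ⟨min j1 (j0 - 1), fun j hj => ?_⟩
    have e1 : PF N.F j = ⊥ := hj1 j (lt_of_lt_of_le hj (min_le_left _ _))
    have e2 : N.F (j + 1) = ⊥ := hj0 (j + 1) (by
      have := lt_of_lt_of_le hj (min_le_right _ _)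
      omega)
    change (PF N.F j).prod ((N.F (j + 1)).prod (N.F (j + 1))) = ⊥
    rw [e1, e2, Submodule.prod_bot, Submodule.prod_bot]

theorem fd_Sp1 : FD (Sp1 k) := by
  refine ⟨fun j => ?_, 0, fun j hj => ?_⟩
  · have : Module.Finite k (Sp1 k).V := inferInstanceAs (Module.Finite k k)
    infer_instance
  · change (if 0 ≤ j then (⊤ : Submodule k k) else ⊥) = ⊥
    rw [if_neg (not_le.2 hj)]

theorem fd_MM : FD (MM k) := fd_T _ (fd_M1 _ (fd_M2 _ (fd_M3 _ fd_Sp1)))

/-- from `MM_iso` -/
theorem finite_RF (m : ℤ) : Module.Finite k (RF m : Submodule k (R k)) := by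
  have : Module.Finite k ((MM k).F m) := fd_MM.fin m
  let g : (RF m : Submodule k (R k)) →ₗ[k] ((MM k).F m) :=
    { toFun := fun a => ⟨rho (MM k) isR_MM a.1 (oneM k), (MM_iso.2 m a.1).1 a.2⟩
      map_add' := fun a b => by
        apply Subtype.ext
        simp
      map_smul' := fun r a => by
        apply Subtype.ext
        simp }
  refine Module.Finite.of_injective g ?_
  intro a b hab
  apply Subtype.ext
  exact MM_iso.1.1 (congrArg Subtype.val hab)

/-- `A` embeds in the product of the 25 spaces `RF (j - i)` -/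
theorem finite_A : Module.Finite k (A k) := A_finite finite_RF

/-- windows of `FD` modules are finite-dimensional, hence finite over `A` -/
theorem finite_W (N : Sp k) (hN : IsR N) (h : FD N) (i : ℤ) : Module.Finite (A k) (W N hN i) :=
  W_finite' N hN i h.fin

end Vale.Agent.P176
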