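import Mathlib

/-!
# P176: homological bookkeeping (section 6 of the paper proof)
-/

namespace Vale.Agent.P176

open CategoryTheory CategoryTheory.Abelian

universe w v u

/-- there is a short exact sequence `0 → X → Y → Z → 0` -/
def SES {C : Type u} [Category.{v} C] [Abelian C] (X Y Z : C) : Prop :=
  ∃ (f : X ⟶ Y) (g : Y ⟶ Z) (w : f ≫ g = 0), (ShortComplex.mk f g w).ShortExact

variable {C : Type u} [Category.{v} C] [Abelian C]

/-- `pd X < n` -/
abbrev PL (X : C) (n : ℕ) : Prop := HasProjectiveDimensionLT X n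

theorem PL.mono {X : C} {m n : ℕ} (h : PL X m) (hmn : m ≤ n) : PL X n :=
  haveI := h
  hasProjectiveDimensionLT_of_ge X m n hmn

theorem SES.p2 {X Y Z : C} (h : SES X Y Z) {n : ℕ} (h1 : PL X n) (h3 : PL Z n) : PL Y n := by
  obtain ⟨f, g, w, hS⟩ := h
  exact hS.hasProjectiveDimensionLT_X₂ n h1 h3

theorem SES.p3 {X Y Z : C} (h : SES X Y Z) {n : ℕ} (h1 : PL X n) (h2 : PL Y (n + 1)) :
    PL Z (n + 1) := by
  obtain ⟨f, g, w, hS⟩ := h
  exact hS.hasProjectiveDimensionLT_X₃ n h1 h2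

theorem SES.p1 {X Y Z : C} (h : SES X Y Z) {n : ℕ} (h2 : PL Y n) (h3 : PL Z (n + 1)) :
    PL X n := by
  obtain ⟨f, g, w, hS⟩ := h
  exact hS.hasProjectiveDimensionLT_X₁ n h2 h3

section

variable [HasExt.{w} C]

/-- `Ext^i(X, S) = 0` -/
def EZ (X S : C) (i : ℕ) : Prop := ∀ e : Ext.{w} X S i, e = 0

theorem SES.ez3 {X Y Z S : C} (h : SES X Y Z) {i : ℕ} (h1 : EZ.{w} X S i)
    (h2 : EZ.{w} Y S (i + 1)) : EZ.{w} Z S (i + 1) := by
  obtain ⟨f, g, w, hS⟩ := h
  intro x₃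
  obtain ⟨x₁, rfl⟩ := Ext.contravariant_sequence_exact₃ hS S x₃ (h2 _) (add_comm 1 i)
  have : x₁ = 0 := h1 x₁
  rw [this, Ext.comp_zero]

theorem SES.ez1 {X Y Z S : C} (h : SES X Y Z) {i : ℕ} (h2 : EZ.{w} Y S i)
    (h3 : EZ.{w} Z S (i + 1)) : EZ.{w} X S i := by
  obtain ⟨f, g, w, hS⟩ := h
  intro x₁
  obtain ⟨x₂, rfl⟩ := Ext.contravariant_sequence_exact₁ hS S x₁ (add_comm 1 i) (h3 _)
  have : x₂ = 0 := h2 x₂
  rw [this, Ext.comp_zero]

theorem SES.ez2 {X Y Z S : C} (h : SES X Y Z) {i : ℕ} (h1 : EZ.{w} X S i)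
    (h3 : EZ.{w} Z S i) : EZ.{w} Y S i := by
  obtain ⟨f, g, w, hS⟩ := h
  intro x₂
  obtain ⟨x₃, rfl⟩ := Ext.contravariant_sequence_exact₂ hS S x₂ (h1 _)
  have : x₃ = 0 := h3 x₃
  rw [this, Ext.comp_zero]

theorem PL.ez {X : C} {n : ℕ} (h : PL X n) (S : C) {i : ℕ} (hi : n ≤ i) : EZ.{w} X S i := by
  have := h
  intro e
  exact e.eq_zero_of_hasProjectiveDimensionLT n hi

theorem ez_zero_iff {X S : C} : EZ.{w} X S 0 ↔ ∀ f : X ⟶ S, f = 0 := by
  constructor
  · intro h f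
    have := h (Ext.mk₀ f)
    exact Ext.homEquiv₀.symm.injective (by simpa [Ext.homEquiv₀] using this)
  · intro h e
    obtain ⟨f, rfl⟩ := Ext.homEquiv₀.symm.surjective e
    rw [h f]
    simp [Ext.homEquiv₀]

end

/-- **Abstract form of the conclusion.** -/
theorem abs_main (G X I P Q : ℕ → C) (hG0 : Limits.IsZero (G 0))
    (s1 : ∀ n, SES (G n) (P n) (I n)) (s2 : ∀ n, SES (I n) (Q n) (X n))
    (s3 : ∀ n, SES (G n) (X n) (G (n + 1)))
    (hP : ∀ n, PL (P n) 4) (hQ : ∀ n, PL (Q n) 4) (hbase : ¬ PL (G 1) 4) (n : ℕ) :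
    projectiveDimension (G (n + 1)) = ((4 + 2 * n : ℕ) : WithBot ℕ∞) := by
  -- upper bound
  have step : ∀ n m, 3 ≤ m → PL (G n) m → PL (G (n + 1)) (m + 2) := by
    intro n m hm h
    have hI : PL (I n) (m + 1) := (s1 n).p3 h ((hP n).mono (by omega))
    have hX : PL (X n) (m + 2) := (s2 n).p3 hI ((hQ n).mono (by omega))
    exact (s3 n).p3 (h.mono (by omega)) hX
  have hG00 : PL (G 0) 0 := hG0.hasProjectiveDimensionLT_zero
  have upper : ∀ n, PL (G (n + 1)) (5 + 2 * n) := by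
    intro n
    induction n with
    | zero => exact step 0 3 le_rfl (hG00.mono (by omega))
    | succ n ih =>
      have := step (n + 1) (5 + 2 * n) (by omega) ih
      exact this.mono (by omega)
  -- lower bound
  have down : ∀ n j, 4 ≤ j → PL (G (n + 1)) (j + 2) → PL (G n) (j + 1) → PL (G n) j := by
    intro n j hj h1 h2
    have hX : PL (X n) (j + 2) := (s3 n).p2 (h2.mono (by omega)) h1
    have hI : PL (I n) (j + 1) := (s2 n).p1 ((hQ n).mono (by omega)) hX
    exact (s1 n).p1 ((hP n).mono (by omega)) hI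
  have down' : ∀ n j, 4 ≤ j → PL (G (n + 1)) (j + 2) → ∀ d, PL (G n) (j + d) → PL (G n) j := by
    intro n j hj h1 d
    induction d with
    | zero => intro h; exact h
    | succ d ih =>
      intro h
      exact ih (down n (j + d) (by omega) (h1.mono (by omega)) h)
  have lower : ∀ n, ¬ PL (G (n + 1)) (4 + 2 * n) := by
    intro n
    induction n with
    | zero => exact hbase
    | succ n ih =>
      intro h
      apply ih
      refine down' (n + 1) (4 + 2 * n) (by omega) (h.mono (by omega)) 1 ?_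
      exact (upper n).mono (by omega)
  apply le_antisymm
  · rw [projectiveDimension_le_iff]
    exact (upper n).mono (by omega)
  · rw [projectiveDimension_ge_iff]
    exact lower n

end Vale.Agent.P176
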