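import Vale.Agent.Lib.P176.Ring

/-!
# P176: uniqueness in the universal properties: equivariant maps out of `M3 Y, M2 Y, M1 Y, T Y` are
determined on `single 0 y`

`single (a+1) y = shift (single a y)`; in `T Y`: `(single (l+1) y, 0) = c (single l y, 0)`,
`(0, (y, 0)) = b1 (single 0 y, 0)`, `(0, (0, y)) = b2 (single 0 y, 0)`.
-/

namespace Vale.Agent.P176

variable {k : Type} [Field k]

/-- maps out of `ℕ →₀ V` commuting with `shift` are determined on `single 0 y` -/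
theorem uniq_shift {V W : Type} [AddCommGroup V] [Module k V] [AddCommGroup W] [Module k W]
    (θ : W →ₗ[k] W) (φ ψ : (ℕ →₀ V) →ₗ[k] W) (hφ : ∀ x, φ (shift k V x) = θ (φ x))
    (hψ : ∀ x, ψ (shift k V x) = θ (ψ x))
    (h0 : ∀ y, φ (Finsupp.single 0 y) = ψ (Finsupp.single 0 y)) : φ = ψ := by
  apply Finsupp.lhom_ext
  intro a
  induction a with
  | zero => exact h0
  | succ a ih =>
    intro y
    rw [← shift_single (k := k), hφ, hψ, ih y]

theorem uniq3 (Y N : Sp k) (φ ψ : (ℕ →₀ Y.V) →ₗ[k] N.V) (hφ : HomH (M3 Y) N φ)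
    (hψ : HomH (M3 Y) N ψ) (h0 : ∀ y, φ (Finsupp.single 0 y) = ψ (Finsupp.single 0 y)) :
    φ = ψ :=
  uniq_shift (N.act .h) φ ψ (fun x => hφ x) (fun x => hψ x) h0

theorem uniq2 (Y N : Sp k) (φ ψ : (ℕ →₀ Y.V) →ₗ[k] N.V) (hφ : HomB (M2 Y) N φ)
    (hψ : HomB (M2 Y) N ψ) (h0 : ∀ y, φ (Finsupp.single 0 y) = ψ (Finsupp.single 0 y)) :
    φ = ψ :=
  uniq_shift (N.act .e) φ ψ (fun x => hφ.2 x) (fun x => hψ.2 x) h0

theorem uniq1 (Y N : Sp k) (φ ψ : (ℕ →₀ Y.V) →ₗ[k] N.V) (hφ : HomU (M1 Y) N φ)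
    (hψ : HomU (M1 Y) N ψ) (h0 : ∀ y, φ (Finsupp.single 0 y) = ψ (Finsupp.single 0 y)) :
    φ = ψ :=
  uniq_shift (N.act .f) φ ψ (fun x => hφ.2.2 x) (fun x => hψ.2.2 x) h0

theorem uniqT (Y N : Sp k) (φ ψ : ((ℕ →₀ Y.V) × (Y.V × Y.V)) →ₗ[k] N.V) (hφ : HomR (T Y) N φ)
    (hψ : HomR (T Y) N ψ) (h0 : ∀ y, φ (Finsupp.single 0 y, 0) = ψ (Finsupp.single 0 y, 0)) :
    φ = ψ := by
  have hc : ∀ (χ : ((ℕ →₀ Y.V) × (Y.V × Y.V)) →ₗ[k] N.V), HomR (T Y) N χ →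
      ∀ x : ℕ →₀ Y.V, χ (shift k Y.V x, 0) = N.act .c (χ (x, 0)) := by
    intro χ hχ x
    have h := hχ .c (x, 0)
    have e : (T Y).act .c (x, 0) = (shift k Y.V x, 0) := by
      change (shift k Y.V x, (actV Y .c) 0) = _
      rw [map_zero]
    rw [e] at h
    exact h
  have hb1 : ∀ (χ : ((ℕ →₀ Y.V) × (Y.V × Y.V)) →ₗ[k] N.V), HomR (T Y) N χ →
      ∀ y : Y.V, χ (0, (y, 0)) = N.act .b1 (χ (Finsupp.single 0 y, 0)) := by
    intro χ hχ y
    have h := hχ .b1 (Finsupp.single 0 y, 0)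
    have e : (T Y).act .b1 (Finsupp.single 0 y, 0) = (0, (y, 0)) := by
      change LinearMap.inr k (ℕ →₀ Y.V) (Y.V × Y.V)
        ((Finsupp.lsum k (fun l : ℕ => (KK Y ^ l) ∘ₗ LinearMap.inl k Y.V Y.V))
          (Finsupp.single 0 y)) = _
      rw [Finsupp.lsum_single]
      simp
    rw [e] at h
    exact h
  have hb2 : ∀ (χ : ((ℕ →₀ Y.V) × (Y.V × Y.V)) →ₗ[k] N.V), HomR (T Y) N χ →
      ∀ y : Y.V, χ (0, (0, y)) = N.act .b2 (χ (Finsupp.single 0 y, 0)) := by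
    intro χ hχ y
    have h := hχ .b2 (Finsupp.single 0 y, 0)
    have e : (T Y).act .b2 (Finsupp.single 0 y, 0) = (0, (0, y)) := by
      change LinearMap.inr k (ℕ →₀ Y.V) (Y.V × Y.V)
        ((Finsupp.lsum k (fun l : ℕ => (KK Y ^ l) ∘ₗ LinearMap.inr k Y.V Y.V))
          (Finsupp.single 0 y)) = _
      rw [Finsupp.lsum_single]
      simp
    rw [e] at h
    exact h
  have h1 : φ ∘ₗ LinearMap.inl k _ _ = ψ ∘ₗ LinearMap.inl k _ _ :=
    uniq_shift (N.act .c) _ _ (fun x => by simpa using hc φ hφ x)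
      (fun x => by simpa using hc ψ hψ x) (fun y => by simpa using h0 y)
  apply LinearMap.prod_ext h1
  apply LinearMap.prod_ext
  · apply LinearMap.ext
    intro y
    have := hb1 φ hφ y
    have h2 := hb1 ψ hψ y
    rw [h0] at this
    simpa using this.trans h2.symm
  · apply LinearMap.ext
    intro y
    have := hb2 φ hφ y
    have h2 := hb2 ψ hψ y
    rw [h0] at this
    simpa using this.trans h2.symm

end Vale.Agent.P176
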