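import Vale.Agent.Lib.P176.Ring
import Vale.Agent.Lib.P176.MRelT2

/-!
# P176: universal property of `T`

`φ (c^l y) = c^l (g y)`, `φ (b_k y) = b_k (g y)`. With `β (q₁, q₂) = b1 (g q₁) + b2 (g q₂)`:
`b1 (c (g q₁)) + b2 (c (g q₂)) = β (K q)` (relations `b1c`, `b2c` in `N`), so `(c + 1) β q = β (K q)`
(relations `cb1`, `cb2`), hence `b_k (c^l g y) = (c+1)^l b_k (g y) = β (K^l ι_k y)`.
-/

namespace Vale.Agent.P176

variable {k : Type} [Field k]

/-- the map on the polynomial part -/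
noncomputable def uA (Y N : Sp k) (g : Y.V →ₗ[k] N.V) : (ℕ →₀ Y.V) →ₗ[k] N.V :=
  Finsupp.lsum k (fun l : ℕ => (N.act .c ^ l) ∘ₗ g)

/-- the map on the `b`-part -/
noncomputable def uB (Y N : Sp k) (g : Y.V →ₗ[k] N.V) : (Y.V × Y.V) →ₗ[k] N.V :=
  (N.act .b1 ∘ₗ g) ∘ₗ LinearMap.fst k Y.V Y.V + (N.act .b2 ∘ₗ g) ∘ₗ LinearMap.snd k Y.V Y.V

theorem uA_single (Y N : Sp k) (g : Y.V →ₗ[k] N.V) (l : ℕ) (y : Y.V) :
    uA Y N g (Finsupp.single l y) = (N.act .c ^ l) (g y) := by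
  unfold uA
  rw [Finsupp.lsum_single]
  rfl

theorem uB_apply (Y N : Sp k) (g : Y.V →ₗ[k] N.V) (q : Y.V × Y.V) :
    uB Y N g q = N.act .b1 (g q.1) + N.act .b2 (g q.2) := rfl

theorem pow_comm_act (N : Sp k) (s t : N.V →ₗ[k] N.V) (h : ∀ x, s (t x) = t (s x)) (l : ℕ) (x : N.V) :
    (s ^ l) (t x) = t ((s ^ l) x) := by
  induction l generalizing x with
  | zero => simp
  | succ l ih => rw [pow_succ', Module.End.mul_apply, Module.End.mul_apply, ih, h]

theorem uA_act (Y N : Sp k) (g : Y.V →ₗ[k] N.V) (s : Y.V →ₗ[k] Y.V) (t : N.V →ₗ[k] N.V)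
    (hst : ∀ y, g (s y) = t (g y)) (hc : ∀ x, N.act .c (t x) = t (N.act .c x)) (p : ℕ →₀ Y.V) :
    uA Y N g (Finsupp.mapRange.linearMap s p) = t (uA Y N g p) := by
  induction p using Finsupp.induction_linear with
  | zero => simp
  | add p q hp hq => rw [map_add, map_add, hp, hq, map_add, map_add]
  | single l y =>
    rw [Finsupp.mapRange.linearMap_apply, Finsupp.mapRange_single, uA_single, uA_single, hst,
      pow_comm_act N _ _ hc]

theorem uA_shift (Y N : Sp k) (g : Y.V →ₗ[k] N.V) (p : ℕ →₀ Y.V) :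
    uA Y N g (shift k Y.V p) = N.act .c (uA Y N g p) := by
  induction p using Finsupp.induction_linear with
  | zero => simp
  | add p q hp hq => rw [map_add, map_add, hp, hq, map_add, map_add]
  | single l y =>
    rw [shift_single, uA_single, uA_single, pow_succ', Module.End.mul_apply]

theorem KK_fst (N : Sp k) (q : N.V × N.V) :
    (KK N q).1 = N.act .h q.1 - (2 : k) • q.1 + (2 : k) • N.act .e q.2 := rfl

theorem KK_snd (N : Sp k) (q : N.V × N.V) :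
    (KK N q).2 = (2 : k) • N.act .f q.1 - (N.act .h q.2 + (2 : k) • q.2) := rfl

theorem uB_KK (Y N : Sp k) (hN : IsR N) (g : Y.V →ₗ[k] N.V) (hh : HomU Y N g)
    (q : Y.V × Y.V) : uB Y N g (KK Y q) = N.act .c (uB Y N g q) + uB Y N g q := by
  obtain ⟨h1, h2, h3⟩ := hh
  have e1 : ∀ y, g (Y.act .h y) = N.act .h (g y) := h1
  have e2 : ∀ y, g (Y.act .e y) = N.act .e (g y) := h2
  have e3 : ∀ y, g (Y.act .f y) = N.act .f (g y) := h3
  rw [uB_apply, uB_apply, KK_fst, KK_snd]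
  simp only [map_add, map_sub, map_smul, e1, e2, e3, hN.cb1, hN.cb2, hN.b1c, hN.b2c]
  abel

/-- `c + 1` -/
noncomputable def cpT (N : Sp k) : N.V →ₗ[k] N.V := N.act .c + LinearMap.id

theorem uB_KK_pow (Y N : Sp k) (hN : IsR N) (g : Y.V →ₗ[k] N.V) (hh : HomU Y N g)
    (l : ℕ) (q : Y.V × Y.V) :
    uB Y N g ((KK Y ^ l) q) = (cpT N ^ l) (uB Y N g q) := by
  induction l with
  | zero => simp
  | succ l ih =>
    rw [pow_succ', Module.End.mul_apply, uB_KK Y N hN g hh, ih, pow_succ', Module.End.mul_apply]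
    rfl

theorem b1_pow (N : Sp k) (hN : IsR N) (l : ℕ) (x : N.V) :
    N.act .b1 ((N.act .c ^ l) x) = (cpT N ^ l) (N.act .b1 x) := by
  induction l with
  | zero => simp
  | succ l ih =>
    rw [pow_succ', Module.End.mul_apply, pow_succ', Module.End.mul_apply, ← ih, cpT,
      LinearMap.add_apply, hN.cb1, LinearMap.id_apply]
    abel

theorem b2_pow (N : Sp k) (hN : IsR N) (l : ℕ) (x : N.V) :
    N.act .b2 ((N.act .c ^ l) x) = (cpT N ^ l) (N.act .b2 x) := by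
  induction l with
  | zero => simp
  | succ l ih =>
    rw [pow_succ', Module.End.mul_apply, pow_succ', Module.End.mul_apply, ← ih, cpT,
      LinearMap.add_apply, hN.cb2, LinearMap.id_apply]
    abel

theorem uB_b1 (Y N : Sp k) (hN : IsR N) (g : Y.V →ₗ[k] N.V) (hh : HomU Y N g) (p : ℕ →₀ Y.V) :
    uB Y N g (Finsupp.lsum k (fun l : ℕ => (KK Y ^ l) ∘ₗ LinearMap.inl k Y.V Y.V) p)
      = N.act .b1 (uA Y N g p) := by
  induction p using Finsupp.induction_linear with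
  | zero => simp
  | add p q hp hq => rw [map_add, map_add, hp, hq, map_add, map_add]
  | single l y =>
    rw [Finsupp.lsum_single, LinearMap.comp_apply, uB_KK_pow Y N hN g hh, uA_single,
      b1_pow N hN, uB_apply]
    simp

theorem uB_b2 (Y N : Sp k) (hN : IsR N) (g : Y.V →ₗ[k] N.V) (hh : HomU Y N g) (p : ℕ →₀ Y.V) :
    uB Y N g (Finsupp.lsum k (fun l : ℕ => (KK Y ^ l) ∘ₗ LinearMap.inr k Y.V Y.V) p)
      = N.act .b2 (uA Y N g p) := by
  induction p using Finsupp.induction_linear with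
  | zero => simp
  | add p q hp hq => rw [map_add, map_add, hp, hq, map_add, map_add]
  | single l y =>
    rw [Finsupp.lsum_single, LinearMap.comp_apply, uB_KK_pow Y N hN g hh, uA_single,
      b2_pow N hN, uB_apply]
    simp

theorem b1_uB (Y N : Sp k) (hN : IsR N) (g : Y.V →ₗ[k] N.V) (q : Y.V × Y.V) :
    N.act .b1 (uB Y N g q) = 0 := by
  rw [uB_apply, map_add, hN.b1b1, hN.b1b2, add_zero]

theorem b2_uB (Y N : Sp k) (hN : IsR N) (g : Y.V →ₗ[k] N.V) (q : Y.V × Y.V) :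
    N.act .b2 (uB Y N g q) = 0 := by
  rw [uB_apply, map_add, hN.b2b1, hN.b2b2, add_zero]

theorem c_pow_mem (N : Sp k) (hN : IsR N) (l : ℕ) (j : ℤ) (x : N.V) (hx : x ∈ N.F j) :
    (N.act .c ^ l) x ∈ N.F (j + l) := by
  induction l with
  | zero => simpa using hx
  | succ l ih =>
    rw [pow_succ', Module.End.mul_apply]
    have h := hN.c_mem _ _ ih
    have h2 : j + ((l + 1 : ℕ) : ℤ) = j + l + 1 := by push_cast; ring
    rw [h2]
    exact h

theorem uA_mem (Y N : Sp k) (hN : IsR N) (g : Y.V →ₗ[k] N.V)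
    (hg : ∀ j y, y ∈ Y.F j → g y ∈ N.F j) (j : ℤ) (p : ℕ →₀ Y.V) (hp : p ∈ PF Y.F j) :
    uA Y N g p ∈ N.F j := by
  unfold uA
  rw [Finsupp.lsum_apply, Finsupp.sum]
  refine Submodule.sum_mem _ (fun l _ => ?_)
  rw [mem_PF] at hp
  have h := c_pow_mem N hN l _ _ (hg _ _ (hp l))
  have h2 : j - (l : ℤ) + l = j := by ring
  rw [h2] at h
  exact h

theorem uB_mem (Y N : Sp k) (hN : IsR N) (g : Y.V →ₗ[k] N.V)
    (hg : ∀ j y, y ∈ Y.F j → g y ∈ N.F j) (j : ℤ) (q : Y.V × Y.V)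
    (h1 : q.1 ∈ Y.F (j + 1)) (h2 : q.2 ∈ Y.F (j + 1)) :
    uB Y N g q ∈ N.F j := by
  rw [uB_apply]
  have h3 := hN.b1_mem _ _ (hg _ _ h1)
  have h4 := hN.b2_mem _ _ (hg _ _ h2)
  rw [add_sub_cancel_right] at h3 h4
  exact (N.F j).add_mem h3 h4

/-- the map `T Y → N` -/
noncomputable def uT (Y N : Sp k) (g : Y.V →ₗ[k] N.V) :
    ((ℕ →₀ Y.V) × (Y.V × Y.V)) →ₗ[k] N.V :=
  uA Y N g ∘ₗ LinearMap.fst k (ℕ →₀ Y.V) (Y.V × Y.V)
    + uB Y N g ∘ₗ LinearMap.snd k (ℕ →₀ Y.V) (Y.V × Y.V)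

theorem uT_apply (Y N : Sp k) (g : Y.V →ₗ[k] N.V) (x : (ℕ →₀ Y.V) × (Y.V × Y.V)) :
    uT Y N g x = uA Y N g x.1 + uB Y N g x.2 := rfl

theorem uT_hom (Y N : Sp k) (hN : IsR N) (g : Y.V →ₗ[k] N.V) (hh : HomU Y N g) :
    HomR (T Y) N (uT Y N g) := by
  have h1 : ∀ y, g (Y.act .h y) = N.act .h (g y) := hh.1
  have h2 : ∀ y, g (Y.act .e y) = N.act .e (g y) := hh.2.1
  have h3 : ∀ y, g (Y.act .f y) = N.act .f (g y) := hh.2.2
  intro a
  cases a
  · -- e
    have key : ∀ x : (ℕ →₀ Y.V) × (Y.V × Y.V),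
        uA Y N g (Finsupp.mapRange.linearMap (Y.act .e) x.1)
          + uB Y N g (Y.act .e x.2.1, Y.act .e x.2.2 - x.2.1)
        = N.act .e (uA Y N g x.1 + uB Y N g x.2) := by
      intro x
      rw [uA_act Y N g _ _ h2 hN.ce, uB_apply, uB_apply]
      simp only [map_add, map_sub, h2, hN.eb1, hN.eb2]
      abel
    exact fun x => key x
  · -- f
    have key : ∀ x : (ℕ →₀ Y.V) × (Y.V × Y.V),
        uA Y N g (Finsupp.mapRange.linearMap (Y.act .f) x.1)
          + uB Y N g (Y.act .f x.2.1 - x.2.2, Y.act .f x.2.2)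
        = N.act .f (uA Y N g x.1 + uB Y N g x.2) := by
      intro x
      rw [uA_act Y N g _ _ h3 hN.cf, uB_apply, uB_apply]
      simp only [map_add, map_sub, h3, hN.fb1, hN.fb2]
      abel
    exact fun x => key x
  · -- h
    have key : ∀ x : (ℕ →₀ Y.V) × (Y.V × Y.V),
        uA Y N g (Finsupp.mapRange.linearMap (Y.act .h) x.1)
          + uB Y N g (Y.act .h x.2.1 - x.2.1, Y.act .h x.2.2 + x.2.2)
        = N.act .h (uA Y N g x.1 + uB Y N g x.2) := by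
      intro x
      rw [uA_act Y N g _ _ h1 hN.ch, uB_apply, uB_apply]
      simp only [map_add, map_sub, h1, hN.hb1, hN.hb2]
    exact fun x => key x
  · -- c
    have key : ∀ x : (ℕ →₀ Y.V) × (Y.V × Y.V),
        uA Y N g (shift k Y.V x.1) + uB Y N g (KK Y x.2 - x.2)
        = N.act .c (uA Y N g x.1 + uB Y N g x.2) := by
      intro x
      rw [uA_shift, map_sub, uB_KK Y N hN g hh, map_add, add_sub_cancel_right]
    exact fun x => key x
  · -- b1
    have key : ∀ x : (ℕ →₀ Y.V) × (Y.V × Y.V),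
        uA Y N g 0
          + uB Y N g (Finsupp.lsum k (fun l : ℕ => (KK Y ^ l) ∘ₗ LinearMap.inl k Y.V Y.V) x.1)
        = N.act .b1 (uA Y N g x.1 + uB Y N g x.2) := by
      intro x
      rw [map_zero, zero_add, uB_b1 Y N hN g hh, map_add, b1_uB Y N hN g, add_zero]
    exact fun x => key x
  · -- b2
    have key : ∀ x : (ℕ →₀ Y.V) × (Y.V × Y.V),
        uA Y N g 0
          + uB Y N g (Finsupp.lsum k (fun l : ℕ => (KK Y ^ l) ∘ₗ LinearMap.inr k Y.V Y.V) x.1)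
        = N.act .b2 (uA Y N g x.1 + uB Y N g x.2) := by
      intro x
      rw [map_zero, zero_add, uB_b2 Y N hN g hh, map_add, b2_uB Y N hN g, add_zero]
    exact fun x => key x

theorem liftT (Y N : Sp k) (hY : IsU Y) (hN : IsR N) (g : Y.V →ₗ[k] N.V) (hh : HomU Y N g)
    (hg : ∀ j y, y ∈ Y.F j → g y ∈ N.F j) :
    ∃ φ : ((ℕ →₀ Y.V) × (Y.V × Y.V)) →ₗ[k] N.V, HomR (T Y) N φ ∧
      (∀ j x, x ∈ (T Y).F j → φ x ∈ N.F j) ∧
      ∀ y, φ (Finsupp.single 0 y, 0) = g y := by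
  have _ := hY
  refine ⟨uT Y N g, uT_hom Y N hN g hh, ?_, ?_⟩
  · have key : ∀ (j : ℤ) (x : (ℕ →₀ Y.V) × (Y.V × Y.V)),
        (x.1 ∈ PF Y.F j ∧ (x.2.1 ∈ Y.F (j + 1) ∧ x.2.2 ∈ Y.F (j + 1))) →
        uT Y N g x ∈ N.F j := by
      intro j x hx
      rw [uT_apply]
      exact (N.F j).add_mem (uA_mem Y N hN g hg j _ hx.1)
        (uB_mem Y N hN g hg j _ hx.2.1 hx.2.2)
    intro j x hx
    exact key j x hx
  · intro y
    rw [uT_apply, uA_single]
    simp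

end Vale.Agent.P176
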