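import Vale.Agent.Lib.P176.Ring

/-!
# P176: exactness, finiteness, projectivity of the windows; the simple module at the vertex `4`
-/

namespace Vale.Agent.P176

open CategoryTheory

variable {k : Type} [Field k]

/-! ### the window of a map of degree `0` -/

/-- a filtered map of degree `0` commuting with all operators induces a map of windows -/
noncomputable def Wmap0 (M N : Sp k) (hM : IsR M) (hN : IsR N) (φ : M.V →ₗ[k] N.V)
    (hφ : HomR M N φ) (hs : ∀ j x, x ∈ M.F j → φ x ∈ N.F j) (i : ℤ) :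
    W M hM i →ₗ[A k] W N hN i where
  toFun w := ⟨fun j => φ (w.1 j), fun j => hs _ _ (w.2 j)⟩
  map_add' v w := by
    apply W_ext
    intro j
    exact map_add φ _ _
  map_smul' a w := by
    apply W_ext
    intro j
    change φ (∑ l, rho M hM (a.1 j l) (w.1 l)) = ∑ l, rho N hN (a.1 j l) (φ (w.1 l))
    rw [map_sum]
    refine Finset.sum_congr rfl (fun l _ => ?_)
    exact homR_rho M N hM hN φ hφ _ _

@[simp] theorem Wmap0_apply (M N : Sp k) (hM : IsR M) (hN : IsR N) (φ : M.V →ₗ[k] N.V)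
    (hφ : HomR M N φ) (hs : ∀ j x, x ∈ M.F j → φ x ∈ N.F j) (i : ℤ) (w : W M hM i) (j : Fin 5) :
    (Wmap0 M N hM hN φ hφ hs i w).1 j = φ (w.1 j) := rfl

@[simp] theorem Wmap_apply (M N : Sp k) (hM : IsR M) (hN : IsR N) (s : ℤ) (φ : M.V →ₗ[k] N.V)
    (hφ : HomR M N φ) (hs : ∀ j x, x ∈ M.F j → φ x ∈ N.F (j + s)) (i : ℤ)
    (w : W M hM (i + s)) (j : Fin 5) :
    (Wmap M N hM hN s φ hφ hs i w).1 j = φ (w.1 j) := rfl

theorem Wmap_injective (M N : Sp k) (hM : IsR M) (hN : IsR N) (s : ℤ) (φ : M.V →ₗ[k] N.V)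
    (hφ : HomR M N φ) (hs : ∀ j x, x ∈ M.F j → φ x ∈ N.F (j + s)) (i : ℤ)
    (hinj : ∀ (j : Fin 5) (x : M.V), x ∈ M.F ((j : ℕ) - (i + s) : ℤ) → φ x = 0 → x = 0) :
    Function.Injective (Wmap M N hM hN s φ hφ hs i) := by
  rw [injective_iff_map_eq_zero]
  intro w hw
  apply W_ext
  intro j
  exact hinj j _ (w.2 j) (congrFun (congrArg Subtype.val hw) j)

theorem Wmap0_injective (M N : Sp k) (hM : IsR M) (hN : IsR N) (φ : M.V →ₗ[k] N.V)
    (hφ : HomR M N φ) (hs : ∀ j x, x ∈ M.F j → φ x ∈ N.F j) (i : ℤ)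
    (hinj : ∀ (j : Fin 5) (x : M.V), x ∈ M.F ((j : ℕ) - i : ℤ) → φ x = 0 → x = 0) :
    Function.Injective (Wmap0 M N hM hN φ hφ hs i) := by
  rw [injective_iff_map_eq_zero]
  intro w hw
  apply W_ext
  intro j
  exact hinj j _ (w.2 j) (congrFun (congrArg Subtype.val hw) j)

theorem Wmap0_surjective (M N : Sp k) (hM : IsR M) (hN : IsR N) (φ : M.V →ₗ[k] N.V)
    (hφ : HomR M N φ) (hs : ∀ j x, x ∈ M.F j → φ x ∈ N.F j) (i : ℤ)
    (hsurj : ∀ (j : Fin 5) (z : N.V), z ∈ N.F ((j : ℕ) - i : ℤ) →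
      ∃ y ∈ M.F ((j : ℕ) - i : ℤ), φ y = z) :
    Function.Surjective (Wmap0 M N hM hN φ hφ hs i) := by
  intro w
  choose y hy hfy using fun j => hsurj j (w.1 j) (w.2 j)
  exact ⟨⟨y, hy⟩, W_ext _ _ _ _ _ hfy⟩

theorem Wmap_surjective (M N : Sp k) (hM : IsR M) (hN : IsR N) (s : ℤ) (φ : M.V →ₗ[k] N.V)
    (hφ : HomR M N φ) (hs : ∀ j x, x ∈ M.F j → φ x ∈ N.F (j + s)) (i : ℤ)
    (hsurj : ∀ (j : Fin 5) (z : N.V), z ∈ N.F ((j : ℕ) - i : ℤ) →
      ∃ y ∈ M.F ((j : ℕ) - (i + s) : ℤ), φ y = z) :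
    Function.Surjective (Wmap M N hM hN s φ hφ hs i) := by
  intro w
  choose y hy hfy using fun j => hsurj j (w.1 j) (w.2 j)
  exact ⟨⟨y, hy⟩, W_ext _ _ _ _ _ hfy⟩

/-! ### exactness -/

/-- `0 → A(-s) → B → C → 0` is exact in the degrees seen by the window of shift `i` -/
structure ExAt (s i : ℤ) (A B C : Sp k) (D : A.V →ₗ[k] B.V) (ev : B.V →ₗ[k] C.V) : Prop where
  inj : ∀ (j : Fin 5) (x : A.V), x ∈ A.F ((j : ℕ) - (i + s) : ℤ) → D x = 0 → x = 0
  D_mem : ∀ j x, x ∈ A.F j → D x ∈ B.F (j + s)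
  ev_mem : ∀ j x, x ∈ B.F j → ev x ∈ C.F j
  comp : ∀ (j : Fin 5) (x : A.V), x ∈ A.F ((j : ℕ) - (i + s) : ℤ) → ev (D x) = 0
  lift : ∀ (j : Fin 5) (y : B.V), y ∈ B.F ((j : ℕ) - i : ℤ) → ev y = 0 →
    ∃ x ∈ A.F ((j : ℕ) - (i + s) : ℤ), D x = y
  surj : ∀ (j : Fin 5) (z : C.V), z ∈ C.F ((j : ℕ) - i : ℤ) →
    ∃ y ∈ B.F ((j : ℕ) - i : ℤ), ev y = z

theorem Ex.exAt {s : ℤ} {A B C : Sp k} {D : A.V →ₗ[k] B.V} {ev : B.V →ₗ[k] C.V}
    (h : Ex s A B C D ev) (i : ℤ) : ExAt s i A B C D ev where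
  inj j x _ hx := h.inj (by rw [hx, map_zero])
  D_mem := h.D_mem
  ev_mem := h.ev_mem
  comp j x _ := h.comp x
  lift j y hy hy0 := by
    have e : ((j : ℕ) - i : ℤ) = ((j : ℕ) - (i + s) : ℤ) + s := by ring
    rw [e] at hy
    exact h.lift _ y hy hy0
  surj j z hz := h.surj _ z hz

section

variable {s i : ℤ} {M N P : Sp k} (hM : IsR M) (hN : IsR N) (hP : IsR P)
  {D : M.V →ₗ[k] N.V} {ev : N.V →ₗ[k] P.V} (hD : HomR M N D) (hev : HomR N P ev)

theorem ExAt.injective (h : ExAt s i M N P D ev) :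
    Function.Injective (Wmap M N hM hN s D hD h.D_mem i) :=
  Wmap_injective M N hM hN s D hD h.D_mem i h.inj

theorem ExAt.surjective (h : ExAt s i M N P D ev) :
    Function.Surjective (Wmap0 N P hN hP ev hev h.ev_mem i) :=
  Wmap0_surjective N P hN hP ev hev h.ev_mem i h.surj

theorem ExAt.exact (h : ExAt s i M N P D ev) :
    Function.Exact (Wmap M N hM hN s D hD h.D_mem i) (Wmap0 N P hN hP ev hev h.ev_mem i) := by
  intro w
  constructor
  · intro hw
    choose x hx hfx using fun j => h.lift j (w.1 j) (w.2 j)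
      (congrFun (congrArg Subtype.val hw) j)
    exact ⟨⟨x, hx⟩, W_ext _ _ _ _ _ hfx⟩
  · rintro ⟨v, rfl⟩
    apply W_ext
    intro j
    exact h.comp j _ (v.2 j)

theorem ExAt.range_eq_ker (h : ExAt s i M N P D ev) :
    LinearMap.range (Wmap M N hM hN s D hD h.D_mem i)
      = LinearMap.ker (Wmap0 N P hN hP ev hev h.ev_mem i) :=
  (LinearMap.exact_iff.1 (h.exact hM hN hP hD hev)).symm

theorem ExAt.comp_zero (h : ExAt s i M N P D ev) :
    (ModuleCat.ofHom (Wmap M N hM hN s D hD h.D_mem i) : WM M hM (i + s) ⟶ WM N hN i) ≫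
      (ModuleCat.ofHom (Wmap0 N P hN hP ev hev h.ev_mem i) : WM N hN i ⟶ WM P hP i) = 0 := by
  ext v
  exact (h.exact hM hN hP hD hev _).2 ⟨v, rfl⟩

/-- the short exact sequence of windows -/
noncomputable def ExAt.sc (h : ExAt s i M N P D ev) : ShortComplex (ModuleCat.{0} (A k)) :=
  ShortComplex.mk (X₁ := WM M hM (i + s)) (X₂ := WM N hN i) (X₃ := WM P hP i)
    (ModuleCat.ofHom (Wmap M N hM hN s D hD h.D_mem i))
    (ModuleCat.ofHom (Wmap0 N P hN hP ev hev h.ev_mem i)) (h.comp_zero hM hN hP hD hev)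

theorem ExAt.sc_shortExact (h : ExAt s i M N P D ev) :
    (h.sc hM hN hP hD hev).ShortExact where
  exact := by
    rw [ShortComplex.ShortExact.moduleCat_exact_iff_function_exact]
    exact h.exact hM hN hP hD hev
  mono_f := (ModuleCat.mono_iff_injective _).2 (h.injective hM hN hD)
  epi_g := (ModuleCat.epi_iff_surjective _).2 (h.surjective hN hP hev)

end

/-! ### finiteness -/

instance (N : Sp k) (hN : IsR N) (i : ℤ) : IsScalarTower k (A k) (W N hN i) where
  smul_assoc r a w := by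
    apply W_ext
    intro j
    change ∑ l, rho N hN (r • a.1 j l) (w.1 l) = r • ∑ l, rho N hN (a.1 j l) (w.1 l)
    rw [Finset.smul_sum]
    refine Finset.sum_congr rfl fun l _ => ?_
    rw [map_smul, LinearMap.smul_apply]

theorem A_finite (h : ∀ m : ℤ, Module.Finite k (RF m : Submodule k (R k))) :
    Module.Finite k (A k) := by
  let φ : A k →ₗ[k] (Π j i : Fin 5, (RF ((j : ℕ) - (i : ℕ) : ℤ) : Submodule k (R k))) :=
    { toFun := fun a j i => ⟨a.1 j i, a.2 j i⟩
      map_add' := fun a b => rfl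
      map_smul' := fun r a => rfl }
  refine Module.Finite.of_injective φ fun a b hab => ?_
  apply Subtype.ext
  ext j i
  exact congrArg Subtype.val (congrFun (congrFun hab j) i)

theorem W_finite_k (N : Sp k) (hN : IsR N) (i : ℤ) [Module.Finite k N.V] :
    Module.Finite k (W N hN i) :=
  inferInstanceAs (Module.Finite k (WS N i))

theorem W_finite (N : Sp k) (hN : IsR N) (i : ℤ) [Module.Finite k N.V] :
    Module.Finite (A k) (W N hN i) := by
  have := W_finite_k N hN i
  exact Module.Finite.of_restrictScalars_finite k (A k) _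

/-- the windows only see the degrees `-i, …, 4 - i` -/
theorem W_finite_k' (N : Sp k) (hN : IsR N) (i : ℤ) (h : ∀ m : ℤ, Module.Finite k (N.F m)) :
    Module.Finite k (W N hN i) := by
  let φ : W N hN i →ₗ[k] (Π j : Fin 5, N.F ((j : ℕ) - i : ℤ)) :=
    { toFun := fun w j => ⟨w.1 j, w.2 j⟩
      map_add' := fun a b => rfl
      map_smul' := fun r a => rfl }
  refine Module.Finite.of_injective φ fun a b hab => ?_
  apply W_ext
  intro j
  exact congrArg Subtype.val (congrFun hab j)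

theorem W_finite' (N : Sp k) (hN : IsR N) (i : ℤ) (h : ∀ m : ℤ, Module.Finite k (N.F m)) :
    Module.Finite (A k) (W N hN i) := by
  have := W_finite_k' N hN i h
  exact Module.Finite.of_restrictScalars_finite k (A k) _

/-! ### modules free on one generator -/

/-- `M` is the filtered module `R`, with generator `u` in degree `0` -/
structure Free1 (M : Sp k) (hM : IsR M) (u : M.V) : Prop where
  bij : Function.Bijective fun a : R k => rho M hM a u
  mem : ∀ (j : ℤ) (a : R k), a ∈ (RF j : Submodule k (R k)) ↔ rho M hM a u ∈ M.F j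

namespace Free1

variable {M : Sp k} {hM : IsR M} {u : M.V} (hu : Free1 M hM u)

include hu

theorem u_mem : u ∈ M.F 0 := by
  have := (hu.mem 0 1).1 one_mem_RF
  rwa [map_one] at this

/-- the inverse of `a ↦ a u` -/
noncomputable def coeff (x : M.V) : R k := (hu.bij.2 x).choose

theorem rho_coeff (x : M.V) : rho M hM (hu.coeff x) u = x := (hu.bij.2 x).choose_spec

theorem coeff_rho (a : R k) : hu.coeff (rho M hM a u) = a :=
  hu.bij.1 (hu.rho_coeff _)

theorem coeff_mem (j : ℤ) (x : M.V) (hx : x ∈ M.F j) :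
    hu.coeff x ∈ (RF j : Submodule k (R k)) := by
  rw [hu.mem, hu.rho_coeff]
  exact hx

theorem coeff_add (x y : M.V) : hu.coeff (x + y) = hu.coeff x + hu.coeff y := by
  apply hu.bij.1
  change rho M hM _ u = rho M hM _ u
  rw [map_add, LinearMap.add_apply, hu.rho_coeff, hu.rho_coeff, hu.rho_coeff]

theorem coeff_zero : hu.coeff 0 = 0 := by
  apply hu.bij.1
  change rho M hM _ u = rho M hM _ u
  rw [hu.rho_coeff, map_zero, LinearMap.zero_apply]

theorem coeff_smul (r : k) (x : M.V) : hu.coeff (r • x) = r • hu.coeff x := by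
  apply hu.bij.1
  change rho M hM _ u = rho M hM _ u
  rw [map_smul, LinearMap.smul_apply, hu.rho_coeff, hu.rho_coeff]

theorem coeff_act (a : R k) (x : M.V) : hu.coeff (rho M hM a x) = a * hu.coeff x := by
  apply hu.bij.1
  change rho M hM _ u = rho M hM _ u
  rw [map_mul, Module.End.mul_apply, hu.rho_coeff, hu.rho_coeff]

theorem coeff_sum {ι : Type*} (t : Finset ι) (x : ι → M.V) :
    hu.coeff (∑ l ∈ t, x l) = ∑ l ∈ t, hu.coeff (x l) := by
  classical
  induction t using Finset.induction_on with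
  | empty => simpa using hu.coeff_zero
  | insert a t ha ih => rw [Finset.sum_insert ha, Finset.sum_insert ha, hu.coeff_add, ih]

/-- the matrix with given column `i` -/
noncomputable def ofCol (i : Fin 5) : W M hM ((i : ℕ) : ℤ) →ₗ[A k] A k where
  toFun w := ⟨Matrix.of fun j l => if l = i then hu.coeff (w.1 j) else 0, fun j l => by
    change (if l = i then hu.coeff (w.1 j) else 0) ∈ _
    split_ifs with h
    · subst h
      exact hu.coeff_mem _ _ (w.2 j)
    · exact Submodule.zero_mem _⟩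
  map_add' a b := by
    apply Subtype.ext
    ext j l
    change (if l = i then hu.coeff (a.1 j + b.1 j) else 0)
      = (if l = i then hu.coeff (a.1 j) else 0) + (if l = i then hu.coeff (b.1 j) else 0)
    split_ifs
    · exact hu.coeff_add _ _
    · rw [add_zero]
  map_smul' a w := by
    apply Subtype.ext
    ext j l
    change (if l = i then hu.coeff (∑ m, rho M hM (a.1 j m) (w.1 m)) else 0)
      = (a.1 * Matrix.of fun j l => if l = i then hu.coeff (w.1 j) else 0) j l
    rw [Matrix.mul_apply]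
    split_ifs with h
    · rw [hu.coeff_sum]
      refine Finset.sum_congr rfl fun m _ => ?_
      rw [hu.coeff_act, Matrix.of_apply, if_pos h]
    · symm
      refine Finset.sum_eq_zero fun m _ => ?_
      rw [Matrix.of_apply, if_neg h, mul_zero]

/-- column `i` of a matrix -/
noncomputable def col (i : Fin 5) : A k →ₗ[A k] W M hM ((i : ℕ) : ℤ) where
  toFun a := ⟨fun j => rho M hM (a.1 j i) u, fun j => (hu.mem _ _).1 (a.2 j i)⟩
  map_add' a b := by
    apply W_ext
    intro j
    change rho M hM (a.1 j i + b.1 j i) u = rho M hM (a.1 j i) u + rho M hM (b.1 j i) u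
    rw [map_add, LinearMap.add_apply]
  map_smul' a b := by
    apply W_ext
    intro j
    change rho M hM ((a.1 * b.1) j i) u = ∑ l, rho M hM (a.1 j l) (rho M hM (b.1 l i) u)
    rw [Matrix.mul_apply, map_sum, LinearMap.sum_apply]
    refine Finset.sum_congr rfl fun l _ => ?_
    rw [map_mul, Module.End.mul_apply]

theorem projective (i : Fin 5) : Module.Projective (A k) (W M hM ((i : ℕ) : ℤ)) :=
  Module.Projective.of_split (hu.ofCol i) (hu.col i) (LinearMap.ext fun w => by
    apply W_ext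
    intro j
    change rho M hM (if i = i then hu.coeff (w.1 j) else 0) u = w.1 j
    rw [if_pos rfl, hu.rho_coeff])

theorem projective_int (i : ℤ) (h0 : 0 ≤ i) (h4 : i ≤ 4) : Module.Projective (A k) (W M hM i) := by
  obtain ⟨n, rfl⟩ := Int.eq_ofNat_of_zero_le h0
  have hn : n < 5 := by omega
  exact hu.projective ⟨n, hn⟩

end Free1

/-! ### the simple module at the vertex `4` -/

/-- the idempotents of the vertices -/
noncomputable def idem (l : Fin 5) : A k :=
  ⟨Matrix.single l l 1, fun j i => by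
    rw [Matrix.single_apply]
    split_ifs with h
    · obtain ⟨rfl, rfl⟩ := h
      rw [sub_self]
      exact one_mem_RF
    · exact Submodule.zero_mem _⟩

theorem idem_smul_apply (N : Sp k) (hN : IsR N) (i : ℤ) (l : Fin 5) (w : W N hN i) (j : Fin 5) :
    ((idem l : A k) • w).1 j = if j = l then w.1 j else 0 := by
  rw [W_smul_apply]
  change ∑ m, rho N hN (Matrix.single l l (1 : R k) j m) (w.1 m) = _
  rw [Finset.sum_eq_single j]
  · rw [Matrix.single_apply]
    by_cases h : j = l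
    · subst h
      simp
    · rw [if_neg fun h' => h h'.1.symm, if_neg h, map_zero, LinearMap.zero_apply]
  · intro m _ hm
    rw [Matrix.single_apply]
    rw [if_neg fun h' => hm (h'.2.symm.trans h'.1), map_zero, LinearMap.zero_apply]
  · intro h
    exact absurd (Finset.mem_univ j) h

theorem Sp1_act (g : Gen) (x : (Sp1 k).V) : (Sp1 k).act g x = 0 := rfl

theorem Sp1_F_of_nonneg (j : ℤ) (h : 0 ≤ j) : (Sp1 k).F j = ⊤ := if_pos h

theorem Sp1_F_of_neg (j : ℤ) (h : j < 0) : (Sp1 k).F j = ⊥ := if_neg (not_le.2 h)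

theorem isR_Sp1 : IsR (Sp1 k) where
  mono i j h := by
    rcases lt_or_ge i 0 with h0 | h0
    · rw [Sp1_F_of_neg i h0]
      exact bot_le
    · rw [Sp1_F_of_nonneg j (h0.trans h)]
      exact le_top
  h_mem j x _ := by rw [Sp1_act]; exact Submodule.zero_mem _
  e_mem j x _ := by rw [Sp1_act]; exact Submodule.zero_mem _
  f_mem j x _ := by rw [Sp1_act]; exact Submodule.zero_mem _
  c_mem j x _ := by rw [Sp1_act]; exact Submodule.zero_mem _
  b1_mem j x _ := by rw [Sp1_act]; exact Submodule.zero_mem _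
  b2_mem j x _ := by rw [Sp1_act]; exact Submodule.zero_mem _
  he x := by simp only [Sp1_act, smul_zero, add_zero]
  ef x := by simp only [Sp1_act, add_zero]
  hf x := by simp only [Sp1_act, smul_zero, sub_zero]
  ce x := by simp only [Sp1_act]
  cf x := by simp only [Sp1_act]
  ch x := by simp only [Sp1_act]
  eb1 x := by simp only [Sp1_act, sub_zero]
  eb2 x := by simp only [Sp1_act]
  fb1 x := by simp only [Sp1_act]
  fb2 x := by simp only [Sp1_act, sub_zero]
  hb1 x := by simp only [Sp1_act, sub_zero]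
  hb2 x := by simp only [Sp1_act, add_zero]
  b1c x := by simp only [Sp1_act, smul_zero, sub_zero, add_zero]
  b2c x := by simp only [Sp1_act, smul_zero, sub_zero]
  cb1 x := by simp only [Sp1_act, sub_zero]
  cb2 x := by simp only [Sp1_act, sub_zero]
  b1b1 x := by simp only [Sp1_act]
  b1b2 x := by simp only [Sp1_act]
  b2b1 x := by simp only [Sp1_act]
  b2b2 x := by simp only [Sp1_act]

variable (k) in
/-- the generator of `Sp1` -/
def Sp1.gen : (Sp1 k).V := (1 : k)

theorem Sp1.gen_ne_zero : Sp1.gen k ≠ 0 := fun h => one_ne_zero (α := k) h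

theorem Sp1.gen_mem : Sp1.gen k ∈ (Sp1 k).F 0 := by
  rw [Sp1_F_of_nonneg 0 le_rfl]
  exact Submodule.mem_top

variable (k) in
/-- the simple module at the vertex `4` -/
abbrev S4 : Type := W (Sp1 k) isR_Sp1 4

theorem S4_apply_eq_zero (w : S4 k) (j : Fin 5) (hj : j ≠ 4) : w.1 j = 0 := by
  have h := w.2 j
  have h1 : ((j : ℕ) - 4 : ℤ) < 0 := by
    have : (j : ℕ) ≠ 4 := fun h => hj (Fin.ext h)
    omega
  rw [Sp1_F_of_neg _ h1, Submodule.mem_bot] at h
  exact h

theorem S4_idem_smul (l : Fin 5) (hl : l ≠ 4) (w : S4 k) : (idem l : A k) • w = 0 := by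
  apply W_ext
  intro j
  rw [idem_smul_apply, W_zero_apply]
  split_ifs with h
  · exact S4_apply_eq_zero w j (h ▸ hl)
  · rfl

namespace Free1

variable {M : Sp k} {hM : IsR M} {u : M.V} (hu : Free1 M hM u)

include hu

/-- the generator of the window -/
noncomputable def g (i : Fin 5) : W M hM ((i : ℕ) : ℤ) :=
  ⟨Pi.single i u, fun j => by
    by_cases h : j = i
    · subst h
      rw [Pi.single_eq_same, sub_self]
      exact hu.u_mem
    · rw [Pi.single_eq_of_ne h]
      exact Submodule.zero_mem _⟩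

theorem idem_smul_g (i : Fin 5) : (idem i : A k) • hu.g i = hu.g i := by
  apply W_ext
  intro j
  rw [idem_smul_apply]
  split_ifs with h
  · rfl
  · exact (Pi.single_eq_of_ne (M := fun _ : Fin 5 => M.V) h u).symm

theorem ofCol_smul_g (i : Fin 5) (w : W M hM ((i : ℕ) : ℤ)) : (hu.ofCol i w) • hu.g i = w := by
  apply W_ext
  intro j
  rw [W_smul_apply, Finset.sum_eq_single i]
  · change rho M hM (if i = i then hu.coeff (w.1 j) else 0) ((Pi.single i u : Fin 5 → M.V) i) = _
    rw [if_pos rfl, Pi.single_eq_same, hu.rho_coeff]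
  · intro l _ hl
    change rho M hM _ ((Pi.single i u : Fin 5 → M.V) l) = 0
    rw [Pi.single_eq_of_ne hl, map_zero]
  · intro h
    exact absurd (Finset.mem_univ i) h

/-- no maps to `S4` from the projective modules of the vertices `0, …, 3` -/
theorem hom_S4_eq_zero (i : Fin 5) (hi : i ≠ 4) (φ : W M hM ((i : ℕ) : ℤ) →ₗ[A k] S4 k) :
    φ = 0 := by
  have h1 : φ (hu.g i) = 0 := by
    rw [← hu.idem_smul_g i, map_smul, S4_idem_smul i hi]
  ext w
  rw [← hu.ofCol_smul_g i w, map_smul, h1, smul_zero, LinearMap.zero_apply]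

theorem hom_S4_eq_zero_int (i : ℤ) (h0 : 0 ≤ i) (h4 : i < 4) (φ : W M hM i →ₗ[A k] S4 k) :
    φ = 0 := by
  obtain ⟨n, rfl⟩ := Int.eq_ofNat_of_zero_le h0
  have hn : n < 5 := by omega
  refine hu.hom_S4_eq_zero ⟨n, hn⟩ ?_ φ
  intro h
  have := congrArg Fin.val h
  simp at this
  omega

/-- the augmentation `M → k` -/
noncomputable def aug : M.V →ₗ[k] (Sp1 k).V where
  toFun x := rho (Sp1 k) isR_Sp1 (hu.coeff x) (Sp1.gen k)
  map_add' x y := by rw [hu.coeff_add, map_add, LinearMap.add_apply]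
  map_smul' r x := by rw [hu.coeff_smul, map_smul, LinearMap.smul_apply, RingHom.id_apply]

theorem aug_u : hu.aug u = Sp1.gen k := by
  have h : hu.coeff u = 1 := by
    have := hu.coeff_rho 1
    rwa [map_one] at this
  change rho (Sp1 k) isR_Sp1 (hu.coeff u) (Sp1.gen k) = Sp1.gen k
  rw [h, map_one]
  rfl

theorem aug_homR : HomR M (Sp1 k) hu.aug := by
  intro g x
  change rho (Sp1 k) isR_Sp1 (hu.coeff (M.act g x)) (Sp1.gen k) = (Sp1 k).act g (hu.aug x)
  have h : M.act g x = rho M hM (gen k g) x := by rw [rho_gen]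
  rw [h, hu.coeff_act, map_mul, Module.End.mul_apply, rho_gen]
  rfl

theorem aug_mem (j : ℤ) (x : M.V) (hx : x ∈ M.F j) : hu.aug x ∈ (Sp1 k).F j := by
  have := rho_mem (Sp1 k) isR_Sp1 j 0 _ (hu.coeff_mem j x hx) _ Sp1.gen_mem
  rwa [zero_add] at this

theorem exists_hom_S4_ne_zero : ∃ φ : W M hM 4 →ₗ[A k] S4 k, φ ≠ 0 := by
  refine ⟨Wmap0 M (Sp1 k) hM isR_Sp1 hu.aug hu.aug_homR hu.aug_mem 4, ?_⟩
  intro h
  have h1 := congrArg (fun φ => (φ (hu.g 4)).1 4) h
  change hu.aug ((Pi.single 4 u : Fin 5 → M.V) 4) = 0 at h1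
  rw [Pi.single_eq_same, hu.aug_u] at h1
  exact Sp1.gen_ne_zero h1

end Free1

end Vale.Agent.P176
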