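import Vale.Agent.Lib.P176.Univ
import Vale.Agent.Lib.P176.UnivT
import Vale.Agent.Lib.P176.Uniq
import Vale.Agent.Lib.P176.Win

/-!
# P176: `R ≅ T (M1 (M2 (M3 k)))` as filtered left `R`-modules

`univ` : for every `R`-module `N` and `n ∈ N.F 0` an `R`-map `MM → N`, `1 ↦ n` (compose `lift3`,
`lift2`, `lift1`, `liftT`, starting from `k → N, 1 ↦ n`). Uniqueness from `uniq*`.
`MM_iso`: `Φ : MM → R` from `univ` for `N = RSp k`, `n = 1`; `Ψ a = rho MM a oneM`. `Φ ∘ Ψ` is left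
`R`-linear and `1 ↦ 1`, hence `= id`; `Ψ ∘ Φ` is `HomR MM MM` and `oneM ↦ oneM`, hence `= id` by
`uniqMM`. Filtrations: `Φ` is filtered, and `rho_mem` for `Ψ`.
-/

namespace Vale.Agent.P176

variable (k : Type) [Field k]

/-- the free module of rank one -/
noncomputable abbrev MM : Sp k := T (M1 (M2 (M3 (Sp1 k))))

/-- its generator -/
noncomputable def oneM : (MM k).V :=
  ((Finsupp.single 0 (Finsupp.single 0 (Finsupp.single 0 (Finsupp.single 0 (1 : k)))), 0) :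
    (ℕ →₀ (ℕ →₀ (ℕ →₀ (ℕ →₀ k)))) × ((ℕ →₀ (ℕ →₀ (ℕ →₀ k))) × (ℕ →₀ (ℕ →₀ (ℕ →₀ k)))))

variable {k}

theorem Sp1_mono (i j : ℤ) (h : i ≤ j) : (Sp1 k).F i ≤ (Sp1 k).F j := by
  show (if 0 ≤ i then (⊤ : Submodule k k) else ⊥) ≤ (if 0 ≤ j then (⊤ : Submodule k k) else ⊥)
  split_ifs with h1 h2
  · exact le_rfl
  · exact absurd (h1.trans h) h2
  · exact bot_le
  · exact le_rfl

theorem isU_MMM : IsU (M1 (M2 (M3 (Sp1 k)))) := isU_M1 _ (isB_M2 _ (isH_M3 _ Sp1_mono))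

theorem isR_MM : IsR (MM k) := isR_T _ isU_MMM

theorem iso_single_mem {V : Type} [AddCommGroup V] [Module k V] (F : ℤ → Submodule k V) (j : ℤ)
    (v : V) (hv : v ∈ F j) : Finsupp.single 0 v ∈ PF F j := by
  rw [mem_PF]
  intro a
  by_cases ha : a = 0
  · subst ha
    simpa using hv
  · rw [Finsupp.single_eq_of_ne ha]
    exact Submodule.zero_mem _

theorem iso_mem_M3 (Y : Sp k) (y : Y.V) (hy : y ∈ Y.F 0) :
    (Finsupp.single 0 y : ℕ →₀ Y.V) ∈ (M3 Y).F 0 := iso_single_mem Y.F 0 y hy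

theorem iso_mem_M2 (Y : Sp k) (y : Y.V) (hy : y ∈ Y.F 0) :
    (Finsupp.single 0 y : ℕ →₀ Y.V) ∈ (M2 Y).F 0 := iso_single_mem Y.F 0 y hy

theorem iso_mem_M1 (Y : Sp k) (y : Y.V) (hy : y ∈ Y.F 0) :
    (Finsupp.single 0 y : ℕ →₀ Y.V) ∈ (M1 Y).F 0 := iso_single_mem Y.F 0 y hy

theorem iso_mem_T (Y : Sp k) (y : Y.V) (hy : y ∈ Y.F 0) :
    ((Finsupp.single 0 y, 0) : (ℕ →₀ Y.V) × (Y.V × Y.V)) ∈ (T Y).F 0 :=
  ⟨iso_single_mem Y.F 0 y hy, Submodule.zero_mem _⟩

theorem iso_one_mem : (1 : k) ∈ (Sp1 k).F 0 := by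
  have h : (1 : k) ∈ (if (0 : ℤ) ≤ 0 then (⊤ : Submodule k k) else ⊥) := by
    rw [if_pos le_rfl]
    trivial
  exact h

theorem oneM_mem : oneM k ∈ (MM k).F 0 := by
  have h3 := iso_mem_M3 (Sp1 k) (show k from 1) (iso_one_mem (k := k))
  have h2 := iso_mem_M2 (M3 (Sp1 k)) _ h3
  have h1 := iso_mem_M1 (M2 (M3 (Sp1 k))) _ h2
  exact iso_mem_T (M1 (M2 (M3 (Sp1 k)))) _ h1

/-- the map `k → N`, `1 ↦ n` -/
noncomputable def iso_g0 (N : Sp k) (n : N.V) : (Sp1 k).V →ₗ[k] N.V :=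
  LinearMap.toSpanSingleton k N.V n

theorem iso_g0_one (N : Sp k) (n : N.V) : iso_g0 N n (show k from 1) = n := one_smul k n

theorem univ (N : Sp k) (hN : IsR N) (n : N.V) (hn : n ∈ N.F 0) :
    ∃ φ : (MM k).V →ₗ[k] N.V, HomR (MM k) N φ ∧ (∀ j x, x ∈ (MM k).F j → φ x ∈ N.F j) ∧
      φ (oneM k) = n := by
  have hg0 : ∀ (j : ℤ) (y : (Sp1 k).V), y ∈ (Sp1 k).F j → iso_g0 N n y ∈ N.F j := by
    intro j y hy
    by_cases hj : 0 ≤ j
    · have h1 : ∀ z : k, z • n ∈ N.F j := fun z => (N.F j).smul_mem z (hN.mono 0 j hj hn)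
      exact h1 y
    · have hF : (Sp1 k).F j = ⊥ := if_neg hj
      rw [hF] at hy
      have hy' : y = 0 := (Submodule.mem_bot k).1 hy
      rw [hy', map_zero]
      exact Submodule.zero_mem _
  obtain ⟨φ3, h3, h3F, h30⟩ := lift3 (Sp1 k) N hN.toIsH (iso_g0 N n) hg0
  obtain ⟨φ2, h2, h2F, h20⟩ := lift2 (M3 (Sp1 k)) N hN.toIsB φ3 h3 h3F
  obtain ⟨φ1, h1, h1F, h10⟩ := lift1 (M2 (M3 (Sp1 k))) N hN.toIsU φ2 h2 h2F
  obtain ⟨φ, h, hF, h0⟩ := liftT (M1 (M2 (M3 (Sp1 k)))) N isU_MMM hN φ1 h1 h1F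
  refine ⟨φ, h, hF, ?_⟩
  have e0 := h0 (Finsupp.single 0 (Finsupp.single 0 (Finsupp.single 0 (1 : k))))
  have e1 := h10 (Finsupp.single 0 (Finsupp.single 0 (1 : k)))
  have e2 := h20 (Finsupp.single 0 (1 : k))
  have e3 := h30 (1 : k)
  exact e0.trans (e1.trans (e2.trans (e3.trans (iso_g0_one N n))))

theorem iso_T_single (Y : Sp k) (g : Gen) (hg : g = .e ∨ g = .f ∨ g = .h) (y : Y.V) :
    (T Y).act g ((Finsupp.single 0 y, 0) : (ℕ →₀ Y.V) × (Y.V × Y.V)) =
      ((Finsupp.single 0 (Y.act g y), 0) : (ℕ →₀ Y.V) × (Y.V × Y.V)) := by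
  rcases hg with rfl | rfl | rfl
  · show (LinearMap.prodMap (Finsupp.mapRange.linearMap (Y.act .e)) (actV Y .e))
      ((Finsupp.single 0 y, 0) : (ℕ →₀ Y.V) × (Y.V × Y.V)) = _
    rw [LinearMap.prodMap_apply, map_zero]
    simp
  · show (LinearMap.prodMap (Finsupp.mapRange.linearMap (Y.act .f)) (actV Y .f))
      ((Finsupp.single 0 y, 0) : (ℕ →₀ Y.V) × (Y.V × Y.V)) = _
    rw [LinearMap.prodMap_apply, map_zero]
    simp
  · show (LinearMap.prodMap (Finsupp.mapRange.linearMap (Y.act .h)) (actV Y .h))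
      ((Finsupp.single 0 y, 0) : (ℕ →₀ Y.V) × (Y.V × Y.V)) = _
    rw [LinearMap.prodMap_apply, map_zero]
    simp

theorem iso_homU_of (Y N : Sp k) (φ : ((ℕ →₀ Y.V) × (Y.V × Y.V)) →ₗ[k] N.V)
    (hφ : HomR (T Y) N φ) :
    HomU Y N (φ ∘ₗ LinearMap.inl k _ _ ∘ₗ Finsupp.lsingle 0) := by
  have key : ∀ g : Gen, (g = .e ∨ g = .f ∨ g = .h) →
      Comm g Y N (φ ∘ₗ LinearMap.inl k _ _ ∘ₗ Finsupp.lsingle 0) := by
    intro g hg x
    have h1 := hφ g ((Finsupp.single 0 x, 0) : (ℕ →₀ Y.V) × (Y.V × Y.V))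
    rw [iso_T_single Y g hg x] at h1
    exact h1
  exact ⟨key .h (Or.inr (Or.inr rfl)), key .e (Or.inl rfl), key .f (Or.inr (Or.inl rfl))⟩

/-- the operator `e` of `M1 N` -/
noncomputable def iso_eM1 (N : Sp k) : (ℕ →₀ N.V) →ₗ[k] (ℕ →₀ N.V) :=
  Finsupp.lsum k (fun a : ℕ =>
        (Finsupp.lsingle a : N.V →ₗ[k] (ℕ →₀ N.V)) ∘ₗ (N.act .e) +
        (a : k) • ((Finsupp.lsingle (a - 1) : N.V →ₗ[k] (ℕ →₀ N.V)) ∘ₗ
          (N.act .h - ((a : k) - 1) • LinearMap.id)))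

theorem iso_M1_act_e (N : Sp k) : (M1 N).act .e = iso_eM1 N := rfl

/-- the operator `h` of `M1 N` -/
noncomputable def iso_hM1 (N : Sp k) : (ℕ →₀ N.V) →ₗ[k] (ℕ →₀ N.V) :=
  Finsupp.lsum k (fun a : ℕ =>
        (Finsupp.lsingle a : N.V →ₗ[k] (ℕ →₀ N.V)) ∘ₗ
          (N.act .h - (2 * (a : k)) • LinearMap.id))

theorem iso_M1_act_h (N : Sp k) : (M1 N).act .h = iso_hM1 N := rfl

theorem iso_homB_of (Y N : Sp k) (φ : (ℕ →₀ Y.V) →ₗ[k] N.V) (hφ : HomU (M1 Y) N φ) :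
    HomB Y N (φ ∘ₗ Finsupp.lsingle 0) := by
  constructor
  · intro x
    have h1 := hφ.1 (Finsupp.single 0 x : ℕ →₀ Y.V)
    have h2 : iso_hM1 Y (Finsupp.single 0 x : ℕ →₀ Y.V) = Finsupp.single 0 (Y.act .h x) := by
      unfold iso_hM1
      rw [Finsupp.lsum_single]
      simp
    exact (congrArg φ h2).symm.trans h1
  · intro x
    have h1 := hφ.2.1 (Finsupp.single 0 x : ℕ →₀ Y.V)
    have h2 : iso_eM1 Y (Finsupp.single 0 x : ℕ →₀ Y.V) = Finsupp.single 0 (Y.act .e x) := by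
      unfold iso_eM1
      rw [Finsupp.lsum_single]
      simp
    exact (congrArg φ h2).symm.trans h1

theorem iso_homH_of (Y N : Sp k) (φ : (ℕ →₀ Y.V) →ₗ[k] N.V) (hφ : HomB (M2 Y) N φ) :
    HomH Y N (φ ∘ₗ Finsupp.lsingle 0) := by
  intro x
  have h1 := hφ.1 (Finsupp.single 0 x : ℕ →₀ Y.V)
  have h2 : (M2 Y).act .h (Finsupp.single 0 x : ℕ →₀ Y.V) = Finsupp.single 0 (Y.act .h x) := by
    rw [M2_act_h]
    refine (hM2_single Y 0 x).trans ?_
    simp
  rw [h2] at h1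
  exact h1

theorem iso_smul_oneM (y : k) :
    ((Finsupp.single 0 (Finsupp.single 0 (Finsupp.single 0 (Finsupp.single 0 y))), 0) :
    (ℕ →₀ (ℕ →₀ (ℕ →₀ (ℕ →₀ k)))) × ((ℕ →₀ (ℕ →₀ (ℕ →₀ k))) × (ℕ →₀ (ℕ →₀ (ℕ →₀ k))))) =
      (y • oneM k : (MM k).V) := by
  have h : ((Finsupp.single 0 (Finsupp.single 0 (Finsupp.single 0 (Finsupp.single 0 y))), 0) :
    (ℕ →₀ (ℕ →₀ (ℕ →₀ (ℕ →₀ k)))) × ((ℕ →₀ (ℕ →₀ (ℕ →₀ k))) × (ℕ →₀ (ℕ →₀ (ℕ →₀ k))))) =
      y • ((Finsupp.single 0 (Finsupp.single 0 (Finsupp.single 0 (Finsupp.single 0 (1 : k)))), 0) :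
    (ℕ →₀ (ℕ →₀ (ℕ →₀ (ℕ →₀ k)))) × ((ℕ →₀ (ℕ →₀ (ℕ →₀ k))) × (ℕ →₀ (ℕ →₀ (ℕ →₀ k))))) := by
    rw [Prod.smul_mk, smul_zero]
    simp
  exact h

theorem uniqMM (N : Sp k) (φ ψ : (MM k).V →ₗ[k] N.V) (hφ : HomR (MM k) N φ)
    (hψ : HomR (MM k) N ψ) (h0 : φ (oneM k) = ψ (oneM k)) : φ = ψ := by
  have aφ := iso_homU_of (M1 (M2 (M3 (Sp1 k)))) N φ hφ
  have aψ := iso_homU_of (M1 (M2 (M3 (Sp1 k)))) N ψ hψ
  have bφ := iso_homB_of (M2 (M3 (Sp1 k))) N _ aφ
  have bψ := iso_homB_of (M2 (M3 (Sp1 k))) N _ aψ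
  have cφ := iso_homH_of (M3 (Sp1 k)) N _ bφ
  have cψ := iso_homH_of (M3 (Sp1 k)) N _ bψ
  refine uniqT _ N φ ψ hφ hψ fun y => ?_
  have e1 := uniq1 _ N _ _ aφ aψ fun y => ?_
  · exact LinearMap.congr_fun e1 y
  have e2 := uniq2 _ N _ _ bφ bψ fun y => ?_
  · exact LinearMap.congr_fun e2 y
  have e3 := uniq3 _ N _ _ cφ cψ fun y => ?_
  · exact LinearMap.congr_fun e3 y
  have hy : ∀ χ : (MM k).V →ₗ[k] N.V,
      χ ((Finsupp.single 0 (Finsupp.single 0 (Finsupp.single 0 (Finsupp.single 0 (show k from y)))),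
        0) : (ℕ →₀ (ℕ →₀ (ℕ →₀ (ℕ →₀ k)))) × ((ℕ →₀ (ℕ →₀ (ℕ →₀ k))) × (ℕ →₀ (ℕ →₀ (ℕ →₀ k))))) =
        (show k from y) • χ (oneM k) := by
    intro χ
    rw [← map_smul, ← iso_smul_oneM]
  exact (hy φ).trans ((congrArg (fun z => (show k from y) • z) h0).trans (hy ψ).symm)

variable (k) in
/-- the ring itself -/
noncomputable def RSp : Sp k where
  V := R k
  act := fun g => LinearMap.mulLeft k (gen k g)
  F := RF

theorem RSp_act (g : Gen) (x : R k) : (RSp k).act g x = gen k g * x := rfl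

/-- the quotient map -/
noncomputable def iso_mk : FreeAlgebra k Gen →ₐ[k] R k := RingQuot.mkAlgHom k (Rel k)

theorem iso_mk_X (g : Gen) : iso_mk (X k g) = gen k g := rfl

theorem iso_rel {x y : FreeAlgebra k Gen} (h : Rel k x y) : iso_mk x = iso_mk y :=
  RingQuot.mkAlgHom_rel k h

theorem iso_gen_mul_mem (g : Gen) (j : ℤ) (x : R k) (hx : x ∈ (RF j : Submodule k (R k))) :
    gen k g * x ∈ (RF (j + g.deg) : Submodule k (R k)) := by
  have := mul_mem_RF _ _ _ _ (gen_mem_RF (k := k) g) hx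
  rwa [add_comm] at this

theorem iso_key {a b : FreeAlgebra k Gen} (h : Rel k a b) (x : R k) :
    iso_mk a * x = iso_mk b * x := by
  rw [iso_rel h]

theorem iso_rel_he (x : R k) :
    gen k .h * (gen k .e * x) = gen k .e * (gen k .h * x) + (2 : k) • (gen k .e * x) := by
  have h := iso_key (Rel.he (k := k)) x
  simpa only [map_mul, map_add, map_sub, map_smul, map_zero, iso_mk_X, add_mul, sub_mul, zero_mul,
    smul_mul_assoc, mul_assoc] using h

theorem iso_rel_ef (x : R k) :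
    gen k .e * (gen k .f * x) = gen k .f * (gen k .e * x) + gen k .h * x := by
  have h := iso_key (Rel.ef (k := k)) x
  simpa only [map_mul, map_add, map_sub, map_smul, map_zero, iso_mk_X, add_mul, sub_mul, zero_mul,
    smul_mul_assoc, mul_assoc] using h

theorem iso_rel_hf (x : R k) :
    gen k .h * (gen k .f * x) = gen k .f * (gen k .h * x) - (2 : k) • (gen k .f * x) := by
  have h := iso_key (Rel.hf (k := k)) x
  simpa only [map_mul, map_add, map_sub, map_smul, map_zero, iso_mk_X, add_mul, sub_mul, zero_mul,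
    smul_mul_assoc, mul_assoc] using h

theorem iso_rel_ce (x : R k) :
    gen k .c * (gen k .e * x) = gen k .e * (gen k .c * x) := by
  have h := iso_key (Rel.ce (k := k)) x
  simpa only [map_mul, map_add, map_sub, map_smul, map_zero, iso_mk_X, add_mul, sub_mul, zero_mul,
    smul_mul_assoc, mul_assoc] using h

theorem iso_rel_cf (x : R k) :
    gen k .c * (gen k .f * x) = gen k .f * (gen k .c * x) := by
  have h := iso_key (Rel.cf (k := k)) x
  simpa only [map_mul, map_add, map_sub, map_smul, map_zero, iso_mk_X, add_mul, sub_mul, zero_mul,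
    smul_mul_assoc, mul_assoc] using h

theorem iso_rel_ch (x : R k) :
    gen k .c * (gen k .h * x) = gen k .h * (gen k .c * x) := by
  have h := iso_key (Rel.ch (k := k)) x
  simpa only [map_mul, map_add, map_sub, map_smul, map_zero, iso_mk_X, add_mul, sub_mul, zero_mul,
    smul_mul_assoc, mul_assoc] using h

theorem iso_rel_eb1 (x : R k) :
    gen k .e * (gen k .b1 * x) = gen k .b1 * (gen k .e * x) - gen k .b2 * x := by
  have h := iso_key (Rel.eb1 (k := k)) x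
  simpa only [map_mul, map_add, map_sub, map_smul, map_zero, iso_mk_X, add_mul, sub_mul, zero_mul,
    smul_mul_assoc, mul_assoc] using h

theorem iso_rel_eb2 (x : R k) :
    gen k .e * (gen k .b2 * x) = gen k .b2 * (gen k .e * x) := by
  have h := iso_key (Rel.eb2 (k := k)) x
  simpa only [map_mul, map_add, map_sub, map_smul, map_zero, iso_mk_X, add_mul, sub_mul, zero_mul,
    smul_mul_assoc, mul_assoc] using h

theorem iso_rel_fb1 (x : R k) :
    gen k .f * (gen k .b1 * x) = gen k .b1 * (gen k .f * x) := by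
  have h := iso_key (Rel.fb1 (k := k)) x
  simpa only [map_mul, map_add, map_sub, map_smul, map_zero, iso_mk_X, add_mul, sub_mul, zero_mul,
    smul_mul_assoc, mul_assoc] using h

theorem iso_rel_fb2 (x : R k) :
    gen k .f * (gen k .b2 * x) = gen k .b2 * (gen k .f * x) - gen k .b1 * x := by
  have h := iso_key (Rel.fb2 (k := k)) x
  simpa only [map_mul, map_add, map_sub, map_smul, map_zero, iso_mk_X, add_mul, sub_mul, zero_mul,
    smul_mul_assoc, mul_assoc] using h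

theorem iso_rel_hb1 (x : R k) :
    gen k .h * (gen k .b1 * x) = gen k .b1 * (gen k .h * x) - gen k .b1 * x := by
  have h := iso_key (Rel.hb1 (k := k)) x
  simpa only [map_mul, map_add, map_sub, map_smul, map_zero, iso_mk_X, add_mul, sub_mul, zero_mul,
    smul_mul_assoc, mul_assoc] using h

theorem iso_rel_hb2 (x : R k) :
    gen k .h * (gen k .b2 * x) = gen k .b2 * (gen k .h * x) + gen k .b2 * x := by
  have h := iso_key (Rel.hb2 (k := k)) x
  simpa only [map_mul, map_add, map_sub, map_smul, map_zero, iso_mk_X, add_mul, sub_mul, zero_mul,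
    smul_mul_assoc, mul_assoc] using h

theorem iso_rel_b1c (x : R k) :
    gen k .b1 * (gen k .c * x) = gen k .b1 * (gen k .h * x) - (2 : k) • (gen k .b1 * x) +
      (2 : k) • (gen k .b2 * (gen k .f * x)) := by
  have h := iso_key (Rel.b1c (k := k)) x
  simpa only [map_mul, map_add, map_sub, map_smul, map_zero, iso_mk_X, add_mul, sub_mul, zero_mul,
    smul_mul_assoc, mul_assoc] using h

theorem iso_rel_b2c (x : R k) :
    gen k .b2 * (gen k .c * x) = (2 : k) • (gen k .b1 * (gen k .e * x)) - gen k .b2 * (gen k .h * x) -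
      (2 : k) • (gen k .b2 * x) := by
  have h := iso_key (Rel.b2c (k := k)) x
  simpa only [map_mul, map_add, map_sub, map_smul, map_zero, iso_mk_X, add_mul, sub_mul, zero_mul,
    smul_mul_assoc, mul_assoc] using h

theorem iso_rel_cb1 (x : R k) :
    gen k .c * (gen k .b1 * x) = gen k .b1 * (gen k .c * x) - gen k .b1 * x := by
  have h := iso_key (Rel.cb1 (k := k)) x
  simpa only [map_mul, map_add, map_sub, map_smul, map_zero, iso_mk_X, add_mul, sub_mul, zero_mul,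
    smul_mul_assoc, mul_assoc] using h

theorem iso_rel_cb2 (x : R k) :
    gen k .c * (gen k .b2 * x) = gen k .b2 * (gen k .c * x) - gen k .b2 * x := by
  have h := iso_key (Rel.cb2 (k := k)) x
  simpa only [map_mul, map_add, map_sub, map_smul, map_zero, iso_mk_X, add_mul, sub_mul, zero_mul,
    smul_mul_assoc, mul_assoc] using h

theorem iso_rel_b1b1 (x : R k) :
    gen k .b1 * (gen k .b1 * x) = 0 := by
  have h := iso_key (Rel.b1b1 (k := k)) x
  simpa only [map_mul, map_add, map_sub, map_smul, map_zero, iso_mk_X, add_mul, sub_mul, zero_mul,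
    smul_mul_assoc, mul_assoc] using h

theorem iso_rel_b1b2 (x : R k) :
    gen k .b1 * (gen k .b2 * x) = 0 := by
  have h := iso_key (Rel.b1b2 (k := k)) x
  simpa only [map_mul, map_add, map_sub, map_smul, map_zero, iso_mk_X, add_mul, sub_mul, zero_mul,
    smul_mul_assoc, mul_assoc] using h

theorem iso_rel_b2b1 (x : R k) :
    gen k .b2 * (gen k .b1 * x) = 0 := by
  have h := iso_key (Rel.b2b1 (k := k)) x
  simpa only [map_mul, map_add, map_sub, map_smul, map_zero, iso_mk_X, add_mul, sub_mul, zero_mul,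
    smul_mul_assoc, mul_assoc] using h

theorem iso_rel_b2b2 (x : R k) :
    gen k .b2 * (gen k .b2 * x) = 0 := by
  have h := iso_key (Rel.b2b2 (k := k)) x
  simpa only [map_mul, map_add, map_sub, map_smul, map_zero, iso_mk_X, add_mul, sub_mul, zero_mul,
    smul_mul_assoc, mul_assoc] using h

theorem isR_RSp : IsR (RSp k) := by
  exact ⟨⟨⟨⟨RF_mono, fun j x hx => iso_gen_mul_mem .h j x hx⟩,
    fun j x hx => iso_gen_mul_mem .e j x hx, fun x => iso_rel_he x⟩,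
    fun j x hx => iso_gen_mul_mem .f j x hx, fun x => iso_rel_ef x, fun x => iso_rel_hf x⟩,
    fun j x hx => iso_gen_mul_mem .c j x hx, fun j x hx => iso_gen_mul_mem .b1 j x hx,
    fun j x hx => iso_gen_mul_mem .b2 j x hx, fun x => iso_rel_ce x, fun x => iso_rel_cf x,
    fun x => iso_rel_ch x, fun x => iso_rel_eb1 x, fun x => iso_rel_eb2 x, fun x => iso_rel_fb1 x,
    fun x => iso_rel_fb2 x, fun x => iso_rel_hb1 x, fun x => iso_rel_hb2 x, fun x => iso_rel_b1c x,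
    fun x => iso_rel_b2c x, fun x => iso_rel_cb1 x, fun x => iso_rel_cb2 x, fun x => iso_rel_b1b1 x,
    fun x => iso_rel_b1b2 x, fun x => iso_rel_b2b1 x, fun x => iso_rel_b2b2 x⟩

theorem rho_RSp (a x : R k) : rho (RSp k) isR_RSp a x = a * x := by
  obtain ⟨p, rfl⟩ := RingQuot.mkAlgHom_surjective k (Rel k) a
  have h1 : rho (RSp k) isR_RSp (iso_mk p) = FreeAlgebra.lift k (RSp k).act p :=
    RingQuot.liftAlgHom_mkAlgHom_apply (S := k) (s := Rel k)
      (FreeAlgebra.lift k (RSp k).act) (rho_aux (RSp k) isR_RSp) p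
  have h2 : ∀ p : FreeAlgebra k Gen, ∀ x : R k,
      FreeAlgebra.lift k (RSp k).act p x = iso_mk p * x := by
    intro p
    induction p using FreeAlgebra.induction with
    | grade0 r =>
      intro x
      rw [AlgHom.commutes, AlgHom.commutes, Algebra.algebraMap_eq_smul_one,
        Algebra.algebraMap_eq_smul_one, smul_mul_assoc, one_mul]
      rfl
    | grade1 g =>
      intro x
      rw [FreeAlgebra.lift_ι_apply]
      rfl
    | mul a b ha hb =>
      intro x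
      rw [map_mul, map_mul, mul_assoc, ← hb]
      exact ha _
    | add a b ha hb =>
      intro x
      rw [map_add, map_add, add_mul, ← hb, ← ha]
      rfl
  exact (LinearMap.congr_fun h1 x).trans (h2 p x)

theorem MM_iso : Function.Bijective (fun a : R k => rho (MM k) isR_MM a (oneM k)) ∧
    ∀ j a, a ∈ (RF j : Submodule k (R k)) ↔ rho (MM k) isR_MM a (oneM k) ∈ (MM k).F j := by
  obtain ⟨Φ, hΦ, hΦF, hΦ1⟩ := univ (RSp k) isR_RSp (1 : R k) one_mem_RF
  have hΦa : ∀ a : R k, Φ (rho (MM k) isR_MM a (oneM k)) = a := by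
    intro a
    rw [homR_rho (MM k) (RSp k) isR_MM isR_RSp Φ hΦ a (oneM k), hΦ1]
    refine (rho_RSp a 1).trans ?_
    rw [mul_one]
  let Ψ : R k →ₗ[k] (MM k).V :=
    (LinearMap.applyₗ (oneM k)) ∘ₗ (rho (MM k) isR_MM).toLinearMap
  have hΨ : ∀ a, Ψ a = rho (MM k) isR_MM a (oneM k) := fun a => rfl
  have hcomp : Ψ ∘ₗ Φ = LinearMap.id := by
    refine uniqMM (MM k) _ _ ?_ (fun g x => rfl) ?_
    · intro g x
      have h1 : Φ ((MM k).act g x) = gen k g * (show R k from Φ x) := hΦ g x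
      show Ψ (Φ ((MM k).act g x)) = (MM k).act g (Ψ (Φ x))
      rw [h1, hΨ, map_mul, rho_gen]
      rfl
    · show Ψ (Φ (oneM k)) = oneM k
      rw [hΦ1]
      show rho (MM k) isR_MM (1 : R k) (oneM k) = oneM k
      rw [map_one]
      rfl
  refine ⟨⟨?_, ?_⟩, ?_⟩
  · intro a b hab
    have := congrArg Φ hab
    simp only [hΦa] at this
    exact this
  · intro x
    exact ⟨Φ x, LinearMap.congr_fun hcomp x⟩
  · intro j a
    constructor
    · intro ha
      have := rho_mem (MM k) isR_MM j 0 a ha (oneM k) oneM_mem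
      rwa [zero_add] at this
    · intro ha
      have := hΦF j _ ha
      rwa [hΦa] at this

/-- in the form used for windows (`Win.lean`) -/
theorem free1_MM : Free1 (MM k) isR_MM (oneM k) := ⟨MM_iso.1, MM_iso.2⟩

end Vale.Agent.P176
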