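import Vale.Agent.Lib.P176.Sp

/-!
# P176: `M3, M2, M1, T` preserve filtered exact sequences

`Ex` only involves the vector spaces and filtrations. For `PF`: `Pmap φ p a = φ (p a)`.
Lift: choose for every `a` in the support of `y` a preimage `x a ∈ A.F (j - a)`
(`j + s - a = (j - a) + s`), and `0` outside the support.
-/

namespace Vale.Agent.P176

variable {k : Type} [Field k]

private theorem Pmap_apply' {V W : Type} [AddCommGroup V] [Module k V] [AddCommGroup W]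
    [Module k W] (φ : V →ₗ[k] W) (p : ℕ →₀ V) (a : ℕ) : Pmap φ p a = φ (p a) := by
  simp [Pmap]

/-- coefficientwise choice of preimages -/
private theorem exists_finsupp_lift {V W : Type} [AddCommGroup V] [Module k V] [AddCommGroup W]
    [Module k W] (φ : V →ₗ[k] W) (P : ℕ → V → Prop) (hP : ∀ a, P a 0) (y : ℕ →₀ W)
    (h : ∀ a, ∃ x, P a x ∧ φ x = y a) : ∃ x : ℕ →₀ V, (∀ a, P a (x a)) ∧ Pmap φ x = y := by
  classical
  choose x hx1 hx2 using h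
  refine ⟨Finsupp.onFinset y.support (fun a => if a ∈ y.support then x a else 0) ?_, ?_, ?_⟩
  · intro a ha
    by_contra hcon
    exact ha (if_neg hcon)
  · intro a
    rw [Finsupp.onFinset_apply]
    split_ifs
    · exact hx1 a
    · exact hP a
  · ext a
    rw [Pmap_apply', Finsupp.onFinset_apply]
    split_ifs with h
    · exact hx2 a
    · rw [map_zero]
      exact (Finsupp.notMem_support_iff.1 h).symm

private theorem Pmap_inj {V W : Type} [AddCommGroup V] [Module k V] [AddCommGroup W]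
    [Module k W] (φ : V →ₗ[k] W) (h : Function.Injective φ) : Function.Injective (Pmap φ) := by
  intro p q hpq
  ext a
  apply h
  rw [← Pmap_apply', ← Pmap_apply', hpq]

section PFlemmas

variable {V W U : Type} [AddCommGroup V] [Module k V] [AddCommGroup W] [Module k W]
  [AddCommGroup U] [Module k U]

private theorem pf_mem (φ : V →ₗ[k] W) (F : ℤ → Submodule k V) (G : ℤ → Submodule k W) (s : ℤ)
    (h : ∀ j x, x ∈ F j → φ x ∈ G (j + s)) (j : ℤ) (x : ℕ →₀ V) (hx : x ∈ PF F j) :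
    Pmap φ x ∈ PF G (j + s) := by
  intro a
  rw [Pmap_apply', show j + s - (a : ℤ) = j - a + s by ring]
  exact h (j - a) (x a) (hx a)

private theorem pf_mem0 (φ : V →ₗ[k] W) (F : ℤ → Submodule k V) (G : ℤ → Submodule k W)
    (h : ∀ j x, x ∈ F j → φ x ∈ G j) (j : ℤ) (x : ℕ →₀ V) (hx : x ∈ PF F j) :
    Pmap φ x ∈ PF G j := by
  intro a
  rw [Pmap_apply']
  exact h (j - a) (x a) (hx a)

private theorem pf_comp (φ : V →ₗ[k] W) (ψ : W →ₗ[k] U) (h : ∀ x, ψ (φ x) = 0) (x : ℕ →₀ V) :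
    Pmap ψ (Pmap φ x) = 0 := by
  ext a
  rw [Pmap_apply', Pmap_apply', h]
  rfl

private theorem pf_lift (φ : V →ₗ[k] W) (ψ : W →ₗ[k] U) (F : ℤ → Submodule k V)
    (G : ℤ → Submodule k W) (s : ℤ)
    (h : ∀ j y, y ∈ G (j + s) → ψ y = 0 → ∃ x ∈ F j, φ x = y) (j : ℤ) (y : ℕ →₀ W)
    (hy : y ∈ PF G (j + s)) (hy0 : Pmap ψ y = 0) : ∃ x ∈ PF F j, Pmap φ x = y := by
  refine exists_finsupp_lift φ (fun a x => x ∈ F (j - a)) (fun a => (F (j - a)).zero_mem) y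
    fun a => ?_
  have h1 := hy a
  rw [show j + s - (a : ℤ) = j - a + s by ring] at h1
  have h2 : ψ (y a) = 0 := by
    rw [← Pmap_apply', hy0]
    rfl
  exact h (j - a) (y a) h1 h2

private theorem pf_surj (ψ : W →ₗ[k] U) (G : ℤ → Submodule k W) (H : ℤ → Submodule k U)
    (h : ∀ j z, z ∈ H j → ∃ y ∈ G j, ψ y = z) (j : ℤ) (z : ℕ →₀ U) (hz : z ∈ PF H j) :
    ∃ y ∈ PF G j, Pmap ψ y = z :=
  exists_finsupp_lift ψ (fun a x => x ∈ G (j - a)) (fun a => (G (j - a)).zero_mem) z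
    fun a => h (j - a) (z a) (hz a)

end PFlemmas

theorem ex_M3 {s : ℤ} {A B C : Sp k} {D : A.V →ₗ[k] B.V} {ev : B.V →ₗ[k] C.V}
    (h : Ex s A B C D ev) : Ex s (M3 A) (M3 B) (M3 C) (Pmap D) (Pmap ev) where
  inj := Pmap_inj D h.inj
  D_mem := pf_mem D A.F B.F s h.D_mem
  ev_mem := pf_mem0 ev B.F C.F h.ev_mem
  comp := pf_comp D ev h.comp
  lift := pf_lift D ev A.F B.F s h.lift
  surj := pf_surj ev B.F C.F h.surj

theorem ex_M2 {s : ℤ} {A B C : Sp k} {D : A.V →ₗ[k] B.V} {ev : B.V →ₗ[k] C.V}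
    (h : Ex s A B C D ev) : Ex s (M2 A) (M2 B) (M2 C) (Pmap D) (Pmap ev) :=
  ⟨(ex_M3 h).inj, (ex_M3 h).D_mem, (ex_M3 h).ev_mem, (ex_M3 h).comp, (ex_M3 h).lift,
    (ex_M3 h).surj⟩

theorem ex_M1 {s : ℤ} {A B C : Sp k} {D : A.V →ₗ[k] B.V} {ev : B.V →ₗ[k] C.V}
    (h : Ex s A B C D ev) : Ex s (M1 A) (M1 B) (M1 C) (Pmap D) (Pmap ev) :=
  ⟨(ex_M3 h).inj, (ex_M3 h).D_mem, (ex_M3 h).ev_mem, (ex_M3 h).comp, (ex_M3 h).lift,
    (ex_M3 h).surj⟩

theorem ex_T {s : ℤ} {A B C : Sp k} {D : A.V →ₗ[k] B.V} {ev : B.V →ₗ[k] C.V}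
    (h : Ex s A B C D ev) : Ex s (T A) (T B) (T C) (Tmap D) (Tmap ev) where
  inj := by
    rintro ⟨p, y1, y2⟩ ⟨q, z1, z2⟩ hpq
    have h1 : Pmap D p = Pmap D q := congrArg Prod.fst hpq
    have h2 : D y1 = D z1 := congrArg (fun w => w.2.1) hpq
    have h3 : D y2 = D z2 := congrArg (fun w => w.2.2) hpq
    rw [Pmap_inj D h.inj h1, h.inj h2, h.inj h3]
  D_mem := by
    rintro j ⟨p, y1, y2⟩ ⟨hp, hy1, hy2⟩
    refine ⟨(ex_M3 h).D_mem j p hp, ?_, ?_⟩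
    · show D y1 ∈ B.F (j + s + 1)
      rw [show j + s + 1 = j + 1 + s by ring]
      exact h.D_mem _ _ hy1
    · show D y2 ∈ B.F (j + s + 1)
      rw [show j + s + 1 = j + 1 + s by ring]
      exact h.D_mem _ _ hy2
  ev_mem := by
    rintro j ⟨p, y1, y2⟩ ⟨hp, hy1, hy2⟩
    exact ⟨(ex_M3 h).ev_mem j p hp, h.ev_mem _ _ hy1, h.ev_mem _ _ hy2⟩
  comp := by
    rintro ⟨p, y1, y2⟩
    have h1 : Pmap ev (Pmap D p) = 0 := (ex_M3 h).comp p
    exact Prod.ext h1 (Prod.ext (h.comp y1) (h.comp y2))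
  lift := by
    rintro j ⟨p, y1, y2⟩ ⟨hp, hy1, hy2⟩ hev
    have e1 : Pmap ev p = 0 := congrArg Prod.fst hev
    have e2 : ev y1 = 0 := congrArg (fun w => w.2.1) hev
    have e3 : ev y2 = 0 := congrArg (fun w => w.2.2) hev
    obtain ⟨q, hq, hq2⟩ := (ex_M3 h).lift j p hp e1
    have hy1' : y1 ∈ B.F (j + 1 + s) := by
      rw [show j + 1 + s = j + s + 1 by ring]
      exact hy1
    have hy2' : y2 ∈ B.F (j + 1 + s) := by
      rw [show j + 1 + s = j + s + 1 by ring]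
      exact hy2
    obtain ⟨x1, hx1, hx1'⟩ := h.lift (j + 1) y1 hy1' e2
    obtain ⟨x2, hx2, hx2'⟩ := h.lift (j + 1) y2 hy2' e3
    exact ⟨(q, x1, x2), ⟨hq, hx1, hx2⟩, Prod.ext hq2 (Prod.ext hx1' hx2')⟩
  surj := by
    rintro j ⟨p, y1, y2⟩ ⟨hp, hy1, hy2⟩
    obtain ⟨q, hq, hq2⟩ := (ex_M3 h).surj j p hp
    obtain ⟨x1, hx1, hx1'⟩ := h.surj (j + 1) y1 hy1
    obtain ⟨x2, hx2, hx2'⟩ := h.surj (j + 1) y2 hy2
    exact ⟨(q, x1, x2), ⟨hq, hx1, hx2⟩, Prod.ext hq2 (Prod.ext hx1' hx2')⟩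

end Vale.Agent.P176
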