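import Vale.Agent.Lib.P176.Sp

/-!
# P176: the maps of the Poly lemma are equivariant

`D (x^a w) = x^{a+1} w - x^a θ w`, `ev (x^a w) = θ^a w`. Reduce to `Finsupp.single a w`.
* `M3`: `θ = h`, trivial.
* `M2`, `θ = e`: `h e^a z = e^a (h + 2a) z` in `N` (induction, from `he`);
  on the source `h` is replaced by `h + 2`.
* `M1`, `θ = f`: in `N`: `e f^a w = f^a e w + a f^{a-1} (h - (a-1)) w`, `h f^a w = f^a (h - 2a) w`;
  on the source `h` is replaced by `h - 2`.
-/

namespace Vale.Agent.P176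

variable {k : Type} [Field k]

section aux
variable {V : Type} [AddCommGroup V] [Module k V]

theorem MHomD_lext {W : Type} [AddCommGroup W] [Module k W] {φ ψ : (ℕ →₀ V) →ₗ[k] W}
    (h : ∀ a v, φ (Finsupp.single a v) = ψ (Finsupp.single a v)) (x : ℕ →₀ V) : φ x = ψ x := by
  have : φ = ψ := Finsupp.lhom_ext h
  rw [this]

theorem MHomD_Dmap_single (θ : V →ₗ[k] V) (a : ℕ) (v : V) :
    Dmap θ (Finsupp.single a v) = Finsupp.single (a + 1) v - Finsupp.single a (θ v) := by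
  simp [Dmap, Pmap]

theorem MHomD_ev_single (θ : V →ₗ[k] V) (a : ℕ) (v : V) :
    evmap θ (Finsupp.single a v) = (θ ^ a) v := by
  simp [evmap]

/-- the operator `h` of `M2` -/
noncomputable def MHomD_hh (η : V →ₗ[k] V) : (ℕ →₀ V) →ₗ[k] (ℕ →₀ V) :=
  Finsupp.lsum k (fun b : ℕ =>
        (Finsupp.lsingle b : V →ₗ[k] (ℕ →₀ V)) ∘ₗ
          (η + (2 * (b : k)) • LinearMap.id))

theorem MHomD_hh_single (η : V →ₗ[k] V) (a : ℕ) (v : V) :
    MHomD_hh η (Finsupp.single a v) = Finsupp.single a (η v + (2 * (a : k)) • v) := by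
  simp [MHomD_hh]

theorem MHomD_D_shift (θ : V →ₗ[k] V) (x : ℕ →₀ V) :
    Dmap θ (shift k V x) = shift k V (Dmap θ x) := by
  have := MHomD_lext (φ := Dmap θ ∘ₗ shift k V) (ψ := shift k V ∘ₗ Dmap θ) (by
    intro a v
    simp [MHomD_Dmap_single]) x
  simpa using this

theorem MHomD_ev_shift (θ : V →ₗ[k] V) (x : ℕ →₀ V) :
    evmap θ (shift k V x) = θ (evmap θ x) := by
  have := MHomD_lext (φ := evmap θ ∘ₗ shift k V) (ψ := θ ∘ₗ evmap θ) (by
    intro a v
    simp [MHomD_ev_single, pow_succ']) x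
  simpa using this

theorem MHomD_D_hh (θ η : V →ₗ[k] V) (he : ∀ x, η (θ x) = θ (η x) + (2 : k) • θ x)
    (x : ℕ →₀ V) :
    Dmap θ (MHomD_hh (η + (2 : k) • LinearMap.id) x) = MHomD_hh η (Dmap θ x) := by
  have := MHomD_lext (φ := Dmap θ ∘ₗ MHomD_hh (η + (2 : k) • LinearMap.id))
    (ψ := MHomD_hh η ∘ₗ Dmap θ) (by
    intro a v
    simp only [LinearMap.comp_apply, MHomD_Dmap_single, MHomD_hh_single, map_sub,
      LinearMap.add_apply, LinearMap.smul_apply, LinearMap.id_apply, he, map_add, map_smul]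
    congr 2
    push_cast
    module) x
  simpa using this

theorem MHomD_h_pow (θ η : V →ₗ[k] V) (he : ∀ x, η (θ x) = θ (η x) + (2 : k) • θ x)
    (a : ℕ) (v : V) : η ((θ ^ a) v) = (θ ^ a) (η v + (2 * (a : k)) • v) := by
  induction a generalizing v with
  | zero => simp
  | succ a ih =>
    rw [pow_succ', Module.End.mul_apply, he, ih, Module.End.mul_apply, ← map_smul, ← map_add,
      ← map_smul, ← map_add]
    congr 2
    push_cast
    module

theorem MHomD_ev_hh (θ η : V →ₗ[k] V) (he : ∀ x, η (θ x) = θ (η x) + (2 : k) • θ x)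
    (x : ℕ →₀ V) : evmap θ (MHomD_hh η x) = η (evmap θ x) := by
  have := MHomD_lext (φ := evmap θ ∘ₗ MHomD_hh η) (ψ := η ∘ₗ evmap θ) (by
    intro a v
    simp only [LinearMap.comp_apply, MHomD_ev_single, MHomD_hh_single]
    rw [MHomD_h_pow θ η he]) x
  simpa using this

end aux

theorem homH_D3 (N : Sp k) : HomH (M3 N) (M3 N) (Dmap (N.act .h)) :=
  fun x => MHomD_D_shift (N.act .h) x

theorem homH_ev3 (N : Sp k) : HomH (M3 N) N (evmap (N.act .h)) :=
  fun x => MHomD_ev_shift (N.act .h) x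

theorem homB_D2 (N : Sp k) (h : IsB N) : HomB (M2 (sh 2 N)) (M2 N) (Dmap (N.act .e)) :=
  ⟨fun x => MHomD_D_hh (N.act .e) (N.act .h) h.he x, fun x => MHomD_D_shift (N.act .e) x⟩

theorem homB_ev2 (N : Sp k) (h : IsB N) : HomB (M2 N) N (evmap (N.act .e)) :=
  ⟨fun x => MHomD_ev_hh (N.act .e) (N.act .h) h.he x, fun x => MHomD_ev_shift (N.act .e) x⟩

end Vale.Agent.P176
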