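import Vale.Agent.Lib.P176.Sp

/-!
# P176: the maps of the Poly lemma for `M1` are `sl₂`-equivariant

`D (f^a w) = f^{a+1} w - f^a (f w)`, `ev (f^a w) = f^a w`. Reduce to `Finsupp.single a w`.
In `N`: `e f^a w = f^a e w + a f^{a-1} (h - (a-1)) w`, `h f^a w = f^a (h - 2a) w` (inductions, from
`ef`, `hf`); on the source `M1 (sh (-2) N)` the operator `h` of `N` is replaced by `h - 2`:
`E D (f^a w) = D (f^a (e w) + a f^{a-1} ((h - 2) - (a-1)) w)`.
-/

namespace Vale.Agent.P176

variable {k : Type} [Field k]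

namespace HomD1

theorem ext1 {V W : Type} [AddCommGroup V] [Module k V] [AddCommGroup W] [Module k W]
    (F G : (ℕ →₀ V) →ₗ[k] W)
    (h : ∀ a v, F (Finsupp.single a v) = G (Finsupp.single a v)) : ∀ x, F x = G x := by
  intro x
  have h1 : F = G := Finsupp.lhom_ext h
  rw [h1]

theorem Dmap_single {V : Type} [AddCommGroup V] [Module k V] (θ : V →ₗ[k] V) (a : ℕ) (v : V) :
    Dmap θ (Finsupp.single a v) = Finsupp.single (a + 1) v - Finsupp.single a (θ v) := by
  unfold Dmap Pmap
  rw [LinearMap.sub_apply, shift_single]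
  simp

theorem evmap_single {V : Type} [AddCommGroup V] [Module k V] (θ : V →ₗ[k] V) (a : ℕ) (v : V) :
    evmap θ (Finsupp.single a v) = (θ ^ a) v := by
  unfold evmap
  simp

/-- the operator `h` of `M1` as a map of finitely supported functions -/
noncomputable def hG {V : Type} [AddCommGroup V] [Module k V] (H : V →ₗ[k] V) :
    (ℕ →₀ V) →ₗ[k] (ℕ →₀ V) :=
  Finsupp.lsum k (fun a : ℕ =>
        (Finsupp.lsingle a : V →ₗ[k] (ℕ →₀ V)) ∘ₗ
          (H - (2 * (a : k)) • LinearMap.id))

/-- the operator `e` of `M1` as a map of finitely supported functions -/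
noncomputable def eG {V : Type} [AddCommGroup V] [Module k V] (E H : V →ₗ[k] V) :
    (ℕ →₀ V) →ₗ[k] (ℕ →₀ V) :=
  Finsupp.lsum k (fun a : ℕ =>
        (Finsupp.lsingle a : V →ₗ[k] (ℕ →₀ V)) ∘ₗ E +
        (a : k) • ((Finsupp.lsingle (a - 1) : V →ₗ[k] (ℕ →₀ V)) ∘ₗ
          (H - ((a : k) - 1) • LinearMap.id)))

theorem hG_single {V : Type} [AddCommGroup V] [Module k V] (H : V →ₗ[k] V) (a : ℕ) (v : V) :
    hG H (Finsupp.single a v) = Finsupp.single a (H v - (2 * (a : k)) • v) := by
  unfold hG
  simp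

theorem eG_single {V : Type} [AddCommGroup V] [Module k V] (E H : V →ₗ[k] V) (a : ℕ) (v : V) :
    eG E H (Finsupp.single a v) = Finsupp.single a (E v) +
      (a : k) • Finsupp.single (a - 1) (H v - ((a : k) - 1) • v) := by
  unfold eG
  simp

theorem D_h {V : Type} [AddCommGroup V] [Module k V] (E F H : V →ₗ[k] V)
    (hf : ∀ x, H (F x) = F (H x) - (2 : k) • F x) :
    ∀ x : ℕ →₀ V, (Dmap F ∘ₗ hG (H + (-2 : k) • LinearMap.id)) x = (hG H ∘ₗ Dmap F) x := by
  apply ext1
  intro a v
  rw [LinearMap.comp_apply, LinearMap.comp_apply, hG_single, Dmap_single, Dmap_single,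
    map_sub (hG H), hG_single, hG_single, hf]
  simp only [LinearMap.add_apply, LinearMap.smul_apply, LinearMap.id_apply, map_sub, map_add,
    map_smul]
  congr 2
  · push_cast
    module
  · module

theorem D_e {V : Type} [AddCommGroup V] [Module k V] (E F H : V →ₗ[k] V)
    (hf : ∀ x, H (F x) = F (H x) - (2 : k) • F x)
    (ef : ∀ x, E (F x) = F (E x) + H x) :
    ∀ x : ℕ →₀ V, (Dmap F ∘ₗ eG E (H + (-2 : k) • LinearMap.id)) x = (eG E H ∘ₗ Dmap F) x := by
  apply ext1
  intro a v
  rw [LinearMap.comp_apply, LinearMap.comp_apply, eG_single, Dmap_single, map_add, map_smul,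
    Dmap_single, Dmap_single, map_sub (eG E H), eG_single, eG_single, hf, ef, Nat.add_sub_cancel]
  rcases Nat.eq_zero_or_pos a with h0 | h0
  · subst h0
    simp only [LinearMap.add_apply, LinearMap.smul_apply, LinearMap.id_apply, Nat.cast_zero,
      zero_smul, add_zero, zero_add, Nat.cast_one, one_smul, sub_self, sub_zero,
      Finsupp.single_add]
    abel
  · obtain ⟨b, rfl⟩ : ∃ b, a = b + 1 := ⟨a - 1, by omega⟩
    rw [Nat.add_sub_cancel]
    simp only [LinearMap.add_apply, LinearMap.smul_apply, LinearMap.id_apply, map_sub, map_add,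
      map_smul]
    simp only [← Finsupp.lsingle_apply (R := k), map_sub, map_add, map_smul]
    push_cast
    module

end HomD1

open HomD1

theorem homU_D1 (N : Sp k) (h : IsU N) : HomU (M1 (sh (-2) N)) (M1 N) (Dmap (N.act .f)) := by
  refine ⟨?_, ?_, ?_⟩
  · exact D_h (N.act .e) (N.act .f) (N.act .h) h.hf
  · exact D_e (N.act .e) (N.act .f) (N.act .h) h.hf h.ef
  · change ∀ x : ℕ →₀ N.V, (Dmap (N.act .f) ∘ₗ shift k N.V) x =
      (shift k N.V ∘ₗ Dmap (N.act .f)) x
    apply ext1
    intro a v
    rw [LinearMap.comp_apply, LinearMap.comp_apply, shift_single, Dmap_single, Dmap_single,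
      map_sub, shift_single, shift_single]

theorem homU_ev1 (N : Sp k) (h : IsU N) : HomU (M1 N) N (evmap (N.act .f)) := by
  have hh : ∀ (a : ℕ) (v : N.V), (N.act .f ^ a) (N.act .h v - (2 * (a : k)) • v) =
      N.act .h ((N.act .f ^ a) v) := by
    intro a
    induction a with
    | zero => intro v; simp
    | succ a ih =>
      intro v
      rw [pow_succ', Module.End.mul_apply, Module.End.mul_apply, h.hf, ← ih v]
      simp only [map_sub, map_smul]
      push_cast
      module
  have he : ∀ (a : ℕ) (v : N.V), (N.act .f ^ a) (N.act .e v) +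
      (a : k) • (N.act .f ^ (a - 1)) (N.act .h v - ((a : k) - 1) • v) =
      N.act .e ((N.act .f ^ a) v) := by
    intro a
    induction a with
    | zero => intro v; simp
    | succ a ih =>
      intro v
      rw [pow_succ', Module.End.mul_apply, Module.End.mul_apply, h.ef, ← ih v, ← hh a v,
        Nat.add_sub_cancel]
      rcases Nat.eq_zero_or_pos a with h0 | h0
      · subst h0
        simp
      · obtain ⟨b, rfl⟩ : ∃ b, a = b + 1 := ⟨a - 1, by omega⟩
        rw [Nat.add_sub_cancel]
        simp only [map_sub, map_smul, map_add, pow_succ', Module.End.mul_apply]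
        push_cast
        module
  refine ⟨?_, ?_, ?_⟩
  · change ∀ x : ℕ →₀ N.V, (evmap (N.act .f) ∘ₗ hG (N.act .h)) x = (N.act .h ∘ₗ evmap (N.act .f)) x
    apply ext1
    intro a v
    rw [LinearMap.comp_apply, LinearMap.comp_apply, hG_single, evmap_single, evmap_single]
    exact hh a v
  · change ∀ x : ℕ →₀ N.V, (evmap (N.act .f) ∘ₗ eG (N.act .e) (N.act .h)) x = (N.act .e ∘ₗ evmap (N.act .f)) x
    apply ext1
    intro a v
    rw [LinearMap.comp_apply, LinearMap.comp_apply, eG_single, map_add, map_smul, evmap_single,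
      evmap_single, evmap_single]
    exact he a v
  · change ∀ x : ℕ →₀ N.V, (evmap (N.act .f) ∘ₗ shift k N.V) x =
      (N.act .f ∘ₗ evmap (N.act .f)) x
    apply ext1
    intro a v
    rw [LinearMap.comp_apply, LinearMap.comp_apply, shift_single, evmap_single, evmap_single,
      pow_succ', Module.End.mul_apply]

end Vale.Agent.P176
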