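import Vale.Agent.Lib.P176.Sp

/-!
# P176: functoriality of `M3, M2, M1, T` for equivariant maps

Reduce to `Finsupp.single a w`.
-/

namespace Vale.Agent.P176

variable {k : Type} [Field k]

theorem mhomP_Pmap_single {V W : Type} [AddCommGroup V] [Module k V] [AddCommGroup W]
    [Module k W] (φ : V →ₗ[k] W) (a : ℕ) (v : V) :
    Pmap φ (Finsupp.single a v) = Finsupp.single a (φ v) := by
  simp [Pmap]

theorem mhomP_eq_of_single {V W : Type} [AddCommGroup V] [Module k V] [AddCommGroup W]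
    [Module k W] {g g' : (ℕ →₀ V) →ₗ[k] W}
    (H : ∀ a v, g (Finsupp.single a v) = g' (Finsupp.single a v)) (p : ℕ →₀ V) : g p = g' p := by
  have : g = g' := Finsupp.lhom_ext H
  rw [this]

theorem mhomP_comm_shift {V W : Type} [AddCommGroup V] [Module k V] [AddCommGroup W]
    [Module k W] (φ : V →ₗ[k] W) (p : ℕ →₀ V) :
    Pmap φ (shift k V p) = shift k W (Pmap φ p) :=
  mhomP_eq_of_single (g := Pmap φ ∘ₗ shift k V) (g' := shift k W ∘ₗ Pmap φ)
    (fun a v => by simp [mhomP_Pmap_single]) p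

theorem homH_M3 {A B : Sp k} (φ : A.V →ₗ[k] B.V) : HomH (M3 A) (M3 B) (Pmap φ) := by
  intro x
  exact mhomP_comm_shift φ x

theorem mhomP_M2_h_single (N : Sp k) (b : ℕ) (v : N.V) :
    (Finsupp.lsum k (fun b : ℕ => (Finsupp.lsingle b : N.V →ₗ[k] (ℕ →₀ N.V)) ∘ₗ
      (N.act .h + (2 * (b : k)) • LinearMap.id))) (Finsupp.single b v)
      = Finsupp.single b (N.act .h v + (2 * (b : k)) • v) := by
  rw [Finsupp.lsum_single]
  rfl

theorem mhomP_M1_h_single (N : Sp k) (a : ℕ) (v : N.V) :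
    (Finsupp.lsum k (fun a : ℕ => (Finsupp.lsingle a : N.V →ₗ[k] (ℕ →₀ N.V)) ∘ₗ
      (N.act .h - (2 * (a : k)) • LinearMap.id))) (Finsupp.single a v)
      = Finsupp.single a (N.act .h v - (2 * (a : k)) • v) := by
  rw [Finsupp.lsum_single]
  rfl

theorem mhomP_M1_e_single (N : Sp k) (a : ℕ) (v : N.V) :
    (Finsupp.lsum k (fun a : ℕ => (Finsupp.lsingle a : N.V →ₗ[k] (ℕ →₀ N.V)) ∘ₗ (N.act .e) +
        (a : k) • ((Finsupp.lsingle (a - 1) : N.V →ₗ[k] (ℕ →₀ N.V)) ∘ₗ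
          (N.act .h - ((a : k) - 1) • LinearMap.id)))) (Finsupp.single a v)
      = Finsupp.single a (N.act .e v)
        + (a : k) • Finsupp.single (a - 1) (N.act .h v - ((a : k) - 1) • v) := by
  rw [Finsupp.lsum_single]
  rfl

theorem homB_M2 {A B : Sp k} {φ : A.V →ₗ[k] B.V} (h : HomH A B φ) :
    HomB (M2 A) (M2 B) (Pmap φ) := by
  refine ⟨fun x => ?_, fun x => mhomP_comm_shift φ x⟩
  refine mhomP_eq_of_single (V := A.V) (W := ℕ →₀ B.V)
    (g := Pmap φ ∘ₗ (Finsupp.lsum k (fun b : ℕ => (Finsupp.lsingle b : A.V →ₗ[k] (ℕ →₀ A.V)) ∘ₗ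
      (A.act .h + (2 * (b : k)) • LinearMap.id))))
    (g' := (Finsupp.lsum k (fun b : ℕ => (Finsupp.lsingle b : B.V →ₗ[k] (ℕ →₀ B.V)) ∘ₗ
      (B.act .h + (2 * (b : k)) • LinearMap.id))) ∘ₗ Pmap φ)
    (fun a v => ?_) x
  have hv : φ (A.act .h v) = B.act .h (φ v) := h v
  rw [LinearMap.comp_apply, LinearMap.comp_apply, mhomP_M2_h_single, mhomP_Pmap_single, mhomP_Pmap_single,
    mhomP_M2_h_single, map_add, map_smul, hv]

theorem homU_M1 {A B : Sp k} {φ : A.V →ₗ[k] B.V} (h : HomB A B φ) :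
    HomU (M1 A) (M1 B) (Pmap φ) := by
  refine ⟨fun x => ?_, fun x => ?_, fun x => mhomP_comm_shift φ x⟩
  · refine mhomP_eq_of_single (V := A.V) (W := ℕ →₀ B.V)
      (g := Pmap φ ∘ₗ (Finsupp.lsum k (fun a : ℕ =>
        (Finsupp.lsingle a : A.V →ₗ[k] (ℕ →₀ A.V)) ∘ₗ
        (A.act .h - (2 * (a : k)) • LinearMap.id))))
      (g' := (Finsupp.lsum k (fun a : ℕ => (Finsupp.lsingle a : B.V →ₗ[k] (ℕ →₀ B.V)) ∘ₗ
        (B.act .h - (2 * (a : k)) • LinearMap.id))) ∘ₗ Pmap φ)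
      (fun a v => ?_) x
    have hv : φ (A.act .h v) = B.act .h (φ v) := h.1 v
    rw [LinearMap.comp_apply, LinearMap.comp_apply, mhomP_M1_h_single, mhomP_Pmap_single, mhomP_Pmap_single,
      mhomP_M1_h_single, map_sub, map_smul, hv]
  · refine mhomP_eq_of_single (V := A.V) (W := ℕ →₀ B.V)
      (g := Pmap φ ∘ₗ (Finsupp.lsum k (fun a : ℕ =>
        (Finsupp.lsingle a : A.V →ₗ[k] (ℕ →₀ A.V)) ∘ₗ (A.act .e) +
        (a : k) • ((Finsupp.lsingle (a - 1) : A.V →ₗ[k] (ℕ →₀ A.V)) ∘ₗ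
          (A.act .h - ((a : k) - 1) • LinearMap.id)))))
      (g' := (Finsupp.lsum k (fun a : ℕ =>
        (Finsupp.lsingle a : B.V →ₗ[k] (ℕ →₀ B.V)) ∘ₗ (B.act .e) +
        (a : k) • ((Finsupp.lsingle (a - 1) : B.V →ₗ[k] (ℕ →₀ B.V)) ∘ₗ
          (B.act .h - ((a : k) - 1) • LinearMap.id)))) ∘ₗ Pmap φ)
      (fun a v => ?_) x
    have hv : φ (A.act .h v) = B.act .h (φ v) := h.1 v
    have he : φ (A.act .e v) = B.act .e (φ v) := h.2 v
    rw [LinearMap.comp_apply, LinearMap.comp_apply, mhomP_M1_e_single, mhomP_Pmap_single, map_add, map_smul,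
      mhomP_Pmap_single, mhomP_Pmap_single, mhomP_M1_e_single, map_sub, map_smul, hv, he]

theorem mhomP_KK_comm {A B : Sp k} {φ : A.V →ₗ[k] B.V} (h : HomU A B φ) (p : A.V × A.V) :
    LinearMap.prodMap φ φ (KK A p) = KK B (LinearMap.prodMap φ φ p) := by
  obtain ⟨hh, he, hf⟩ := h
  obtain ⟨x, y⟩ := p
  have h1 := hh x
  have h2 := hh y
  have h3 := he y
  have h4 := hf x
  simp [KK, h1, h2, h3, h4]

theorem mhomP_KK_pow_comm {A B : Sp k} {φ : A.V →ₗ[k] B.V} (h : HomU A B φ) (l : ℕ)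
    (p : A.V × A.V) :
    LinearMap.prodMap φ φ ((KK A ^ l) p) = (KK B ^ l) (LinearMap.prodMap φ φ p) := by
  induction l generalizing p with
  | zero => simp
  | succ l ih =>
    rw [pow_succ, pow_succ, Module.End.mul_apply, Module.End.mul_apply, ih, mhomP_KK_comm h]

theorem mhomP_Pmap_comm {A B : Sp k} {φ : A.V →ₗ[k] B.V} (g : A.V →ₗ[k] A.V)
    (g' : B.V →ₗ[k] B.V) (H : ∀ x, φ (g x) = g' (φ x)) (p : ℕ →₀ A.V) :
    Pmap φ (Finsupp.mapRange.linearMap g p) = Finsupp.mapRange.linearMap g' (Pmap φ p) :=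
  mhomP_eq_of_single (g := Pmap φ ∘ₗ Finsupp.mapRange.linearMap g)
    (g' := Finsupp.mapRange.linearMap g' ∘ₗ Pmap φ) (fun a v => by simp [mhomP_Pmap_single, H]) p

theorem homR_T {A B : Sp k} {φ : A.V →ₗ[k] B.V} (h : HomU A B φ) :
    HomR (T A) (T B) (Tmap φ) := by
  have hh := h.1
  have he := h.2.1
  have hf := h.2.2
  intro g x
  obtain ⟨p, q⟩ := x
  cases g
  · have h1 := mhomP_Pmap_comm _ _ he p
    have h2 : LinearMap.prodMap φ φ (actV A .e q) = actV B .e (LinearMap.prodMap φ φ q) := by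
      obtain ⟨x, y⟩ := q
      have h3 := he x
      have h4 := he y
      simp [actV, h3, h4]
    exact Prod.ext h1 h2
  · have h1 := mhomP_Pmap_comm _ _ hf p
    have h2 : LinearMap.prodMap φ φ (actV A .f q) = actV B .f (LinearMap.prodMap φ φ q) := by
      obtain ⟨x, y⟩ := q
      have h3 := hf x
      have h4 := hf y
      simp [actV, h3, h4]
    exact Prod.ext h1 h2
  · have h1 := mhomP_Pmap_comm _ _ hh p
    have h2 : LinearMap.prodMap φ φ (actV A .h q) = actV B .h (LinearMap.prodMap φ φ q) := by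
      obtain ⟨x, y⟩ := q
      have h3 := hh x
      have h4 := hh y
      simp [actV, h3, h4]
    exact Prod.ext h1 h2
  · have h1 := mhomP_comm_shift φ p
    have h2 : LinearMap.prodMap φ φ (actV A .c q) = actV B .c (LinearMap.prodMap φ φ q) := by
      have h3 := mhomP_KK_comm h q
      simp only [actV, LinearMap.sub_apply, LinearMap.id_apply, map_sub, h3]
    exact Prod.ext h1 h2
  · have h2 : LinearMap.prodMap φ φ ((Finsupp.lsum k (fun l : ℕ =>
        (KK A ^ l) ∘ₗ LinearMap.inl k A.V A.V)) p)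
        = (Finsupp.lsum k (fun l : ℕ => (KK B ^ l) ∘ₗ LinearMap.inl k B.V B.V)) (Pmap φ p) := by
      refine mhomP_eq_of_single (g := LinearMap.prodMap φ φ ∘ₗ (Finsupp.lsum k (fun l : ℕ =>
        (KK A ^ l) ∘ₗ LinearMap.inl k A.V A.V)))
        (g' := (Finsupp.lsum k (fun l : ℕ => (KK B ^ l) ∘ₗ LinearMap.inl k B.V B.V)) ∘ₗ Pmap φ)
        (fun a v => ?_) p
      have h3 := mhomP_KK_pow_comm h a (v, 0)
      rw [LinearMap.comp_apply, LinearMap.comp_apply, mhomP_Pmap_single, Finsupp.lsum_single,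
        Finsupp.lsum_single, LinearMap.comp_apply, LinearMap.comp_apply, LinearMap.inl_apply,
        LinearMap.inl_apply, h3, LinearMap.prodMap_apply, map_zero]
    exact Prod.ext (map_zero (Pmap φ)) h2
  · have h2 : LinearMap.prodMap φ φ ((Finsupp.lsum k (fun l : ℕ =>
        (KK A ^ l) ∘ₗ LinearMap.inr k A.V A.V)) p)
        = (Finsupp.lsum k (fun l : ℕ => (KK B ^ l) ∘ₗ LinearMap.inr k B.V B.V)) (Pmap φ p) := by
      refine mhomP_eq_of_single (g := LinearMap.prodMap φ φ ∘ₗ (Finsupp.lsum k (fun l : ℕ =>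
        (KK A ^ l) ∘ₗ LinearMap.inr k A.V A.V)))
        (g' := (Finsupp.lsum k (fun l : ℕ => (KK B ^ l) ∘ₗ LinearMap.inr k B.V B.V)) ∘ₗ Pmap φ)
        (fun a v => ?_) p
      have h3 := mhomP_KK_pow_comm h a (0, v)
      rw [LinearMap.comp_apply, LinearMap.comp_apply, mhomP_Pmap_single, Finsupp.lsum_single,
        Finsupp.lsum_single, LinearMap.comp_apply, LinearMap.comp_apply, LinearMap.inr_apply,
        LinearMap.inr_apply, h3, LinearMap.prodMap_apply, map_zero]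
    exact Prod.ext (map_zero (Pmap φ)) h2

end Vale.Agent.P176
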