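import Vale.Agent.Lib.P176.Sp

/-!
# P176: relations for `sh`, `M3`, `M2`

All checks reduce to `Finsupp.single a w` by `Finsupp.lhom_ext'`/`Finsupp.induction_linear` and
`Finsupp.lsum_single`. For the filtration use: `(M2 N).act .h p` has coefficients
`a ↦ N.act .h (p a) + 2a • p a`, and `shift k V p (a+1) = p a`, `shift k V p 0 = 0`.
-/

namespace Vale.Agent.P176

variable {k : Type} [Field k]

theorem shift_apply_zero (V : Type) [AddCommGroup V] [Module k V] (p : ℕ →₀ V) :
    shift k V p 0 = 0 := by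
  unfold shift
  rw [Finsupp.lmapDomain_apply]
  apply Finsupp.mapDomain_of_notMem_range
  rintro ⟨y, hy⟩
  exact Nat.succ_ne_zero y hy

theorem shift_apply_succ (V : Type) [AddCommGroup V] [Module k V] (p : ℕ →₀ V) (a : ℕ) :
    shift k V p (a + 1) = p a := by
  unfold shift
  rw [Finsupp.lmapDomain_apply]
  exact Finsupp.mapDomain_apply Nat.succ_injective p a

theorem shift_mem (V : Type) [AddCommGroup V] [Module k V] (F : ℤ → Submodule k V) (j : ℤ)
    (p : ℕ →₀ V) (hp : p ∈ PF F j) : shift k V p ∈ PF F (j + 1) := by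
  rw [mem_PF] at hp ⊢
  intro a
  cases a with
  | zero => rw [shift_apply_zero]; exact Submodule.zero_mem _
  | succ a =>
    rw [shift_apply_succ]
    have := hp a
    have h2 : (j + 1 - ((a + 1 : ℕ) : ℤ)) = j - a := by push_cast; ring
    rw [h2]
    exact this

theorem isH_sh (r : k) (N : Sp k) (h : IsH N) : IsH (sh r N) := by
  have key : ∀ (j : ℤ) (x : N.V), x ∈ N.F j → N.act .h x + r • x ∈ N.F (j + 1) :=
    fun j x hx => (N.F (j + 1)).add_mem (h.h_mem j x hx)
      ((N.F (j + 1)).smul_mem r (h.mono j (j + 1) (by omega) hx))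
  exact ⟨fun i j hij => h.mono i j hij, fun j x hx => key j x hx⟩

theorem isB_sh (r : k) (N : Sp k) (h : IsB N) : IsB (sh r N) := by
  have key : ∀ x : N.V, N.act .h (N.act .e x) + r • N.act .e x
      = N.act .e (N.act .h x + r • x) + (2 : k) • N.act .e x := by
    intro x
    rw [h.he, map_add, map_smul]
    abel
  exact ⟨isH_sh r N h.toIsH, fun j x hx => h.e_mem j x hx, fun x => key x⟩

theorem PF_mono (V : Type) [AddCommGroup V] [Module k V] (F : ℤ → Submodule k V)
    (mono : ∀ i j, i ≤ j → F i ≤ F j) (i j : ℤ) (hij : i ≤ j) : PF F i ≤ PF F j := by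
  intro p hp
  rw [mem_PF] at hp ⊢
  intro a
  exact mono _ _ (by omega) (hp a)

theorem isH_M3 (N : Sp k) (mono : ∀ i j, i ≤ j → N.F i ≤ N.F j) : IsH (M3 N) :=
  ⟨fun i j hij => PF_mono N.V N.F mono i j hij, fun j x hx => shift_mem N.V N.F j x hx⟩

/-- the operator `h` of `M2 N` -/
noncomputable def hM2 (N : Sp k) : (ℕ →₀ N.V) →ₗ[k] (ℕ →₀ N.V) :=
  Finsupp.lsum k (fun b : ℕ =>
        (Finsupp.lsingle b : N.V →ₗ[k] (ℕ →₀ N.V)) ∘ₗ
          (N.act .h + (2 * (b : k)) • LinearMap.id))

theorem M2_act_h (N : Sp k) : (M2 N).act .h = hM2 N := rfl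

theorem hM2_single (N : Sp k) (b : ℕ) (v : N.V) :
    hM2 N (Finsupp.single b v) = Finsupp.single b (N.act .h v + (2 * (b : k)) • v) := by
  unfold hM2
  rw [Finsupp.lsum_single]
  simp

theorem hM2_apply (N : Sp k) (p : ℕ →₀ N.V) (a : ℕ) :
    hM2 N p a = N.act .h (p a) + (2 * (a : k)) • p a := by
  induction p using Finsupp.induction_linear with
  | zero => simp
  | add p q hp hq =>
    rw [map_add, Finsupp.add_apply, hp, hq, Finsupp.add_apply, map_add, smul_add]
    abel
  | single b v =>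
    rw [hM2_single]
    by_cases hab : b = a
    · subst hab
      simp
    · rw [Finsupp.single_eq_of_ne' hab, Finsupp.single_eq_of_ne' hab]
      simp

theorem hM2_mem (N : Sp k) (h : IsH N) (j : ℤ) (x : ℕ →₀ N.V) (hx : x ∈ PF N.F j) :
    hM2 N x ∈ PF N.F (j + 1) := by
  rw [mem_PF] at hx ⊢
  intro a
  rw [hM2_apply]
  have h1 := h.h_mem _ _ (hx a)
  have h2 : j + 1 - (a : ℤ) = j - a + 1 := by ring
  rw [h2]
  exact (N.F _).add_mem h1 ((N.F _).smul_mem _ (h.mono _ _ (by omega) (hx a)))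

theorem hM2_shift (N : Sp k) (x : ℕ →₀ N.V) :
    hM2 N (shift k N.V x) = shift k N.V (hM2 N x) + (2 : k) • shift k N.V x := by
  apply Finsupp.ext
  intro a
  rw [hM2_apply, Finsupp.add_apply, Finsupp.smul_apply]
  cases a with
  | zero => rw [shift_apply_zero, shift_apply_zero]; simp
  | succ a =>
    rw [shift_apply_succ, shift_apply_succ, hM2_apply, add_assoc, ← add_smul]
    congr 2
    push_cast
    ring

theorem isB_M2 (N : Sp k) (h : IsH N) : IsB (M2 N) :=
  ⟨⟨fun i j hij => PF_mono N.V N.F h.mono i j hij, fun j x hx => hM2_mem N h j x hx⟩,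
    fun j x hx => shift_mem N.V N.F j x hx, fun x => hM2_shift N x⟩

end Vale.Agent.P176
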