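import Vale.Agent.Lib.P176.MRel1

/-!
# P176: `M1` of a Borel module is an `sl₂`-module

On `f^a w` (`= Finsupp.single a w`): `F = shift`, `H = h - 2a`, `E (f^a w) = f^a (e w) +
a f^{a-1} (h - (a-1)) w` (natural subtraction `a - 1`, the term for `a = 0` vanishes). Check
`EF - FE = H`, `HF - FH = -2F`, `HE - EH = 2E` on `single a w`, distinguishing `a = 0` and
`a = b + 1`. Filtration: `(M1 N).act .e` raises by one since `e, h` do.
-/

namespace Vale.Agent.P176

variable {k : Type} [Field k]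

section aux

variable {V : Type} [AddCommGroup V] [Module k V]

theorem MRel2_single_mem (F : ℤ → Submodule k V) (j : ℤ)
    (a : ℕ) (v : V) (hv : v ∈ F (j - a)) : (Finsupp.single a v : ℕ →₀ V) ∈ PF F j := by
  rw [mem_PF]
  intro b
  by_cases hb : a = b
  · subst hb; simpa using hv
  · rw [Finsupp.single_eq_of_ne (by omega)]
    exact (F _).zero_mem

theorem MRel2_ind {W : Type} [AddCommGroup W] [Module k W]
    (F : ℤ → Submodule k V) (S : Submodule k W) (j : ℤ) (L : (ℕ →₀ V) →ₗ[k] W)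
    (h : ∀ (a : ℕ) (v : V), v ∈ F (j - a) → L (Finsupp.single a v) ∈ S) (p : ℕ →₀ V)
    (hp : p ∈ PF F j) : L p ∈ S := by
  have h1 : L p = p.sum (fun a v => L (Finsupp.single a v)) := by
    conv_lhs => rw [← Finsupp.sum_single p]
    rw [Finsupp.sum, map_sum, Finsupp.sum]
  rw [h1, Finsupp.sum]
  exact Submodule.sum_mem _ fun a _ => h a (p a) (hp a)

theorem MRel2_ext {W : Type} [AddCommGroup W] [Module k W]
    (L M : (ℕ →₀ V) →ₗ[k] W)
    (h : ∀ (a : ℕ) (v : V), L (Finsupp.single a v) = M (Finsupp.single a v))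
    (p : ℕ →₀ V) : L p = M p := by
  have : L = M := by
    apply Finsupp.lhom_ext
    exact h
  rw [this]

/-- the operator `H` -/
noncomputable def MRel2H (h : V →ₗ[k] V) : (ℕ →₀ V) →ₗ[k] (ℕ →₀ V) :=
  Finsupp.lsum k (fun a : ℕ =>
        (Finsupp.lsingle a : V →ₗ[k] (ℕ →₀ V)) ∘ₗ
          (h - (2 * (a : k)) • LinearMap.id))

/-- the operator `E` -/
noncomputable def MRel2E (e h : V →ₗ[k] V) : (ℕ →₀ V) →ₗ[k] (ℕ →₀ V) :=
  Finsupp.lsum k (fun a : ℕ =>
        (Finsupp.lsingle a : V →ₗ[k] (ℕ →₀ V)) ∘ₗ e +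
        (a : k) • ((Finsupp.lsingle (a - 1) : V →ₗ[k] (ℕ →₀ V)) ∘ₗ
          (h - ((a : k) - 1) • LinearMap.id)))

theorem MRel2H_single (h : V →ₗ[k] V) (a : ℕ) (v : V) :
    MRel2H h (Finsupp.single a v) = Finsupp.single a (h v - (2 * (a : k)) • v) := by
  simp [MRel2H]

theorem MRel2E_single (e h : V →ₗ[k] V) (a : ℕ) (v : V) :
    MRel2E e h (Finsupp.single a v)
      = Finsupp.single a (e v) + (a : k) • Finsupp.single (a - 1)
          (h v - ((a : k) - 1) • v) := by
  simp [MRel2E]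

theorem MRel2E_zero (e h : V →ₗ[k] V) (v : V) :
    MRel2E e h (Finsupp.single 0 v) = Finsupp.single 0 (e v) := by
  rw [MRel2E_single]; simp

theorem MRel2E_succ (e h : V →ₗ[k] V) (a : ℕ) (v : V) :
    MRel2E e h (Finsupp.single (a + 1) v)
      = Finsupp.single (a + 1) (e v) + Finsupp.single a
          (((a : k) + 1) • (h v - (a : k) • v)) := by
  rw [MRel2E_single, Finsupp.smul_single]
  simp only [Nat.add_sub_cancel, Nat.cast_add, Nat.cast_one, add_sub_cancel_right]

theorem MRel2_ef (e h : V →ₗ[k] V) (p : ℕ →₀ V) :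
    MRel2E e h (shift k V p) = shift k V (MRel2E e h p) + MRel2H h p := by
  refine MRel2_ext (MRel2E e h ∘ₗ shift k V) (shift k V ∘ₗ MRel2E e h + MRel2H h)
    (fun a v => ?_) p
  simp only [LinearMap.comp_apply, LinearMap.add_apply, shift_single]
  rcases a with _ | b
  · simp only [MRel2E_succ, MRel2E_zero, MRel2H_single, shift_single]
    simp
  · simp only [MRel2E_succ, MRel2H_single, shift_single, map_add]
    rw [add_assoc (Finsupp.single _ _), ← Finsupp.single_add]
    refine congrArg₂ _ rfl ?_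
    refine congrArg _ ?_
    push_cast
    module

theorem MRel2_hf (h : V →ₗ[k] V) (p : ℕ →₀ V) :
    MRel2H h (shift k V p) = shift k V (MRel2H h p) - (2 : k) • shift k V p := by
  refine MRel2_ext (MRel2H h ∘ₗ shift k V) (shift k V ∘ₗ MRel2H h - (2 : k) • shift k V)
    (fun a v => ?_) p
  simp only [LinearMap.comp_apply, LinearMap.sub_apply, LinearMap.smul_apply, shift_single,
    MRel2H_single, Finsupp.smul_single]
  rw [← Finsupp.single_sub]
  congr 1
  push_cast
  module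

theorem MRel2_he (e h : V →ₗ[k] V) (heh : ∀ x, h (e x) = e (h x) + (2 : k) • e x)
    (p : ℕ →₀ V) :
    MRel2H h (MRel2E e h p) = MRel2E e h (MRel2H h p) + (2 : k) • MRel2E e h p := by
  refine MRel2_ext (MRel2H h ∘ₗ MRel2E e h) (MRel2E e h ∘ₗ MRel2H h + (2 : k) • MRel2E e h)
    (fun a v => ?_) p
  simp only [LinearMap.comp_apply, LinearMap.add_apply, LinearMap.smul_apply]
  rcases a with _ | b
  · simp only [MRel2E_zero, MRel2H_single, Finsupp.smul_single]
    rw [← Finsupp.single_add, heh]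
    congr 1
    simp
  · simp only [MRel2E_succ, MRel2H_single, map_add, smul_add, Finsupp.smul_single, heh, map_sub,
      map_smul]
    rw [add_add_add_comm, ← Finsupp.single_add, ← Finsupp.single_add]
    congr 2
    · push_cast
      module
    · push_cast
      module

theorem MRel2_h_mem (F : ℤ → Submodule k V) (hF : ∀ i j, i ≤ j → F i ≤ F j) (h : V →ₗ[k] V)
    (hh : ∀ j x, x ∈ F j → h x ∈ F (j + 1)) (j : ℤ) (a : ℕ) (v : V) (r : k)
    (hv : v ∈ F (j - a)) : h v - r • v ∈ F (j + 1 - a) := by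
  have h1 := hh _ _ hv
  have h2 : j - a + 1 = j + 1 - a := by ring
  rw [h2] at h1
  exact (F _).sub_mem h1 ((F _).smul_mem _ (hF _ _ (by omega) hv))

theorem MRel2H_mem (F : ℤ → Submodule k V) (hF : ∀ i j, i ≤ j → F i ≤ F j) (h : V →ₗ[k] V)
    (hh : ∀ j x, x ∈ F j → h x ∈ F (j + 1)) (j : ℤ) (p : ℕ →₀ V) (hp : p ∈ PF F j) :
    MRel2H h p ∈ PF F (j + 1) := by
  refine MRel2_ind F _ j (MRel2H h) (fun a v hv => ?_) p hp
  rw [MRel2H_single]
  exact MRel2_single_mem _ _ _ _ (MRel2_h_mem F hF h hh j a v _ hv)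

theorem MRel2E_mem (F : ℤ → Submodule k V) (hF : ∀ i j, i ≤ j → F i ≤ F j) (e h : V →ₗ[k] V)
    (hh : ∀ j x, x ∈ F j → h x ∈ F (j + 1)) (he : ∀ j x, x ∈ F j → e x ∈ F (j + 1))
    (j : ℤ) (p : ℕ →₀ V) (hp : p ∈ PF F j) :
    MRel2E e h p ∈ PF F (j + 1) := by
  refine MRel2_ind F _ j (MRel2E e h) (fun a v hv => ?_) p hp
  have h1 := he _ _ hv
  have h2 : j - a + 1 = j + 1 - a := by ring
  rw [h2] at h1
  rcases a with _ | b
  · rw [MRel2E_zero]
    exact MRel2_single_mem _ _ _ _ h1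
  · rw [MRel2E_succ]
    refine Submodule.add_mem _ (MRel2_single_mem _ _ _ _ h1) ?_
    refine MRel2_single_mem _ _ _ _ ((F _).smul_mem _ ?_)
    refine hF _ _ ?_ (MRel2_h_mem F hF h hh j (b + 1) v (b : k) hv)
    push_cast
    linarith

theorem MRel2F_mem (F : ℤ → Submodule k V) (j : ℤ) (p : ℕ →₀ V) (hp : p ∈ PF F j) :
    shift k V p ∈ PF F (j + 1) := by
  refine MRel2_ind F _ j (shift k V) (fun a v hv => ?_) p hp
  rw [shift_single]
  refine MRel2_single_mem _ _ _ _ ?_
  have h2 : j + 1 - ((a + 1 : ℕ) : ℤ) = j - a := by push_cast; ring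
  rw [h2]; exact hv

end aux

theorem isU_M1 (N : Sp k) (h : IsB N) : IsU (M1 N) where
  mono := fun i j hij p hp a => h.mono _ _ (by omega) (hp a)
  h_mem := MRel2H_mem N.F h.mono (N.act .h) h.h_mem
  e_mem := MRel2E_mem N.F h.mono (N.act .e) (N.act .h) h.h_mem h.e_mem
  he := MRel2_he (N.act .e) (N.act .h) h.he
  f_mem := MRel2F_mem N.F
  ef := MRel2_ef (N.act .e) (N.act .h)
  hf := MRel2_hf (N.act .h)

end Vale.Agent.P176
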