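import Vale.Agent.Lib.P176.MRel1

/-!
# P176: `T` of an `sl₂`-module is an `R`-module
-/

namespace Vale.Agent.P176

variable {k : Type} [Field k]

theorem MRelT_KK_apply (N : Sp k) (q : N.V × N.V) :
    KK N q = (N.act .h q.1 - (2 : k) • q.1 + (2 : k) • N.act .e q.2,
      (2 : k) • N.act .f q.1 - (N.act .h q.2 + (2 : k) • q.2)) := by
  simp [KK]

theorem MRelT_actV_e (N : Sp k) (q : N.V × N.V) :
    actV N .e q = (N.act .e q.1, N.act .e q.2 - q.1) := by
  simp [actV]

theorem MRelT_actV_f (N : Sp k) (q : N.V × N.V) :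
    actV N .f q = (N.act .f q.1 - q.2, N.act .f q.2) := by
  simp [actV]

theorem MRelT_actV_h (N : Sp k) (q : N.V × N.V) :
    actV N .h q = (N.act .h q.1 - q.1, N.act .h q.2 + q.2) := by
  simp [actV]

/-- the Casimir-type operator commutes with the `sl₂` action on `b1 Y + b2 Y` -/
theorem KK_comm_e (N : Sp k) (h : IsU N) (q : N.V × N.V) :
    KK N (actV N .e q) = actV N .e (KK N q) := by
  rw [MRelT_KK_apply, MRelT_KK_apply, MRelT_actV_e, MRelT_actV_e]
  ext
  · simp only [map_sub, map_add, map_smul, h.he]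
    module
  · simp only [map_sub, map_add, map_smul, h.he, h.ef]
    module

theorem KK_comm_f (N : Sp k) (h : IsU N) (q : N.V × N.V) :
    KK N (actV N .f q) = actV N .f (KK N q) := by
  rw [MRelT_KK_apply, MRelT_KK_apply, MRelT_actV_f, MRelT_actV_f]
  ext
  · simp only [map_sub, map_add, map_smul, h.hf, h.ef]
    module
  · simp only [map_sub, map_add, map_smul, h.hf]
    module

theorem KK_comm_h (N : Sp k) (h : IsU N) (q : N.V × N.V) :
    KK N (actV N .h q) = actV N .h (KK N q) := by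
  rw [MRelT_KK_apply, MRelT_KK_apply, MRelT_actV_h, MRelT_actV_h]
  ext
  · simp only [map_sub, map_add, map_smul, h.he, h.hf]
    module
  · simp only [map_sub, map_add, map_smul, h.hf]
    module

/-- `K` raises the filtration by one -/
theorem KK_mem (N : Sp k) (h : IsU N) (j : ℤ) (q : N.V × N.V)
    (h1 : q.1 ∈ N.F j) (h2 : q.2 ∈ N.F j) : (KK N q).1 ∈ N.F (j + 1) ∧ (KK N q).2 ∈ N.F (j + 1) := by
  rw [MRelT_KK_apply]
  have m : N.F j ≤ N.F (j + 1) := h.mono _ _ (by omega)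
  refine ⟨?_, ?_⟩
  · exact (N.F _).add_mem ((N.F _).sub_mem (h.h_mem _ _ h1) ((N.F _).smul_mem _ (m h1)))
      ((N.F _).smul_mem _ (h.e_mem _ _ h2))
  · exact (N.F _).sub_mem ((N.F _).smul_mem _ (h.f_mem _ _ h1))
      ((N.F _).add_mem (h.h_mem _ _ h2) ((N.F _).smul_mem _ (m h2)))

theorem KK_pow_mem (N : Sp k) (h : IsU N) (l : ℕ) (j : ℤ) (q : N.V × N.V)
    (h1 : q.1 ∈ N.F j) (h2 : q.2 ∈ N.F j) :
    ((KK N ^ l) q).1 ∈ N.F (j + l) ∧ ((KK N ^ l) q).2 ∈ N.F (j + l) := by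
  induction l with
  | zero => simpa using ⟨h1, h2⟩
  | succ l ih =>
    have h3 := KK_mem N h (j + l) ((KK N ^ l) q) ih.1 ih.2
    rw [pow_succ', Module.End.mul_apply]
    have h4 : j + ((l + 1 : ℕ) : ℤ) = j + l + 1 := by push_cast; ring
    rw [h4]
    exact h3

end Vale.Agent.P176
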