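import Vale.Agent.Lib.P176.Win
import Vale.Agent.Lib.P176.MHomP
import Vale.Agent.Lib.P176.MRelT2

/-!
# P176: windows of retracts; the modules `T (M1 (M2 (M3 Y)))` for `Y` finite-dimensional in degree `0`
-/

namespace Vale.Agent.P176

variable {k : Type} [Field k]

/-! ### families `P l : N → M`, `Q l : M → N` with `∑ Q l ∘ P l = id` -/

/-- the identity of `N` is a sum of maps that factor through `M` -/
structure Fac (N M : Sp k) {n : ℕ} (P : Fin n → N.V →ₗ[k] M.V) (Q : Fin n → M.V →ₗ[k] N.V) :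
    Prop where
  P_hom : ∀ l, HomR N M (P l)
  Q_hom : ∀ l, HomR M N (Q l)
  P_mem : ∀ l j x, x ∈ N.F j → P l x ∈ M.F j
  Q_mem : ∀ l j x, x ∈ M.F j → Q l x ∈ N.F j
  sum : ∀ x, ∑ l, Q l (P l x) = x

theorem W_sum_apply (N : Sp k) (hN : IsR N) (i : ℤ) {ι : Type*} (t : Finset ι)
    (w : ι → W N hN i) (j : Fin 5) : (∑ l ∈ t, w l).1 j = ∑ l ∈ t, (w l).1 j := by
  classical
  induction t using Finset.induction_on with
  | empty => rfl
  | insert a t ha ih => rw [Finset.sum_insert ha, Finset.sum_insert ha, W_add_apply, ih]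

theorem Fac.projective {N M : Sp k} {n : ℕ} {P : Fin n → N.V →ₗ[k] M.V}
    {Q : Fin n → M.V →ₗ[k] N.V} (h : Fac N M P Q) (hN : IsR N) (hM : IsR M) (i : ℤ)
    (hp : Module.Projective (A k) (W M hM i)) : Module.Projective (A k) (W N hN i) := by
  have hp3 : Module.Projective (A k) (Fin n → W M hM i) :=
    Module.Projective.of_equiv (DFinsupp.linearEquivFunOnFintype (R := A k)
      (M := fun _ : Fin n => W M hM i))
  let f : W N hN i →ₗ[A k] (Fin n → W M hM i) :=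
    LinearMap.pi fun l => Wmap0 N M hN hM (P l) (h.P_hom l) (h.P_mem l) i
  let g : (Fin n → W M hM i) →ₗ[A k] W N hN i :=
    LinearMap.lsum (A k) (fun _ => W M hM i) ℕ
      fun l => Wmap0 M N hM hN (Q l) (h.Q_hom l) (h.Q_mem l) i
  refine Module.Projective.of_split f g (LinearMap.ext fun w => ?_)
  apply W_ext
  intro j
  change (g (f w)).1 j = w.1 j
  have e : g (f w) = ∑ l, Wmap0 M N hM hN (Q l) (h.Q_hom l) (h.Q_mem l) i
      (Wmap0 N M hN hM (P l) (h.P_hom l) (h.P_mem l) i w) := by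
    simp [g, f, LinearMap.lsum_apply, LinearMap.sum_apply]
  rw [e, W_sum_apply]
  exact h.sum _

theorem Fac.hom_eq_zero {N M : Sp k} {n : ℕ} {P : Fin n → N.V →ₗ[k] M.V}
    {Q : Fin n → M.V →ₗ[k] N.V} (h : Fac N M P Q) (hN : IsR N) (hM : IsR M) (i : ℤ)
    {S : Type*} [AddCommGroup S] [Module (A k) S]
    (hz : ∀ φ : W M hM i →ₗ[A k] S, φ = 0) (φ : W N hN i →ₗ[A k] S) : φ = 0 := by
  ext w
  have e : w = ∑ l, Wmap0 M N hM hN (Q l) (h.Q_hom l) (h.Q_mem l) i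
      (Wmap0 N M hN hM (P l) (h.P_hom l) (h.P_mem l) i w) := by
    apply W_ext
    intro j
    rw [W_sum_apply]
    exact (h.sum _).symm
  rw [e, map_sum, LinearMap.zero_apply]
  refine Finset.sum_eq_zero fun l _ => ?_
  have := hz (φ ∘ₗ Wmap0 M N hM hN (Q l) (h.Q_hom l) (h.Q_mem l) i)
  have h2 := LinearMap.congr_fun this (Wmap0 N M hN hM (P l) (h.P_hom l) (h.P_mem l) i w)
  exact h2

/-- nonzero maps extend along a retraction `p : N → M`, `p ∘ q = id` -/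
theorem exists_hom_ne_zero_of_retract {N M : Sp k} (hN : IsR N) (hM : IsR M)
    (p : N.V →ₗ[k] M.V) (q : M.V →ₗ[k] N.V) (hp : HomR N M p) (hq : HomR M N q)
    (hpm : ∀ j x, x ∈ N.F j → p x ∈ M.F j) (hqm : ∀ j x, x ∈ M.F j → q x ∈ N.F j)
    (hpq : ∀ x, p (q x) = x) (i : ℤ) {S : Type*} [AddCommGroup S] [Module (A k) S]
    (hz : ∃ φ : W M hM i →ₗ[A k] S, φ ≠ 0) : ∃ φ : W N hN i →ₗ[A k] S, φ ≠ 0 := by
  obtain ⟨φ, hφ⟩ := hz
  refine ⟨φ ∘ₗ Wmap0 N M hN hM p hp hpm i, fun h0 => hφ ?_⟩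
  ext w
  have h2 := LinearMap.congr_fun h0 (Wmap0 M N hM hN q hq hqm i w)
  have e : Wmap0 N M hN hM p hp hpm i (Wmap0 M N hM hN q hq hqm i w) = w := by
    apply W_ext
    intro j
    exact hpq _
  rw [LinearMap.comp_apply, e] at h2
  exact h2

/-! ### functoriality of the free modules -/

theorem win2_Pmap_apply {V V' : Type} [AddCommGroup V] [Module k V] [AddCommGroup V'] [Module k V']
    (φ : V →ₗ[k] V') (p : ℕ →₀ V) (a : ℕ) : Pmap φ p a = φ (p a) := rfl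

theorem win2_Pmap_mem {V V' : Type} [AddCommGroup V] [Module k V] [AddCommGroup V'] [Module k V']
    {φ : V →ₗ[k] V'} {F : ℤ → Submodule k V} {G : ℤ → Submodule k V'}
    (h : ∀ j x, x ∈ F j → φ x ∈ G j) (j : ℤ) (p : ℕ →₀ V) (hp : p ∈ PF F j) :
    Pmap φ p ∈ PF G j := by
  intro a
  exact h _ _ (hp a)

theorem win2_Pmap_sum {V V' : Type} [AddCommGroup V] [Module k V] [AddCommGroup V'] [Module k V']
    {n : ℕ} {P : Fin n → V →ₗ[k] V'} {Q : Fin n → V' →ₗ[k] V} (h : ∀ x, ∑ l, Q l (P l x) = x)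
    (x : ℕ →₀ V) : ∑ l, Pmap (Q l) (Pmap (P l) x) = x := by
  ext a
  rw [Finsupp.finsetSum_apply]
  exact h _

theorem win2_Pmap_retract {V V' : Type} [AddCommGroup V] [Module k V] [AddCommGroup V']
    [Module k V'] {p : V →ₗ[k] V'} {q : V' →ₗ[k] V} (h : ∀ x, p (q x) = x)
    (x : ℕ →₀ V') : Pmap p (Pmap q x) = x := by
  ext a
  exact h _

theorem win2_Tmap_mem {N M : Sp k} {φ : N.V →ₗ[k] M.V}
    (h : ∀ j x, x ∈ N.F j → φ x ∈ M.F j) (j : ℤ) (x : (T N).V) (hx : x ∈ (T N).F j) :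
    Tmap φ x ∈ (T M).F j := by
  obtain ⟨h1, h2, h3⟩ := hx
  exact ⟨win2_Pmap_mem h j _ h1, h _ _ h2, h _ _ h3⟩

theorem win2_Tmap_sum {V V' : Type} [AddCommGroup V] [Module k V] [AddCommGroup V'] [Module k V']
    {n : ℕ} {P : Fin n → V →ₗ[k] V'} {Q : Fin n → V' →ₗ[k] V} (h : ∀ x, ∑ l, Q l (P l x) = x)
    (x : (ℕ →₀ V) × (V × V)) : ∑ l, Tmap (Q l) (Tmap (P l) x) = x := by
  obtain ⟨x, y, z⟩ := x
  have e : ∀ l, Tmap (Q l) (Tmap (P l) (x, y, z))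
      = (Pmap (Q l) (Pmap (P l) x), Q l (P l y), Q l (P l z)) := fun l => rfl
  simp only [e]
  refine Prod.ext ?_ (Prod.ext ?_ ?_)
  · rw [Prod.fst_sum]
    exact win2_Pmap_sum h x
  · rw [Prod.snd_sum, Prod.fst_sum]
    exact h y
  · rw [Prod.snd_sum, Prod.snd_sum]
    exact h z

theorem win2_Tmap_retract {V V' : Type} [AddCommGroup V] [Module k V] [AddCommGroup V']
    [Module k V'] {p : V →ₗ[k] V'} {q : V' →ₗ[k] V} (h : ∀ x, p (q x) = x)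
    (x : (ℕ →₀ V') × (V' × V')) : Tmap p (Tmap q x) = x :=
  Prod.ext (win2_Pmap_retract h x.1) (Prod.ext (h _) (h _))

/-- `T M1 M2 M3` on linear maps -/
noncomputable def TMmap {N M : Sp k} (φ : N.V →ₗ[k] M.V) :
    (T (M1 (M2 (M3 N)))).V →ₗ[k] (T (M1 (M2 (M3 M)))).V := Tmap (Pmap (Pmap (Pmap φ)))

theorem TMmap_hom {N M : Sp k} (φ : N.V →ₗ[k] M.V) :
    HomR (T (M1 (M2 (M3 N)))) (T (M1 (M2 (M3 M)))) (TMmap φ) :=
  homR_T (homU_M1 (homB_M2 (homH_M3 φ)))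

theorem TMmap_mem {N M : Sp k} {φ : N.V →ₗ[k] M.V}
    (h : ∀ j x, x ∈ N.F j → φ x ∈ M.F j) (j : ℤ) (x : (T (M1 (M2 (M3 N)))).V)
    (hx : x ∈ (T (M1 (M2 (M3 N)))).F j) : TMmap φ x ∈ (T (M1 (M2 (M3 M)))).F j :=
  win2_Tmap_mem (N := M1 (M2 (M3 N))) (M := M1 (M2 (M3 M)))
    (fun j x hx => win2_Pmap_mem (fun j x hx => win2_Pmap_mem
      (fun j x hx => win2_Pmap_mem h j x hx) j x hx) j x hx) j x hx

/-! ### `Y` finite-dimensional in degree `0` -/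

section

variable {Y : Sp k} (hY : ConcZero Y)

include hY

theorem win2_to_Sp1_mem (p : Y.V →ₗ[k] (Sp1 k).V) (j : ℤ) (x : Y.V) (hx : x ∈ Y.F j) :
    p x ∈ (Sp1 k).F j := by
  rcases lt_or_ge j 0 with h | h
  · rw [hY.2 j h, Submodule.mem_bot] at hx
    rw [hx, map_zero]
    exact Submodule.zero_mem _
  · rw [Sp1_F_of_nonneg j h]
    exact Submodule.mem_top

theorem win2_of_Sp1_mem (q : (Sp1 k).V →ₗ[k] Y.V) (j : ℤ) (x : (Sp1 k).V)
    (hx : x ∈ (Sp1 k).F j) : q x ∈ Y.F j := by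
  rcases lt_or_ge j 0 with h | h
  · rw [Sp1_F_of_neg j h, Submodule.mem_bot] at hx
    rw [hx, map_zero]
    exact Submodule.zero_mem _
  · rw [hY.1 j h]
    exact Submodule.mem_top

theorem win2_fac [Module.Finite k Y.V] : ∃ (n : ℕ)
    (P : Fin n → (T (M1 (M2 (M3 Y)))).V →ₗ[k] (T (M1 (M2 (M3 (Sp1 k))))).V)
    (Q : Fin n → (T (M1 (M2 (M3 (Sp1 k))))).V →ₗ[k] (T (M1 (M2 (M3 Y)))).V),
    Fac (T (M1 (M2 (M3 Y)))) (T (M1 (M2 (M3 (Sp1 k))))) P Q := by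
  let b := Module.finBasis k Y.V
  let p : Fin (Module.finrank k Y.V) → Y.V →ₗ[k] (Sp1 k).V := fun l => b.coord l
  let q : Fin (Module.finrank k Y.V) → (Sp1 k).V →ₗ[k] Y.V := fun l =>
    LinearMap.toSpanSingleton k Y.V (b l)
  have hpq : ∀ x, ∑ l, q l (p l x) = x := fun x => b.sum_repr x
  refine ⟨Module.finrank k Y.V, fun l => TMmap (p l), fun l => TMmap (q l), ?_⟩
  exact
    { P_hom := fun l => TMmap_hom _
      Q_hom := fun l => TMmap_hom _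
      P_mem := fun l => TMmap_mem (win2_to_Sp1_mem hY _)
      Q_mem := fun l => TMmap_mem (win2_of_Sp1_mem hY _)
      sum := win2_Tmap_sum (win2_Pmap_sum (win2_Pmap_sum (win2_Pmap_sum hpq))) }

/-- `Q0` is projective -/
theorem Q0_projective [Module.Finite k Y.V] (hQ : IsR (T (M1 (M2 (M3 Y)))))
    {hR : IsR (T (M1 (M2 (M3 (Sp1 k)))))} {u : (T (M1 (M2 (M3 (Sp1 k))))).V}
    (hu : Free1 (T (M1 (M2 (M3 (Sp1 k))))) hR u) (i : ℤ) (h0 : 0 ≤ i) (h4 : i ≤ 4) :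
    Module.Projective (A k) (W (T (M1 (M2 (M3 Y)))) hQ i) := by
  obtain ⟨n, P, Q, h⟩ := win2_fac hY
  exact h.projective hQ hR i (hu.projective_int i h0 h4)

theorem Q0_hom_S4_eq_zero [Module.Finite k Y.V] (hQ : IsR (T (M1 (M2 (M3 Y)))))
    {hR : IsR (T (M1 (M2 (M3 (Sp1 k)))))} {u : (T (M1 (M2 (M3 (Sp1 k))))).V}
    (hu : Free1 (T (M1 (M2 (M3 (Sp1 k))))) hR u) (i : ℤ) (h0 : 0 ≤ i) (h4 : i < 4)
    (φ : W (T (M1 (M2 (M3 Y)))) hQ i →ₗ[A k] S4 k) : φ = 0 := by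
  obtain ⟨n, P, Q, h⟩ := win2_fac hY
  exact h.hom_eq_zero hQ hR i (hu.hom_S4_eq_zero_int i h0 h4) φ

theorem Q0_exists_hom_S4_ne_zero [Nontrivial Y.V] (hQ : IsR (T (M1 (M2 (M3 Y)))))
    {hR : IsR (T (M1 (M2 (M3 (Sp1 k)))))} {u : (T (M1 (M2 (M3 (Sp1 k))))).V}
    (hu : Free1 (T (M1 (M2 (M3 (Sp1 k))))) hR u) :
    ∃ φ : W (T (M1 (M2 (M3 Y)))) hQ 4 →ₗ[A k] S4 k, φ ≠ 0 := by
  obtain ⟨y, hy⟩ := exists_ne (0 : Y.V)
  obtain ⟨p, hp⟩ : ∃ p : Y.V →ₗ[k] k, p y = 1 := by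
    have h1 : ¬ ∀ φ : Module.Dual k Y.V, φ y = 0 := fun h =>
      hy ((Module.forall_dual_apply_eq_zero_iff k y).1 h)
    push Not at h1
    obtain ⟨φ, hφ⟩ := h1
    refine ⟨(φ y)⁻¹ • φ, ?_⟩
    rw [LinearMap.smul_apply, smul_eq_mul, inv_mul_cancel₀ hφ]
  let q : (Sp1 k).V →ₗ[k] Y.V := LinearMap.toSpanSingleton k Y.V y
  have hpq0 : ∀ x : k, p (LinearMap.toSpanSingleton k Y.V y x) = x := by
    intro x
    rw [LinearMap.toSpanSingleton_apply, map_smul, hp, smul_eq_mul, mul_one]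
  have hpq : ∀ x : (Sp1 k).V, (p : Y.V →ₗ[k] (Sp1 k).V) (q x) = x := hpq0
  exact exists_hom_ne_zero_of_retract hQ hR (TMmap (p : Y.V →ₗ[k] (Sp1 k).V)) (TMmap q)
    (TMmap_hom _) (TMmap_hom _) (TMmap_mem (win2_to_Sp1_mem hY _))
    (TMmap_mem (win2_of_Sp1_mem hY _))
    (win2_Tmap_retract (win2_Pmap_retract (win2_Pmap_retract (win2_Pmap_retract hpq)))) 4
    hu.exists_hom_S4_ne_zero

end

end Vale.Agent.P176
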