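import Vale.Agent.Lib.P176.Seq
import Vale.Agent.Lib.P176.Win
import Vale.Agent.Lib.P176.Win2
import Vale.Agent.Lib.P176.Iso
import Vale.Agent.Lib.P176.En
import Vale.Agent.Lib.P176.FinD

/-!
# P176: assembly
-/

namespace Vale.Agent.P176

open CategoryTheory

section

variable {k : Type} [Field k]

theorem concZero_sh (r : k) {N : Sp k} (h : ConcZero N) : ConcZero (sh r N) := h

/-! ### projective dimensions -/

theorem pd_Q0 (Y : Sp k) (hY : IsH Y) (hc : ConcZero Y) [Module.Finite k Y.V] (i : ℤ)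
    (h0 : 0 ≤ i) (h4 : i ≤ 4) : PL (Q0 Y hY i) 1 := by
  have h1 : Module.Projective (A k) (W (T (M1 (M2 (M3 Y)))) (isR_Q0 Y hY) i) :=
    Q0_projective hc (isR_Q0 Y hY) free1_MM i h0 h4
  have h2 : Projective (Q0 Y hY i) :=
    (IsProjective.iff_projective (R := A k) (W (T (M1 (M2 (M3 Y)))) (isR_Q0 Y hY) i)).1 h1
  infer_instance

theorem hom_Q0_zero (Y : Sp k) (hY : IsH Y) (hc : ConcZero Y) [Module.Finite k Y.V] (i : ℤ)
    (h0 : 0 ≤ i) (h4 : i < 4) (φ : Q0 Y hY i ⟶ WM (Sp1 k) isR_Sp1 4) : φ = 0 :=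
  ModuleCat.hom_ext (Q0_hom_S4_eq_zero hc (isR_Q0 Y hY) free1_MM i h0 h4 φ.hom)

theorem hom_Q0_ne (Y : Sp k) (hY : IsH Y) (hc : ConcZero Y) [Module.Finite k Y.V]
    [Nontrivial Y.V] : ∃ φ : Q0 Y hY 4 ⟶ WM (Sp1 k) isR_Sp1 4, φ ≠ 0 := by
  obtain ⟨φ, hφ⟩ := Q0_exists_hom_S4_ne_zero hc (isR_Q0 Y hY) free1_MM
  exact ⟨ModuleCat.ofHom φ, fun h => hφ (by rw [← ModuleCat.hom_ofHom φ, h]; rfl)⟩

instance (r : k) (N : Sp k) [h : Module.Finite k N.V] : Module.Finite k (sh r N).V := h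

instance (r : k) (N : Sp k) [h : Nontrivial N.V] : Nontrivial (sh r N).V := h

theorem pd_Q1 (Z : Sp k) (hZ : IsH Z) (hc : ConcZero Z) [Module.Finite k Z.V] (i : ℤ)
    (h0 : 0 ≤ i) (h4 : i ≤ 3) : PL (Q1 Z hZ i) 2 :=
  (seq_h Z hZ i).p3 (pd_Q0 Z hZ hc (i + 1) (by omega) (by omega))
    ((pd_Q0 Z hZ hc i h0 (by omega)).mono (by omega))

theorem pd_Q2 (B : Sp k) (hB : IsB B) (hc : ConcZero B) [Module.Finite k B.V] (i : ℤ)
    (h0 : 0 ≤ i) (h4 : i ≤ 2) : PL (Q2 B hB i) 3 :=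
  (seq_e B hB i).p3 (pd_Q1 (sh 2 B) _ (concZero_sh 2 hc) (i + 1) (by omega) (by omega))
    ((pd_Q1 B _ hc i h0 (by omega)).mono (by omega))

theorem pd_Q3 (E : Sp k) (hE : IsU E) (hc : ConcZero E) [Module.Finite k E.V] (i : ℤ)
    (h0 : 0 ≤ i) (h4 : i ≤ 1) : PL (Q3 E hE i) 4 :=
  (seq_f E hE i).p3 (pd_Q2 (sh (-2) E) _ (concZero_sh (-2) hc) (i + 1) (by omega) (by omega))
    ((pd_Q2 E _ hc i h0 (by omega)).mono (by omega))

/-! ### the base of the induction -/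

section

variable (k) in
/-- the simple module at the last vertex -/
noncomputable abbrev SS : ModuleCat.{0} (A k) := WM (Sp1 k) isR_Sp1 4

theorem ez0_Q0 (Y : Sp k) (hY : IsH Y) (hc : ConcZero Y) [Module.Finite k Y.V] (i : ℤ)
    (h0 : 0 ≤ i) (h4 : i < 4) : EZ.{0} (Q0 Y hY i) (SS k) 0 :=
  ez_zero_iff.2 fun φ => hom_Q0_zero Y hY hc i h0 h4 φ

theorem not_ez0_Q0 (Y : Sp k) (hY : IsH Y) (hc : ConcZero Y) [Module.Finite k Y.V]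
    [Nontrivial Y.V] : ¬ EZ.{0} (Q0 Y hY 4) (SS k) 0 := by
  intro h
  obtain ⟨φ, hφ⟩ := hom_Q0_ne Y hY hc
  exact hφ (ez_zero_iff.1 h φ)

/-- `Ext^1(Q1(Z, i), S) = 0` for `i ≤ 2` -/
theorem ez1_Q1 (Z : Sp k) (hZ : IsH Z) (hc : ConcZero Z) [Module.Finite k Z.V] (i : ℤ)
    (h0 : 0 ≤ i) (h4 : i ≤ 2) : EZ.{0} (Q1 Z hZ i) (SS k) 1 :=
  (seq_h Z hZ i).ez3 (ez0_Q0 Z hZ hc (i + 1) (by omega) (by omega))
    ((pd_Q0 Z hZ hc i h0 (by omega)).ez _ (by omega))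

theorem not_ez1_Q1 (Z : Sp k) (hZ : IsH Z) (hc : ConcZero Z) [Module.Finite k Z.V]
    [Nontrivial Z.V] : ¬ EZ.{0} (Q1 Z hZ 3) (SS k) 1 := by
  intro h
  exact not_ez0_Q0 Z hZ hc ((seq_h Z hZ 3).ez1 (ez0_Q0 Z hZ hc 3 (by omega) (by omega)) h)

theorem ez2_Q2 (B : Sp k) (hB : IsB B) (hc : ConcZero B) [Module.Finite k B.V] (i : ℤ)
    (h0 : 0 ≤ i) (h4 : i ≤ 1) : EZ.{0} (Q2 B hB i) (SS k) 2 :=
  (seq_e B hB i).ez3 (ez1_Q1 (sh 2 B) _ (concZero_sh 2 hc) (i + 1) (by omega) (by omega))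
    ((pd_Q1 B _ hc i h0 (by omega)).ez _ (by omega))

theorem not_ez2_Q2 (B : Sp k) (hB : IsB B) (hc : ConcZero B) [Module.Finite k B.V]
    [Nontrivial B.V] : ¬ EZ.{0} (Q2 B hB 2) (SS k) 2 := by
  intro h
  exact not_ez1_Q1 (sh 2 B) _ (concZero_sh 2 hc)
    ((seq_e B hB 2).ez1 (ez1_Q1 B _ hc 2 (by omega) (by omega)) h)

theorem ez3_Q3 (E : Sp k) (hE : IsU E) (hc : ConcZero E) [Module.Finite k E.V] (i : ℤ)
    (h0 : 0 ≤ i) (h4 : i ≤ 0) : EZ.{0} (Q3 E hE i) (SS k) 3 :=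
  (seq_f E hE i).ez3 (ez2_Q2 (sh (-2) E) _ (concZero_sh (-2) hc) (i + 1) (by omega) (by omega))
    ((pd_Q2 E _ hc i h0 (by omega)).ez _ (by omega))

theorem not_ez3_Q3 (E : Sp k) (hE : IsU E) (hc : ConcZero E) [Module.Finite k E.V]
    [Nontrivial E.V] : ¬ EZ.{0} (Q3 E hE 1) (SS k) 3 := by
  intro h
  exact not_ez2_Q2 (sh (-2) E) _ (concZero_sh (-2) hc)
    ((seq_f E hE 1).ez1 (ez2_Q2 E _ hc 1 (by omega) (by omega)) h)

end

/-! ### the main theorem -/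

variable (k) in
/-- the module `E_{n-1}` over the window algebra `A` -/
noncomputable abbrev GM (n : ℕ) : ModuleCat.{0} (A k) := WM (G k n) (isR_G n) 0

theorem isZero_GM : Limits.IsZero (GM k 0) := by
  have := subsingleton_G (k := k)
  have h : Subsingleton (W (G k 0) (isR_G 0) 0) :=
    ⟨fun v w => W_ext _ _ _ v w fun j => Subsingleton.elim _ _⟩
  exact @ModuleCat.isZero_of_subsingleton _ _ (GM k 0) h

theorem finite_GM (n : ℕ) : Module.Finite (A k) (GM k n) :=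
  W_finite (G k n) (isR_G n) 0

variable [CharZero k]

/-- the sequences alpha and beta -/
theorem alphaBeta' (n : ℕ) : ∃ I X : ModuleCat.{0} (A k),
    SES (GM k n) (Q3 (G k (n + 1)) (isU_G (n + 1)) 1) I ∧
    SES I (Q3 (G k (n + 1)) (isU_G (n + 1)) 0) X ∧
    SES (GM k n) X (GM k (n + 1)) := by
  obtain ⟨I, X, f₁, g₁, w₁, f₂, g₂, w₂, f₃, g₃, w₃, h1, h2, h3⟩ := alphaBeta (k := k) n
  exact ⟨I, X, ⟨f₁, g₁, w₁, h1⟩, ⟨f₂, g₂, w₂, h2⟩, ⟨f₃, g₃, w₃, h3⟩⟩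

/-- `pd E_0 ≥ 4` -/
theorem base : ¬ PL (GM k 1) 4 := by
  intro h
  obtain ⟨I, X, s1, s2, s3⟩ := alphaBeta' (k := k) 0
  have hG0 : PL (GM k 0) 0 := isZero_GM.hasProjectiveDimensionLT_zero
  have := nontrivial_G (k := k) 0
  have hX : PL X 4 := s3.p2 (hG0.mono (by omega)) h
  have hI : EZ.{0} I (SS k) 3 :=
    s2.ez1 (ez3_Q3 _ _ (concZero_G 1) 0 le_rfl le_rfl) (hX.ez _ le_rfl)
  have hQ : EZ.{0} (Q3 (G k 1) (isU_G 1) 1) (SS k) 3 :=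
    s1.ez2 (hG0.ez _ (by omega)) hI
  exact not_ez3_Q3 _ _ (concZero_G 1) hQ

theorem pd_GM (n : ℕ) : projectiveDimension (GM k (n + 1)) = ((4 + 2 * n : ℕ) : WithBot ℕ∞) := by
  choose I X s1 s2 s3 using alphaBeta' (k := k)
  exact abs_main (GM k) X I _ _ isZero_GM s1 s2 s3
    (fun n => pd_Q3 _ _ (concZero_G (n + 1)) 1 (by omega) le_rfl)
    (fun n => pd_Q3 _ _ (concZero_G (n + 1)) 0 le_rfl (by omega)) base n

end

end Vale.Agent.P176
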