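import Vale.Agent.Lib.P176.Ring

/-!
# P176: maps of windows, short exact sequences of windows

`Wm` is the map of windows `W M i' → W N i` induced by an equivariant map `φ` that respects the
filtrations on the window levels `0, …, 4`.
-/

namespace Vale.Agent.P176

open CategoryTheory

variable {k : Type} [Field k]

/-- map of windows (only the levels `j = 0, …, 4` matter) -/
noncomputable def Wm (M N : Sp k) (hM : IsR M) (hN : IsR N) (φ : M.V →ₗ[k] N.V)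
    (hφ : HomR M N φ) (i' i : ℤ)
    (h : ∀ j : Fin 5, ∀ x, x ∈ M.F ((j : ℕ) - i' : ℤ) → φ x ∈ N.F ((j : ℕ) - i : ℤ)) :
    W M hM i' →ₗ[A k] W N hN i where
  toFun w := ⟨fun j => φ (w.1 j), fun j => h j _ (w.2 j)⟩
  map_add' v w := by
    apply W_ext
    intro j
    exact map_add φ _ _
  map_smul' a w := by
    apply W_ext
    intro j
    change φ (∑ l, rho M hM (a.1 j l) (w.1 l)) = ∑ l, rho N hN (a.1 j l) (φ (w.1 l))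
    rw [map_sum]
    refine Finset.sum_congr rfl (fun l _ => ?_)
    exact homR_rho M N hM hN φ hφ _ _

@[simp] theorem Wm_apply (M N : Sp k) (hM : IsR M) (hN : IsR N) (φ : M.V →ₗ[k] N.V)
    (hφ : HomR M N φ) (i' i : ℤ)
    (h : ∀ j : Fin 5, ∀ x, x ∈ M.F ((j : ℕ) - i' : ℤ) → φ x ∈ N.F ((j : ℕ) - i : ℤ))
    (w : W M hM i') (j : Fin 5) : (Wm M N hM hN φ hφ i' i h w).1 j = φ (w.1 j) := rfl

theorem Wm_injective (M N : Sp k) (hM : IsR M) (hN : IsR N) (φ : M.V →ₗ[k] N.V)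
    (hφ : HomR M N φ) (i' i : ℤ)
    (h : ∀ j : Fin 5, ∀ x, x ∈ M.F ((j : ℕ) - i' : ℤ) → φ x ∈ N.F ((j : ℕ) - i : ℤ))
    (inj : ∀ j : Fin 5, ∀ x, x ∈ M.F ((j : ℕ) - i' : ℤ) → φ x = 0 → x = 0) :
    Function.Injective (Wm M N hM hN φ hφ i' i h) := by
  intro v w hvw
  apply W_ext
  intro j
  have h1 : φ (v.1 j) = φ (w.1 j) := congrFun (congrArg Subtype.val hvw) j
  have h2 : v.1 j - w.1 j ∈ M.F ((j : ℕ) - i' : ℤ) := Submodule.sub_mem _ (v.2 j) (w.2 j)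
  exact sub_eq_zero.1 (inj j _ h2 (by rw [map_sub, h1, sub_self]))

theorem Wm_surjective (M N : Sp k) (hM : IsR M) (hN : IsR N) (φ : M.V →ₗ[k] N.V)
    (hφ : HomR M N φ) (i' i : ℤ)
    (h : ∀ j : Fin 5, ∀ x, x ∈ M.F ((j : ℕ) - i' : ℤ) → φ x ∈ N.F ((j : ℕ) - i : ℤ))
    (surj : ∀ j : Fin 5, ∀ z, z ∈ N.F ((j : ℕ) - i : ℤ) →
      ∃ y, y ∈ M.F ((j : ℕ) - i' : ℤ) ∧ φ y = z) :
    Function.Surjective (Wm M N hM hN φ hφ i' i h) := by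
  intro w
  choose x hx hfx using fun j => surj j (w.1 j) (w.2 j)
  exact ⟨⟨x, hx⟩, W_ext _ _ _ _ _ hfx⟩

/-- exactness in the middle -/
theorem Wm_exact (L M N : Sp k) (hL : IsR L) (hM : IsR M) (hN : IsR N)
    (φ : L.V →ₗ[k] M.V) (ψ : M.V →ₗ[k] N.V)
    (hφ : HomR L M φ) (hψ : HomR M N ψ) (i₁ i₂ i₃ : ℤ)
    (h1 : ∀ j : Fin 5, ∀ x, x ∈ L.F ((j : ℕ) - i₁ : ℤ) → φ x ∈ M.F ((j : ℕ) - i₂ : ℤ))
    (h2 : ∀ j : Fin 5, ∀ x, x ∈ M.F ((j : ℕ) - i₂ : ℤ) → ψ x ∈ N.F ((j : ℕ) - i₃ : ℤ))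
    (comp : ∀ j : Fin 5, ∀ x, x ∈ L.F ((j : ℕ) - i₁ : ℤ) → ψ (φ x) = 0)
    (lift : ∀ j : Fin 5, ∀ y, y ∈ M.F ((j : ℕ) - i₂ : ℤ) → ψ y = 0 →
      ∃ x, x ∈ L.F ((j : ℕ) - i₁ : ℤ) ∧ φ x = y) :
    Function.Exact (Wm L M hL hM φ hφ i₁ i₂ h1) (Wm M N hM hN ψ hψ i₂ i₃ h2) := by
  intro w
  constructor
  · intro hw
    choose x hx hfx using fun j => lift j (w.1 j) (w.2 j)
      (congrFun (congrArg Subtype.val hw) j)
    exact ⟨⟨x, hx⟩, W_ext _ _ _ _ _ hfx⟩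
  · rintro ⟨v, rfl⟩
    apply W_ext
    intro j
    exact comp j _ (v.2 j)

/-- A short exact sequence of windows: existence of a `ShortExact` complex in `ModuleCat (A k)` with
the three given objects. -/
theorem W_shortExact (L M N : Sp k) (hL : IsR L) (hM : IsR M) (hN : IsR N)
    (φ : L.V →ₗ[k] M.V) (ψ : M.V →ₗ[k] N.V)
    (hφ : HomR L M φ) (hψ : HomR M N ψ) (i₁ i₂ i₃ : ℤ)
    (h1 : ∀ j : Fin 5, ∀ x, x ∈ L.F ((j : ℕ) - i₁ : ℤ) → φ x ∈ M.F ((j : ℕ) - i₂ : ℤ))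
    (h2 : ∀ j : Fin 5, ∀ x, x ∈ M.F ((j : ℕ) - i₂ : ℤ) → ψ x ∈ N.F ((j : ℕ) - i₃ : ℤ))
    (inj : ∀ j : Fin 5, ∀ x, x ∈ L.F ((j : ℕ) - i₁ : ℤ) → φ x = 0 → x = 0)
    (comp : ∀ j : Fin 5, ∀ x, x ∈ L.F ((j : ℕ) - i₁ : ℤ) → ψ (φ x) = 0)
    (lift : ∀ j : Fin 5, ∀ y, y ∈ M.F ((j : ℕ) - i₂ : ℤ) → ψ y = 0 →
      ∃ x, x ∈ L.F ((j : ℕ) - i₁ : ℤ) ∧ φ x = y)
    (surj : ∀ j : Fin 5, ∀ z, z ∈ N.F ((j : ℕ) - i₃ : ℤ) →
      ∃ y, y ∈ M.F ((j : ℕ) - i₂ : ℤ) ∧ ψ y = z) :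
    ∃ (f : WM L hL i₁ ⟶ WM M hM i₂) (g : WM M hM i₂ ⟶ WM N hN i₃) (w : f ≫ g = 0),
      (ShortComplex.mk f g w).ShortExact := by
  have ex := Wm_exact L M N hL hM hN φ ψ hφ hψ i₁ i₂ i₃ h1 h2 comp lift
  refine ⟨ModuleCat.ofHom (Wm L M hL hM φ hφ i₁ i₂ h1), ModuleCat.ofHom (Wm M N hM hN ψ hψ i₂ i₃ h2),
    ?_, ?_⟩
  · ext v
    exact (ex _).2 ⟨v, rfl⟩
  · exact
      { exact := by
          rw [ShortComplex.ShortExact.moduleCat_exact_iff_function_exact]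
          exact ex
        mono_f := (ModuleCat.mono_iff_injective _).2 (Wm_injective L M hL hM φ hφ i₁ i₂ h1 inj)
        epi_g := (ModuleCat.epi_iff_surjective _).2 (Wm_surjective M N hM hN ψ hψ i₂ i₃ h2 surj) }

/-- the version for `Ex` -/
theorem Ex.shortExact {s : ℤ} {L M N : Sp k} {φ : L.V →ₗ[k] M.V} {ψ : M.V →ₗ[k] N.V}
    (h : Ex s L M N φ ψ) (hL : IsR L) (hM : IsR M) (hN : IsR N)
    (hφ : HomR L M φ) (hψ : HomR M N ψ) (i : ℤ) :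
    ∃ (f : WM L hL (i + s) ⟶ WM M hM i) (g : WM M hM i ⟶ WM N hN i) (w : f ≫ g = 0),
      (ShortComplex.mk f g w).ShortExact := by
  apply W_shortExact L M N hL hM hN φ ψ hφ hψ (i + s) i i
  · intro j x hx
    have := h.D_mem _ x hx
    have e : (((j : ℕ) : ℤ) - (i + s)) + s = (j : ℕ) - i := by ring
    rwa [e] at this
  · intro j x hx
    exact h.ev_mem _ x hx
  · intro j x _ hx
    exact h.inj (hx.trans (map_zero φ).symm)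
  · intro j x _
    exact h.comp x
  · intro j y hy h0
    have e : ((j : ℕ) : ℤ) - i = ((j : ℕ) : ℤ) - (i + s) + s := by ring
    rw [e] at hy
    obtain ⟨x, hx, hxy⟩ := h.lift _ y hy h0
    exact ⟨x, hx, hxy⟩
  · intro j z hz
    obtain ⟨y, hy, hyz⟩ := h.surj _ z hz
    exact ⟨y, hy, hyz⟩

end Vale.Agent.P176
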