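import Vale.Agent.Lib.P176.FinD
import Vale.Agent.Lib.P176.MEx
import Vale.Agent.Lib.P176.MPoly
import Vale.Agent.Lib.P176.MHomP
import Vale.Agent.Lib.P176.MHomD
import Vale.Agent.Lib.P176.MHomD1
import Vale.Agent.Lib.P176.WinEx

/-!
# P176: projective dimensions of the induced modules
-/

namespace Vale.Agent.P176

open CategoryTheory

variable {k : Type} [Field k]

theorem ConcZero.mono {N : Sp k} (h : ConcZero N) (i j : ℤ) (hij : i ≤ j) : N.F i ≤ N.F j := by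
  rcases lt_or_ge i 0 with hi | hi
  · rw [h.2 i hi]; exact bot_le
  · rw [h.1 j (le_trans hi hij)]; exact le_top

theorem concZero_Sp1 : ConcZero (Sp1 k) := ⟨fun j hj => if_pos hj, fun j hj => if_neg (not_le.2 hj)⟩

theorem isR_Q0 (Y : Sp k) (hY : ConcZero Y) : IsR (T (M1 (M2 (M3 Y)))) :=
  isR_T _ (isU_M1 _ (isB_M2 _ (isH_M3 _ hY.mono)))

theorem isR_Q1 (Y : Sp k) (hY : IsH Y) : IsR (T (M1 (M2 Y))) :=
  isR_T _ (isU_M1 _ (isB_M2 _ hY))

theorem isR_Q2 (Y : Sp k) (hY : IsB Y) : IsR (T (M1 Y)) :=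
  isR_T _ (isU_M1 _ hY)

theorem ex_of_concZero (A B C : Sp k) (hA : ConcZero A) (hB : ConcZero B) (hC : ConcZero C)
    (D : A.V →ₗ[k] B.V) (ev : B.V →ₗ[k] C.V) (inj : Function.Injective D)
    (comp : ∀ x, ev (D x) = 0) (lift : ∀ y, ev y = 0 → ∃ x, D x = y)
    (surj : Function.Surjective ev) : Ex 0 A B C D ev where
  inj := inj
  D_mem j x hx := by
    rw [add_zero]
    rcases lt_or_ge j 0 with hj | hj
    · rw [hA.2 j hj, Submodule.mem_bot] at hx
      rw [hx, map_zero]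
      exact Submodule.zero_mem _
    · rw [hB.1 j hj]; trivial
  ev_mem j x hx := by
    rcases lt_or_ge j 0 with hj | hj
    · rw [hB.2 j hj, Submodule.mem_bot] at hx
      rw [hx, map_zero]
      exact Submodule.zero_mem _
    · rw [hC.1 j hj]; trivial
  comp := comp
  lift j y hy h0 := by
    rw [add_zero] at hy
    obtain ⟨x, hx⟩ := lift y h0
    refine ⟨x, ?_, hx⟩
    rcases lt_or_ge j 0 with hj | hj
    · rw [hB.2 j hj, Submodule.mem_bot] at hy
      have : x = 0 := inj (by rw [hx, hy, map_zero])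
      rw [this]
      exact Submodule.zero_mem _
    · rw [hA.1 j hj]; trivial
  surj j z hz := by
    obtain ⟨y, hy⟩ := surj z
    rcases lt_or_ge j 0 with hj | hj
    · rw [hC.2 j hj, Submodule.mem_bot] at hz
      exact ⟨0, Submodule.zero_mem _, by rw [map_zero, hz]⟩
    · exact ⟨y, by rw [hB.1 j hj]; trivial, hy⟩

/-- a plain vector space in degree `0` -/
noncomputable def vec (V : Type) [AddCommGroup V] [Module k V] : Sp k where
  V := V
  act := fun _ => 0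
  F := fun j => if 0 ≤ j then ⊤ else ⊥

theorem concZero_vec (V : Type) [AddCommGroup V] [Module k V] : ConcZero (vec (k := k) V) :=
  ⟨fun _ hj => if_pos hj, fun _ hj => if_neg (not_le.2 hj)⟩

/-- a filtered exact sequence of vector spaces `0 → ker ψ → Y → k → 0` -/
theorem ex_hyper (Y : Sp k) (hY : ConcZero Y) (ψ : Y.V →ₗ[k] k) (hψ : ψ ≠ 0) :
    Ex 0 (vec (LinearMap.ker ψ)) Y (Sp1 k) (LinearMap.ker ψ).subtype ψ := by
  have hs : Function.Surjective ψ := LinearMap.surjective hψ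
  exact ex_of_concZero (vec (LinearMap.ker ψ)) Y (Sp1 k) (concZero_vec _) hY concZero_Sp1
    (LinearMap.ker ψ).subtype ψ Subtype.val_injective (fun x => x.2) (fun y hy => ⟨⟨y, hy⟩, rfl⟩)
    hs

theorem pd_Q0 (i : ℤ) (h0 : 0 ≤ i) (h4 : i ≤ 4) (Y : Sp k) (hY : ConcZero Y)
    [Module.Finite k Y.V] (hR : IsR (T (M1 (M2 (M3 Y))))) :
    HasProjectiveDimensionLT (WM _ hR i) 1 := by
  obtain ⟨n, hn⟩ : ∃ n, Module.finrank k Y.V = n := ⟨_, rfl⟩
  induction n generalizing Y with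
  | zero =>
    have hsub : Subsingleton Y.V := Module.finrank_zero_iff.1 hn
    have hsubP : ∀ (V : Type) [AddCommGroup V] [Module k V] [Subsingleton V],
        Subsingleton (ℕ →₀ V) := fun V _ _ _ => inferInstance
    have hW : Subsingleton (W _ hR i) := by
      constructor
      intro v w
      apply W_ext
      intro j
      have h1 : Subsingleton ((ℕ →₀ (ℕ →₀ (ℕ →₀ (ℕ →₀ Y.V)))) ×
        ((ℕ →₀ (ℕ →₀ (ℕ →₀ Y.V))) × (ℕ →₀ (ℕ →₀ (ℕ →₀ Y.V))))) := inferInstance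
      exact @Subsingleton.elim _ h1 _ _
    have hz : Limits.IsZero (WM _ hR i) :=
      @ModuleCat.isZero_of_subsingleton (A k) _ (WM _ hR i) hW
    have := hz.hasProjectiveDimensionLT_zero
    exact hasProjectiveDimensionLT_of_ge _ 0 1 (by norm_num)
  | succ n ih =>
    have hnt : Nontrivial Y.V := Module.nontrivial_of_finrank_pos (R := k) (by omega)
    obtain ⟨v, hv⟩ := exists_ne (0 : Y.V)
    obtain ⟨ψ, hψv⟩ : ∃ ψ : Module.Dual k Y.V, ψ v ≠ 0 := by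
      by_contra hcon
      push Not at hcon
      exact hv ((Module.forall_dual_apply_eq_zero_iff k v).1 hcon)
    have hψ : ψ ≠ 0 := fun h => hψv (by rw [h]; rfl)
    have hex := ex_T (ex_M1 (ex_M2 (ex_M3 (ex_hyper Y hY ψ hψ))))
    have hR' : IsR (T (M1 (M2 (M3 (vec (k := k) (LinearMap.ker ψ)))))) := isR_Q0 _ (concZero_vec _)
    obtain ⟨f, g, w, hs⟩ := hex.shortExact hR' hR isR_MM
      (homR_T (homU_M1 (homB_M2 (homH_M3 _)))) (homR_T (homU_M1 (homB_M2 (homH_M3 _)))) i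
    have hdim : Module.finrank k (LinearMap.ker ψ) = n := by
      have h1 := LinearMap.finrank_range_add_finrank_ker ψ
      have h2 : Module.finrank k (LinearMap.range ψ) = 1 := by
        rw [LinearMap.range_eq_top.2 (LinearMap.surjective hψ), finrank_top, Module.finrank_self]
      omega
    have hp1 : HasProjectiveDimensionLT (WM _ hR' (i + 0)) 1 := by
      have hfin : Module.Finite k (vec (k := k) (LinearMap.ker ψ)).V :=
        inferInstanceAs (Module.Finite k (LinearMap.ker ψ))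
      have := ih (vec (k := k) (LinearMap.ker ψ)) (concZero_vec _) hR' hdim
      rwa [add_zero]
    have hp3 : HasProjectiveDimensionLT (WM (MM k) isR_MM i) 1 := by
      have := free1_MM.projective_int (k := k) i h0 h4
      have h' : Projective (WM (MM k) isR_MM i) :=
        (IsProjective.iff_projective (R := A k) (P := W (MM k) isR_MM i)).1 this
      infer_instance
    exact hs.hasProjectiveDimensionLT_X₂ 1 hp1 hp3

/-- `0 → Q0(i+1) → Q0(i) → Q1(i) → 0` -/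
theorem se_Q1 (i : ℤ) (Y : Sp k) (hY : IsH Y) (h0 : IsR (T (M1 (M2 (M3 Y)))))
    (h1 : IsR (T (M1 (M2 Y)))) :
    ∃ (f : WM _ h0 (i + 1) ⟶ WM _ h0 i) (g : WM _ h0 i ⟶ WM _ h1 i) (w : f ≫ g = 0),
      (ShortComplex.mk f g w).ShortExact := by
  refine Ex.shortExact (ex_T (ex_M1 (ex_M2 (poly_M3 Y hY)))) h0 h0 h1 ?_ ?_ i
  · exact homR_T (homU_M1 (homB_M2 (homH_D3 Y)))
  · exact homR_T (homU_M1 (homB_M2 (homH_ev3 Y)))

/-- `0 → Q1(Y^{+2}, i+1) → Q1(Y, i) → Q2(Y, i) → 0` -/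
theorem se_Q2 (i : ℤ) (Y : Sp k) (hY : IsB Y) (h0 : IsR (T (M1 (M2 (sh 2 Y)))))
    (h0' : IsR (T (M1 (M2 Y)))) (h1 : IsR (T (M1 Y))) :
    ∃ (f : WM _ h0 (i + 1) ⟶ WM _ h0' i) (g : WM _ h0' i ⟶ WM _ h1 i) (w : f ≫ g = 0),
      (ShortComplex.mk f g w).ShortExact := by
  refine Ex.shortExact (ex_T (ex_M1 (poly_M2 Y hY))) h0 h0' h1 ?_ ?_ i
  · exact homR_T (homU_M1 (homB_D2 Y hY))
  · exact homR_T (homU_M1 (homB_ev2 Y hY))

/-- `0 → Q2(Y^{-2}, i+1) → Q2(Y, i) → Q3(Y, i) → 0` -/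
theorem se_Q3 (i : ℤ) (Y : Sp k) (hY : IsU Y) (h0 : IsR (T (M1 (sh (-2) Y))))
    (h0' : IsR (T (M1 Y))) (h1 : IsR (T Y)) :
    ∃ (f : WM _ h0 (i + 1) ⟶ WM _ h0' i) (g : WM _ h0' i ⟶ WM _ h1 i) (w : f ≫ g = 0),
      (ShortComplex.mk f g w).ShortExact := by
  refine Ex.shortExact (ex_T (poly_M1 Y hY)) h0 h0' h1 ?_ ?_ i
  · exact homR_T (homU_D1 Y hY)
  · exact homR_T (homU_ev1 Y hY)

theorem pd_Q1 (i : ℤ) (h0 : 0 ≤ i) (h3 : i ≤ 3) (Y : Sp k) (hY : ConcZero Y) (hH : IsH Y)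
    [Module.Finite k Y.V] (hR : IsR (T (M1 (M2 Y)))) :
    HasProjectiveDimensionLT (WM _ hR i) 2 := by
  obtain ⟨f, g, w, hs⟩ := se_Q1 i Y hH (isR_Q0 Y hY) hR
  exact hs.hasProjectiveDimensionLT_X₃ 1 (pd_Q0 (i + 1) (by omega) (by omega) Y hY _)
    (@hasProjectiveDimensionLT_of_ge _ _ _ _ 1 2 (by norm_num) (pd_Q0 i h0 (by omega) Y hY _))

theorem concZero_sh (r : k) (Y : Sp k) (h : ConcZero Y) : ConcZero (sh r Y) := h

instance (r : k) (Y : Sp k) [h : Module.Finite k Y.V] : Module.Finite k (sh r Y).V := h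

theorem pd_Q2 (i : ℤ) (h0 : 0 ≤ i) (h3 : i ≤ 2) (Y : Sp k) (hY : ConcZero Y) (hB : IsB Y)
    [Module.Finite k Y.V] (hR : IsR (T (M1 Y))) :
    HasProjectiveDimensionLT (WM _ hR i) 3 := by
  obtain ⟨f, g, w, hs⟩ := se_Q2 i Y hB (isR_Q1 _ (isB_sh 2 Y hB).toIsH) (isR_Q1 Y hB.toIsH) hR
  exact hs.hasProjectiveDimensionLT_X₃ 2
    (pd_Q1 (i + 1) (by omega) (by omega) (sh 2 Y) (concZero_sh 2 Y hY) (isB_sh 2 Y hB).toIsH _)
    (@hasProjectiveDimensionLT_of_ge _ _ _ _ 2 3 (by norm_num)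
      (pd_Q1 i h0 (by omega) Y hY hB.toIsH _))

theorem pd_Q3 (i : ℤ) (h0 : 0 ≤ i) (h3 : i ≤ 1) (Y : Sp k) (hY : ConcZero Y) (hU : IsU Y)
    [Module.Finite k Y.V] (hR : IsR (T Y)) :
    HasProjectiveDimensionLT (WM _ hR i) 4 := by
  obtain ⟨f, g, w, hs⟩ := se_Q3 i Y hU (isR_Q2 _ (isB_sh (-2) Y hU.toIsB)) (isR_Q2 Y hU.toIsB) hR
  exact hs.hasProjectiveDimensionLT_X₃ 3
    (pd_Q2 (i + 1) (by omega) (by omega) (sh (-2) Y) (concZero_sh (-2) Y hY)
      (isB_sh (-2) Y hU.toIsB) _)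
    (@hasProjectiveDimensionLT_of_ge _ _ _ _ 3 4 (by norm_num)
      (pd_Q2 i h0 (by omega) Y hY hU.toIsB _))

end Vale.Agent.P176
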