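import Vale.Agent.Lib.P176.HomAlg
import Vale.Agent.Lib.P176.WinEx
import Vale.Agent.Lib.P176.MPoly
import Vale.Agent.Lib.P176.MEx
import Vale.Agent.Lib.P176.MHomP
import Vale.Agent.Lib.P176.MHomD
import Vale.Agent.Lib.P176.MHomD1
import Vale.Agent.Lib.P176.MRel2
import Vale.Agent.Lib.P176.MRelT2

/-!
# P176: the Koszul type sequences as short exact sequences of `A`-modules
-/

namespace Vale.Agent.P176

open CategoryTheory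

variable {k : Type} [Field k]

theorem isR_Q0 (Y : Sp k) (hY : IsH Y) : IsR (T (M1 (M2 (M3 Y)))) :=
  isR_T _ (isU_M1 _ (isB_M2 _ (isH_M3 _ hY.mono)))

theorem isR_Q1 (Z : Sp k) (hZ : IsH Z) : IsR (T (M1 (M2 Z))) :=
  isR_T _ (isU_M1 _ (isB_M2 _ hZ))

theorem isR_Q2 (B : Sp k) (hB : IsB B) : IsR (T (M1 B)) :=
  isR_T _ (isU_M1 _ hB)

/-- `Q0(Y, i)` -/
noncomputable def Q0 (Y : Sp k) (hY : IsH Y) (i : ℤ) : ModuleCat.{0} (A k) :=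
  WM (T (M1 (M2 (M3 Y)))) (isR_Q0 Y hY) i

/-- `Q1(Z, i)` -/
noncomputable def Q1 (Z : Sp k) (hZ : IsH Z) (i : ℤ) : ModuleCat.{0} (A k) :=
  WM (T (M1 (M2 Z))) (isR_Q1 Z hZ) i

/-- `Q2(B, i)` -/
noncomputable def Q2 (B : Sp k) (hB : IsB B) (i : ℤ) : ModuleCat.{0} (A k) :=
  WM (T (M1 B)) (isR_Q2 B hB) i

/-- `Q3(E, i)` -/
noncomputable def Q3 (E : Sp k) (hE : IsU E) (i : ℤ) : ModuleCat.{0} (A k) :=
  WM (T E) (isR_T E hE) i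

theorem seq_h (Z : Sp k) (hZ : IsH Z) (i : ℤ) : SES (Q0 Z hZ (i + 1)) (Q0 Z hZ i) (Q1 Z hZ i) :=
  (ex_T (ex_M1 (ex_M2 (poly_M3 Z hZ)))).shortExact (isR_Q0 Z hZ) (isR_Q0 Z hZ) (isR_Q1 Z hZ)
    (homR_T (homU_M1 (homB_M2 (homH_D3 Z)))) (homR_T (homU_M1 (homB_M2 (homH_ev3 Z)))) i

theorem seq_e (B : Sp k) (hB : IsB B) (i : ℤ) :
    SES (Q1 (sh 2 B) (isB_sh 2 B hB).toIsH (i + 1)) (Q1 B hB.toIsH i) (Q2 B hB i) :=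
  (ex_T (ex_M1 (poly_M2 B hB))).shortExact (isR_Q1 (sh 2 B) (isB_sh 2 B hB).toIsH)
    (isR_Q1 B hB.toIsH) (isR_Q2 B hB)
    (homR_T (homU_M1 (homB_D2 B hB))) (homR_T (homU_M1 (homB_ev2 B hB))) i

theorem seq_f (E : Sp k) (hE : IsU E) (i : ℤ) :
    SES (Q2 (sh (-2) E) (isB_sh (-2) E hE.toIsB) (i + 1)) (Q2 E hE.toIsB i) (Q3 E hE i) :=
  (ex_T (poly_M1 E hE)).shortExact (isR_Q2 (sh (-2) E) (isB_sh (-2) E hE.toIsB))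
    (isR_Q2 E hE.toIsB) (isR_T E hE)
    (homR_T (homU_D1 E hE)) (homR_T (homU_ev1 E hE)) i

end Vale.Agent.P176
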