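import Mathlib

/-!
# P176: filtered operator spaces

`Sp` = filtered `k`-vector space with six operators `e f h c b1 b2` (no relations).
The predicates `IsH`, `IsB`, `IsU`, `IsR` say that the operators (resp. `h`; `e,h`; `e,f,h`; all six)
respect the filtration and satisfy the relations of the paper proof.
-/

namespace Vale.Agent.P176

/-- the six generators -/
inductive Gen | e | f | h | c | b1 | b2
  deriving DecidableEq

/-- degree of a generator -/
def Gen.deg : Gen → ℤ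
  | .b1 => -1
  | .b2 => -1
  | _ => 1

variable (k : Type) [Field k]

/-- filtered `k`-vector space with six operators. -/
structure Sp where
  V : Type
  [acg : AddCommGroup V]
  [mod : Module k V]
  act : Gen → V →ₗ[k] V
  F : ℤ → Submodule k V

attribute [instance] Sp.acg Sp.mod

variable {k}

/-- the filtration is increasing and `h` raises it by at most one -/
structure IsH (N : Sp k) : Prop where
  mono : ∀ i j, i ≤ j → N.F i ≤ N.F j
  h_mem : ∀ j x, x ∈ N.F j → N.act .h x ∈ N.F (j + 1)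

/-- module over the Borel algebra `⟨h, e⟩` -/
structure IsB (N : Sp k) : Prop extends IsH N where
  e_mem : ∀ j x, x ∈ N.F j → N.act .e x ∈ N.F (j + 1)
  he : ∀ x, N.act .h (N.act .e x) = N.act .e (N.act .h x) + (2 : k) • N.act .e x

/-- module over `U(sl₂)` -/
structure IsU (N : Sp k) : Prop extends IsB N where
  f_mem : ∀ j x, x ∈ N.F j → N.act .f x ∈ N.F (j + 1)
  ef : ∀ x, N.act .e (N.act .f x) = N.act .f (N.act .e x) + N.act .h x
  hf : ∀ x, N.act .h (N.act .f x) = N.act .f (N.act .h x) - (2 : k) • N.act .f x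

/-- module over the ring `R` -/
structure IsR (N : Sp k) : Prop extends IsU N where
  c_mem : ∀ j x, x ∈ N.F j → N.act .c x ∈ N.F (j + 1)
  b1_mem : ∀ j x, x ∈ N.F j → N.act .b1 x ∈ N.F (j - 1)
  b2_mem : ∀ j x, x ∈ N.F j → N.act .b2 x ∈ N.F (j - 1)
  ce : ∀ x, N.act .c (N.act .e x) = N.act .e (N.act .c x)
  cf : ∀ x, N.act .c (N.act .f x) = N.act .f (N.act .c x)
  ch : ∀ x, N.act .c (N.act .h x) = N.act .h (N.act .c x)
  eb1 : ∀ x, N.act .e (N.act .b1 x) = N.act .b1 (N.act .e x) - N.act .b2 x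
  eb2 : ∀ x, N.act .e (N.act .b2 x) = N.act .b2 (N.act .e x)
  fb1 : ∀ x, N.act .f (N.act .b1 x) = N.act .b1 (N.act .f x)
  fb2 : ∀ x, N.act .f (N.act .b2 x) = N.act .b2 (N.act .f x) - N.act .b1 x
  hb1 : ∀ x, N.act .h (N.act .b1 x) = N.act .b1 (N.act .h x) - N.act .b1 x
  hb2 : ∀ x, N.act .h (N.act .b2 x) = N.act .b2 (N.act .h x) + N.act .b2 x
  b1c : ∀ x, N.act .b1 (N.act .c x)
    = N.act .b1 (N.act .h x) - (2 : k) • N.act .b1 x + (2 : k) • N.act .b2 (N.act .f x)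
  b2c : ∀ x, N.act .b2 (N.act .c x)
    = (2 : k) • N.act .b1 (N.act .e x) - N.act .b2 (N.act .h x) - (2 : k) • N.act .b2 x
  cb1 : ∀ x, N.act .c (N.act .b1 x) = N.act .b1 (N.act .c x) - N.act .b1 x
  cb2 : ∀ x, N.act .c (N.act .b2 x) = N.act .b2 (N.act .c x) - N.act .b2 x
  b1b1 : ∀ x, N.act .b1 (N.act .b1 x) = 0
  b1b2 : ∀ x, N.act .b1 (N.act .b2 x) = 0
  b2b1 : ∀ x, N.act .b2 (N.act .b1 x) = 0
  b2b2 : ∀ x, N.act .b2 (N.act .b2 x) = 0

/-- `φ` commutes with the generator `g` -/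
def Comm (g : Gen) (A B : Sp k) (φ : A.V →ₗ[k] B.V) : Prop :=
  ∀ x, φ (A.act g x) = B.act g (φ x)

/-- `φ` commutes with `h` -/
def HomH (A B : Sp k) (φ : A.V →ₗ[k] B.V) : Prop := Comm .h A B φ
/-- `φ` commutes with `h, e` -/
def HomB (A B : Sp k) (φ : A.V →ₗ[k] B.V) : Prop := Comm .h A B φ ∧ Comm .e A B φ
/-- `φ` commutes with `h, e, f` -/
def HomU (A B : Sp k) (φ : A.V →ₗ[k] B.V) : Prop :=
  Comm .h A B φ ∧ Comm .e A B φ ∧ Comm .f A B φ
/-- `φ` commutes with all generators -/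
def HomR (A B : Sp k) (φ : A.V →ₗ[k] B.V) : Prop := ∀ g, Comm g A B φ

/-- filtered exact sequence `0 → A → B → C → 0` (of filtered vector spaces), where `D` raises the
filtration by `s` (so it is an honest filtered sequence `0 → A(-s) → B → C → 0`). -/
structure Ex (s : ℤ) (A B C : Sp k) (D : A.V →ₗ[k] B.V) (ev : B.V →ₗ[k] C.V) : Prop where
  inj : Function.Injective D
  D_mem : ∀ j x, x ∈ A.F j → D x ∈ B.F (j + s)
  ev_mem : ∀ j x, x ∈ B.F j → ev x ∈ C.F j
  comp : ∀ x, ev (D x) = 0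
  lift : ∀ j y, y ∈ B.F (j + s) → ev y = 0 → ∃ x ∈ A.F j, D x = y
  surj : ∀ j z, z ∈ C.F j → ∃ y ∈ B.F j, ev y = z

/-! ### the constructions -/

/-- coefficientwise filtration on `W[x]`, written as finitely supported functions -/
def PF {V : Type} [AddCommGroup V] [Module k V] (F : ℤ → Submodule k V) (j : ℤ) :
    Submodule k (ℕ →₀ V) where
  carrier := {p | ∀ a : ℕ, p a ∈ F (j - a)}
  zero_mem' := fun a => by simp
  add_mem' := fun {p q} hp hq a => by simpa using (F (j - a)).add_mem (hp a) (hq a)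
  smul_mem' := fun r p hp a => by simpa using (F (j - a)).smul_mem r (hp a)

theorem mem_PF {V : Type} [AddCommGroup V] [Module k V] (F : ℤ → Submodule k V) (j : ℤ)
    (p : ℕ →₀ V) : p ∈ PF F j ↔ ∀ a : ℕ, p a ∈ F (j - a) := Iff.rfl

/-- multiplication by the variable -/
noncomputable def shift (k : Type) [Field k] (V : Type) [AddCommGroup V] [Module k V] : (ℕ →₀ V) →ₗ[k] (ℕ →₀ V) :=
  Finsupp.lmapDomain V k Nat.succ

@[simp] theorem shift_single (V : Type) [AddCommGroup V] [Module k V] (a : ℕ) (v : V) :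
    shift k V (Finsupp.single a v) = Finsupp.single (a + 1) v := by
  simp [shift]

/-- `N` with `h` replaced by `h + r` -/
def sh (r : k) (N : Sp k) : Sp k where
  V := N.V
  act := fun g => match g with
    | .h => N.act .h + r • LinearMap.id
    | g => N.act g
  F := N.F

/-- `M3 N = k[h] ⊗ N` (the operators of `N` are forgotten) -/
noncomputable def M3 (N : Sp k) : Sp k where
  V := ℕ →₀ N.V
  act := fun g => match g with
    | .h => shift k N.V
    | _ => 0
  F := PF N.F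

/-- `M2 Z = U(b) ⊗_{k[h]} Z` -/
noncomputable def M2 (N : Sp k) : Sp k where
  V := ℕ →₀ N.V
  act := fun g => match g with
    | .e => shift k N.V
    | .h => Finsupp.lsum k (fun b : ℕ =>
        (Finsupp.lsingle b : N.V →ₗ[k] (ℕ →₀ N.V)) ∘ₗ
          (N.act .h + (2 * (b : k)) • LinearMap.id))
    | _ => 0
  F := PF N.F

/-- `M1 W = U(sl₂) ⊗_{U(b)} W` -/
noncomputable def M1 (N : Sp k) : Sp k where
  V := ℕ →₀ N.V
  act := fun g => match g with
    | .f => shift k N.V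
    | .h => Finsupp.lsum k (fun a : ℕ =>
        (Finsupp.lsingle a : N.V →ₗ[k] (ℕ →₀ N.V)) ∘ₗ
          (N.act .h - (2 * (a : k)) • LinearMap.id))
    | .e => Finsupp.lsum k (fun a : ℕ =>
        (Finsupp.lsingle a : N.V →ₗ[k] (ℕ →₀ N.V)) ∘ₗ (N.act .e) +
        (a : k) • ((Finsupp.lsingle (a - 1) : N.V →ₗ[k] (ℕ →₀ N.V)) ∘ₗ
          (N.act .h - ((a : k) - 1) • LinearMap.id)))
    | _ => 0
  F := PF N.F

/-- the Casimir operator on `b1 Y + b2 Y` -/
noncomputable def KK (N : Sp k) : (N.V × N.V) →ₗ[k] (N.V × N.V) :=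
  LinearMap.prod
    ((N.act .h - (2 : k) • LinearMap.id) ∘ₗ LinearMap.fst k _ _
      + (2 : k) • (N.act .e ∘ₗ LinearMap.snd k _ _))
    ((2 : k) • (N.act .f ∘ₗ LinearMap.fst k _ _)
      - (N.act .h + (2 : k) • LinearMap.id) ∘ₗ LinearMap.snd k _ _)

/-- the three operators `e f h` on `b1 Y + b2 Y` -/
noncomputable def actV (N : Sp k) : Gen → (N.V × N.V) →ₗ[k] (N.V × N.V)
  | .e => LinearMap.prod (N.act .e ∘ₗ LinearMap.fst k _ _)
      (N.act .e ∘ₗ LinearMap.snd k _ _ - LinearMap.fst k _ _)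
  | .f => LinearMap.prod (N.act .f ∘ₗ LinearMap.fst k _ _ - LinearMap.snd k _ _)
      (N.act .f ∘ₗ LinearMap.snd k _ _)
  | .h => LinearMap.prod (N.act .h ∘ₗ LinearMap.fst k _ _ - LinearMap.fst k _ _)
      (N.act .h ∘ₗ LinearMap.snd k _ _ + LinearMap.snd k _ _)
  | .c => KK N - LinearMap.id
  | _ => 0

/-- `T Y = R ⊗_U Y = Y[c] ⊕ b1 Y ⊕ b2 Y` -/
noncomputable def T (N : Sp k) : Sp k where
  V := (ℕ →₀ N.V) × (N.V × N.V)
  act := fun g => match g with
    | .e => LinearMap.prodMap (Finsupp.mapRange.linearMap (N.act .e)) (actV N .e)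
    | .f => LinearMap.prodMap (Finsupp.mapRange.linearMap (N.act .f)) (actV N .f)
    | .h => LinearMap.prodMap (Finsupp.mapRange.linearMap (N.act .h)) (actV N .h)
    | .c => LinearMap.prodMap (shift k N.V) (actV N .c)
    | .b1 => LinearMap.inr k _ _ ∘ₗ
        (Finsupp.lsum k (fun l : ℕ => (KK N ^ l) ∘ₗ LinearMap.inl k N.V N.V)) ∘ₗ
        LinearMap.fst k _ _
    | .b2 => LinearMap.inr k _ _ ∘ₗ
        (Finsupp.lsum k (fun l : ℕ => (KK N ^ l) ∘ₗ LinearMap.inr k N.V N.V)) ∘ₗ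
        LinearMap.fst k _ _
  F := fun j => (PF N.F j).prod ((N.F (j + 1)).prod (N.F (j + 1)))

/-- `M3, M2, M1` on maps -/
noncomputable def Pmap {V W : Type} [AddCommGroup V] [Module k V] [AddCommGroup W] [Module k W]
    (φ : V →ₗ[k] W) : (ℕ →₀ V) →ₗ[k] (ℕ →₀ W) := Finsupp.mapRange.linearMap φ

/-- `T` on maps -/
noncomputable def Tmap {V W : Type} [AddCommGroup V] [Module k V] [AddCommGroup W] [Module k W]
    (φ : V →ₗ[k] W) : ((ℕ →₀ V) × (V × V)) →ₗ[k] ((ℕ →₀ W) × (W × W)) :=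
  LinearMap.prodMap (Pmap φ) (LinearMap.prodMap φ φ)

/-- `x^a w ↦ x^{a+1} w - x^a θ w` -/
noncomputable def Dmap {V : Type} [AddCommGroup V] [Module k V] (θ : V →ₗ[k] V) :
    (ℕ →₀ V) →ₗ[k] (ℕ →₀ V) := shift k V - Pmap θ

/-- `x^a w ↦ θ^a w` -/
noncomputable def evmap {V : Type} [AddCommGroup V] [Module k V] (θ : V →ₗ[k] V) :
    (ℕ →₀ V) →ₗ[k] V := Finsupp.lsum k (fun a : ℕ => θ ^ a)

/-- a finite-dimensional vector space in degree `0` -/
def ConcZero (N : Sp k) : Prop := (∀ j : ℤ, 0 ≤ j → N.F j = ⊤) ∧ (∀ j : ℤ, j < 0 → N.F j = ⊥)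

/-- `k` in degree `0`, all operators zero -/
noncomputable def Sp1 (k : Type) [Field k] : Sp k where
  V := k
  act := fun _ => 0
  F := fun j => if 0 ≤ j then ⊤ else ⊥

end Vale.Agent.P176
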