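import Vale.Agent.Lib.P176.Ring
import Vale.Agent.Lib.P176.MRelT2
import Vale.Agent.Lib.P176.MRel2

/-!
# P176: universal properties of `M3, M2, M1, T`

* `M3`: `φ (h^d y) = h^d (g y)`.
* `M2`: `φ (e^b z) = e^b (g z)`; `h e^b = e^b (h + 2b)` in `N` by induction from `IsB.he`.
* `M1`: `φ (f^a w) = f^a (g w)`; in `N`: `h f^a = f^a (h - 2a)`, `e f^a = f^a e + a f^{a-1} (h - (a-1))`.
* `T`: `φ (c^l y) = c^l (g y)`, `φ (b_k y) = b_k (g y)`. With `β (q₁, q₂) = b1 (g q₁) + b2 (g q₂)`: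
  `b1 (c (g q₁)) + b2 (c (g q₂)) = β (K q)` (relations `b1c`, `b2c`), so `(c + 1) β q = β (K q)`
  (relations `cb1`, `cb2`), hence `b_k (c^l g y) = (c+1)^l b_k (g y) = β (K^l ι_k y)`.
-/

namespace Vale.Agent.P176

variable {k : Type} [Field k]

/-- the extension `x^a y ↦ θ^a (g y)` -/
noncomputable def extmap {V W : Type} [AddCommGroup V] [Module k V] [AddCommGroup W] [Module k W]
    (θ : W →ₗ[k] W) (g : V →ₗ[k] W) : (ℕ →₀ V) →ₗ[k] W :=
  Finsupp.lsum k (fun a : ℕ => (θ ^ a) ∘ₗ g)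

theorem extmap_single {V W : Type} [AddCommGroup V] [Module k V] [AddCommGroup W] [Module k W]
    (θ : W →ₗ[k] W) (g : V →ₗ[k] W) (a : ℕ) (v : V) :
    extmap θ g (Finsupp.single a v) = (θ ^ a) (g v) := by
  simp [extmap]

theorem extmap_mem {V W : Type} [AddCommGroup V] [Module k V] [AddCommGroup W] [Module k W]
    (θ : W →ₗ[k] W) (g : V →ₗ[k] W) (F : ℤ → Submodule k V) (G : ℤ → Submodule k W)
    (hθ : ∀ j x, x ∈ G j → θ x ∈ G (j + 1)) (hg : ∀ j y, y ∈ F j → g y ∈ G j)
    (j : ℤ) (x : ℕ →₀ V) (hx : x ∈ PF F j) : extmap θ g x ∈ G j := by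
  have hpow : ∀ (a : ℕ) (i : ℤ) (w : W), w ∈ G i → (θ ^ a) w ∈ G (i + a) := by
    intro a
    induction a with
    | zero => intro i w hw; simpa using hw
    | succ a ih =>
      intro i w hw
      rw [pow_succ', Module.End.mul_apply]
      have := hθ _ _ (ih i w hw)
      have h : (i + (a : ℤ) + 1) = i + ((a + 1 : ℕ) : ℤ) := by push_cast; ring
      rwa [h] at this
  rw [extmap, Finsupp.lsum_apply, Finsupp.sum]
  apply Submodule.sum_mem
  intro a _
  have h1 := hpow a _ _ (hg _ _ ((mem_PF F j x).1 hx a))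
  have h2 : j - (a : ℤ) + a = j := by ring
  rw [h2] at h1
  exact h1

theorem extmap_shift {V W : Type} [AddCommGroup V] [Module k V] [AddCommGroup W] [Module k W]
    (θ : W →ₗ[k] W) (g : V →ₗ[k] W) (x : ℕ →₀ V) :
    extmap θ g (shift k V x) = θ (extmap θ g x) := by
  induction x using Finsupp.induction_linear with
  | zero => simp
  | add p q hp hq => rw [map_add, map_add, hp, hq, map_add, map_add]
  | single a v => rw [shift_single, extmap_single, extmap_single, pow_succ', Module.End.mul_apply]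

theorem lift3 (Y N : Sp k) (hN : IsH N) (g : Y.V →ₗ[k] N.V)
    (hg : ∀ j y, y ∈ Y.F j → g y ∈ N.F j) :
    ∃ φ : (ℕ →₀ Y.V) →ₗ[k] N.V, HomH (M3 Y) N φ ∧ (∀ j x, x ∈ PF Y.F j → φ x ∈ N.F j) ∧
      ∀ y, φ (Finsupp.single 0 y) = g y := by
  refine ⟨extmap (N.act .h) g, ?_, ?_, ?_⟩
  · intro x
    exact extmap_shift (N.act .h) g x
  · intro j x hx
    exact extmap_mem (N.act .h) g Y.F N.F hN.h_mem hg j x hx
  · intro y
    rw [extmap_single, pow_zero, Module.End.one_apply]

/-- `h e^b = e^b (h + 2b)` -/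
theorem h_pow_e (N : Sp k) (hN : IsB N) (b : ℕ) (x : N.V) :
    N.act .h ((N.act .e ^ b) x) = (N.act .e ^ b) (N.act .h x + (2 * (b : k)) • x) := by
  induction b generalizing x with
  | zero => simp
  | succ b ih =>
    rw [pow_succ, Module.End.mul_apply, ih, hN.he, Module.End.mul_apply]
    congr 1
    rw [map_add, map_smul]
    push_cast
    module

/-- `h f^a = f^a (h - 2a)` -/
theorem h_pow_f (N : Sp k) (hN : IsU N) (a : ℕ) (x : N.V) :
    N.act .h ((N.act .f ^ a) x) = (N.act .f ^ a) (N.act .h x - (2 * (a : k)) • x) := by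
  induction a generalizing x with
  | zero => simp
  | succ b ih =>
    rw [pow_succ, Module.End.mul_apply, ih, hN.hf, Module.End.mul_apply]
    congr 1
    rw [map_sub, map_smul]
    push_cast
    module

/-- `e f^a = f^a e + a f^{a-1} (h - (a-1))` -/
theorem e_pow_f (N : Sp k) (hN : IsU N) (a : ℕ) (x : N.V) :
    N.act .e ((N.act .f ^ a) x) = (N.act .f ^ a) (N.act .e x) +
      (a : k) • (N.act .f ^ (a - 1)) (N.act .h x - ((a : k) - 1) • x) := by
  induction a with
  | zero => simp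
  | succ a ih =>
    rw [pow_succ', Module.End.mul_apply, hN.ef, ih, h_pow_f N hN, Nat.add_sub_cancel,
      Module.End.mul_apply]
    rw [map_add, map_smul]
    rcases Nat.eq_zero_or_pos a with h0 | h0
    · subst h0
      simp
    · obtain ⟨b, rfl⟩ : ∃ b, a = b + 1 := ⟨a - 1, by omega⟩
      rw [Nat.add_sub_cancel]
      have h1 : ∀ y, N.act .f ((N.act .f ^ b) y) = (N.act .f ^ (b + 1)) y := by
        intro y; rw [pow_succ', Module.End.mul_apply]
      rw [h1]
      simp only [map_sub, map_smul]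
      push_cast
      module

theorem lift2 (Y N : Sp k) (hN : IsB N) (g : Y.V →ₗ[k] N.V) (hh : HomH Y N g)
    (hg : ∀ j y, y ∈ Y.F j → g y ∈ N.F j) :
    ∃ φ : (ℕ →₀ Y.V) →ₗ[k] N.V, HomB (M2 Y) N φ ∧ (∀ j x, x ∈ PF Y.F j → φ x ∈ N.F j) ∧
      ∀ y, φ (Finsupp.single 0 y) = g y := by
  have key : ∀ x : ℕ →₀ Y.V, extmap (N.act .e) g
      ((Finsupp.lsum k (fun b : ℕ => (Finsupp.lsingle b : Y.V →ₗ[k] (ℕ →₀ Y.V)) ∘ₗ
          (Y.act .h + (2 * (b : k)) • LinearMap.id)) : (ℕ →₀ Y.V) →ₗ[k] (ℕ →₀ Y.V)) x)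
        = N.act .h (extmap (N.act .e) g x) := by
    intro x
    induction x using Finsupp.induction_linear with
    | zero => simp only [map_zero]
    | add p q hp hq => simp only [map_add, hp, hq]
    | single a v =>
      rw [Finsupp.lsum_single, LinearMap.comp_apply, Finsupp.lsingle_apply, extmap_single,
        extmap_single, h_pow_e N hN, LinearMap.add_apply, LinearMap.smul_apply, LinearMap.id_apply,
        map_add g, map_smul g, hh]
  refine ⟨extmap (N.act .e) g, ⟨?_, ?_⟩, ?_, ?_⟩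
  · exact fun x => key x
  · intro x
    exact extmap_shift (N.act .e) g x
  · intro j x hx
    exact extmap_mem (N.act .e) g Y.F N.F hN.e_mem hg j x hx
  · intro y
    rw [extmap_single, pow_zero, Module.End.one_apply]

theorem lift1 (Y N : Sp k) (hN : IsU N) (g : Y.V →ₗ[k] N.V) (hh : HomB Y N g)
    (hg : ∀ j y, y ∈ Y.F j → g y ∈ N.F j) :
    ∃ φ : (ℕ →₀ Y.V) →ₗ[k] N.V, HomU (M1 Y) N φ ∧ (∀ j x, x ∈ PF Y.F j → φ x ∈ N.F j) ∧
      ∀ y, φ (Finsupp.single 0 y) = g y := by
  have key : ∀ x : ℕ →₀ Y.V, extmap (N.act .f) g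
      ((Finsupp.lsum k (fun a : ℕ => (Finsupp.lsingle a : Y.V →ₗ[k] (ℕ →₀ Y.V)) ∘ₗ
          (Y.act .h - (2 * (a : k)) • LinearMap.id)) : (ℕ →₀ Y.V) →ₗ[k] (ℕ →₀ Y.V)) x)
        = N.act .h (extmap (N.act .f) g x) := by
    intro x
    induction x using Finsupp.induction_linear with
    | zero => simp only [map_zero]
    | add p q hp hq => simp only [map_add, hp, hq]
    | single a v =>
      rw [Finsupp.lsum_single, LinearMap.comp_apply, Finsupp.lsingle_apply, extmap_single,
        extmap_single, h_pow_f N hN, LinearMap.sub_apply, LinearMap.smul_apply, LinearMap.id_apply,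
        map_sub g, map_smul g, hh.1]
  have key2 : ∀ x : ℕ →₀ Y.V, extmap (N.act .f) g
      ((Finsupp.lsum k (fun a : ℕ => (Finsupp.lsingle a : Y.V →ₗ[k] (ℕ →₀ Y.V)) ∘ₗ
          (Y.act .e) + (a : k) • ((Finsupp.lsingle (a - 1) : Y.V →ₗ[k] (ℕ →₀ Y.V)) ∘ₗ
          (Y.act .h - ((a : k) - 1) • LinearMap.id))) : (ℕ →₀ Y.V) →ₗ[k] (ℕ →₀ Y.V)) x)
        = N.act .e (extmap (N.act .f) g x) := by
    intro x
    induction x using Finsupp.induction_linear with
    | zero => simp only [map_zero]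
    | add p q hp hq => simp only [map_add, hp, hq]
    | single a v =>
      rw [Finsupp.lsum_single, LinearMap.add_apply, LinearMap.smul_apply, LinearMap.comp_apply,
        LinearMap.comp_apply, Finsupp.lsingle_apply, Finsupp.lsingle_apply, map_add, map_smul,
        extmap_single, extmap_single, extmap_single, e_pow_f N hN, LinearMap.sub_apply,
        LinearMap.smul_apply, LinearMap.id_apply, map_sub g, map_smul g, hh.1, hh.2]
  refine ⟨extmap (N.act .f) g, ⟨?_, ?_, ?_⟩, ?_, ?_⟩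
  · exact fun x => key x
  · exact fun x => key2 x
  · intro x
    exact extmap_shift (N.act .f) g x
  · intro j x hx
    exact extmap_mem (N.act .f) g Y.F N.F hN.f_mem hg j x hx
  · intro y
    rw [extmap_single, pow_zero, Module.End.one_apply]

end Vale.Agent.P176
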